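import Vale.Agent.P363.Two.Defs

/-!
Basic facts on the mollifier and on mollification.
-/

noncomputable section

open MeasureTheory Set Real Function
open scoped ENNReal

namespace Vale.Agent.P363.Two

instance : (volume : Measure C2).IsNegInvariant := Measure.pi.isNegInvariant _

lemma nsq_nonneg (X : C2) : 0 ≤ nsq X := by unfold nsq; positivity

lemma norm_sq_le_nsq (X : C2) : ‖X‖ ^ 2 ≤ nsq X := by
  have h : ‖X‖ ≤ √(nsq X) := (pi_norm_le_iff_of_nonneg (sqrt_nonneg _)).2 fun i => by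
    refine le_sqrt_of_sq_le ?_
    fin_cases i <;> simp [nsq]
  calc ‖X‖ ^ 2 ≤ √(nsq X) ^ 2 := pow_le_pow_left₀ (norm_nonneg _) h 2
    _ = nsq X := sq_sqrt (nsq_nonneg X)

lemma nsq_le (X : C2) : nsq X ≤ 2 * ‖X‖ ^ 2 := by
  have h0 := pow_le_pow_left₀ (norm_nonneg _) (norm_le_pi_norm X 0) 2
  have h1 := pow_le_pow_left₀ (norm_nonneg _) (norm_le_pi_norm X 1) 2
  rw [nsq]; linarith

lemma contDiff_nsq {n : ℕ∞} : ContDiff ℝ n nsq :=
  ((contDiff_apply ℝ R3 (0 : Fin 2)).norm_sq ℝ).add ((contDiff_apply ℝ R3 (1 : Fin 2)).norm_sq ℝ)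

lemma continuous_nsq : Continuous nsq := (contDiff_nsq (n := 0)).continuous

lemma nsq_neg (X : C2) : nsq (-X) = nsq X := by simp [nsq]

lemma nsq_smul (c : ℝ) (X : C2) : nsq (c • X) = c ^ 2 * nsq X := by
  simp [nsq, norm_smul, mul_pow]; ring

lemma hasFDerivAt_nsq (X : C2) :
    HasFDerivAt nsq (fderiv ℝ nsq X) X :=
  ((contDiff_nsq (n := 1)).differentiable one_ne_zero X).hasFDerivAt

lemma pd_nsq (i : Fin 2) (k : Fin 3) (X : C2) : pd i k nsq X = 2 * X i k := by
  have h0 := (hasFDerivAt_apply (𝕜 := ℝ) (F' := fun _ : Fin 2 => R3) (0 : Fin 2) X).norm_sq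
  have h1 := (hasFDerivAt_apply (𝕜 := ℝ) (F' := fun _ : Fin 2 => R3) (1 : Fin 2) X).norm_sq
  have h := h0.add h1
  have e : fderiv ℝ nsq X = _ := h.fderiv
  rw [pd, e]
  fin_cases i <;> simp [dir, EuclideanSpace.inner_single_right]

lemma contDiff_profRaw {n : ℕ∞} : ContDiff ℝ n profRaw :=
  expNegInvGlue.contDiff.comp (contDiff_const.sub contDiff_id)

lemma profRaw_nonneg (s : ℝ) : 0 ≤ profRaw s := expNegInvGlue.nonneg _

lemma profRaw_zero {s : ℝ} (hs : 1 ≤ s) : profRaw s = 0 :=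
  expNegInvGlue.zero_of_nonpos (by linarith)

lemma hasCompactSupport_comp_nsq {φ : ℝ → ℝ} (hφ : ∀ s, 1 ≤ s → φ s = 0) {t : ℝ} (ht : 0 < t) :
    HasCompactSupport fun Z : C2 => φ (nsq Z / t ^ 2) :=
  HasCompactSupport.intro (isCompact_closedBall (0 : C2) t) fun Z hZ => by
    refine hφ _ ((one_le_div (by positivity)).2 ?_)
    rw [Metric.mem_closedBall, dist_zero_right, not_le] at hZ
    exact (pow_le_pow_left₀ ht.le hZ.le 2).trans (norm_sq_le_nsq Z)

lemma integral_profRaw_pos : 0 < ∫ Z : C2, profRaw (nsq Z) := by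
  have hc : Continuous fun Z : C2 => profRaw (nsq Z) :=
    (contDiff_profRaw (n := 0)).continuous.comp continuous_nsq
  refine hc.integral_pos_of_hasCompactSupport_nonneg_nonzero ?_ (fun Z => profRaw_nonneg _)
    (x := 0) ?_
  · simpa using! hasCompactSupport_comp_nsq (φ := profRaw) (fun s => profRaw_zero) one_pos
  · exact (expNegInvGlue.pos_of_pos (by simp [nsq])).ne'

lemma contDiff_prof {n : ℕ∞} : ContDiff ℝ n prof := contDiff_profRaw.div_const _

lemma continuous_prof : Continuous prof := (contDiff_prof (n := 0)).continuous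

lemma prof_nonneg (s : ℝ) : 0 ≤ prof s := div_nonneg (profRaw_nonneg s) integral_profRaw_pos.le

lemma prof_zero {s : ℝ} (hs : 1 ≤ s) : prof s = 0 := by simp [prof, profRaw_zero hs]

lemma integral_prof : ∫ Z : C2, prof (nsq Z) = 1 := by
  simp_rw [prof, integral_div]
  exact div_self integral_profRaw_pos.ne'

lemma hasDerivAt_gProf (s : ℝ) : HasDerivAt gProf (-(1 / 2) * prof s) s := by
  have h := intervalIntegral.integral_hasDerivAt_left (continuous_prof.intervalIntegrable s 1)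
    (continuous_prof.stronglyMeasurableAtFilter _ _) continuous_prof.continuousAt
  exact (h.const_mul (1 / 2)).congr_deriv (by ring)

lemma deriv_gProf : deriv gProf = fun s => -(1 / 2) * prof s :=
  funext fun s => (hasDerivAt_gProf s).deriv

lemma contDiff_gProf {n : ℕ∞} : ContDiff ℝ n gProf := by
  have h : ContDiff ℝ ((⊤ : ℕ∞) + 1) gProf := by
    rw [contDiff_succ_iff_deriv]
    refine ⟨fun s => (hasDerivAt_gProf s).differentiableAt, by simp, ?_⟩
    rw [deriv_gProf]
    exact contDiff_const.mul contDiff_prof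
  exact h.of_le (by simpa using WithTop.coe_le_coe.2 (le_top : n ≤ ⊤))

lemma gProf_zero {s : ℝ} (hs : 1 ≤ s) : gProf s = 0 := by
  have h : EqOn prof (fun _ => 0) (uIcc s 1) := fun x hx => by
    rw [uIcc_of_ge hs, mem_Icc] at hx
    exact prof_zero hx.1
  simp [gProf, intervalIntegral.integral_congr h]

lemma gProf_nonneg (s : ℝ) : 0 ≤ gProf s := by
  rcases le_total s 1 with h | h
  · exact mul_nonneg (by norm_num) (intervalIntegral.integral_nonneg h fun x _ => prof_nonneg x)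
  · rw [gProf_zero h]

lemma exists_prof_bound : ∃ C, 0 < C ∧ ∀ s, 0 ≤ s → prof s ≤ C ∧ gProf s ≤ C := by
  obtain ⟨a, ha⟩ := (isCompact_Icc (a := (0 : ℝ)) (b := 1)).bddAbove_image
    continuous_prof.continuousOn
  obtain ⟨b, hb⟩ := (isCompact_Icc (a := (0 : ℝ)) (b := 1)).bddAbove_image
    (contDiff_gProf (n := 0)).continuous.continuousOn
  refine ⟨max (max a b) 1, lt_max_of_lt_right one_pos, fun s hs => ?_⟩
  rcases le_total s 1 with h | h
  · exact ⟨(ha ⟨s, ⟨hs, h⟩, rfl⟩).trans (le_max_of_le_left (le_max_left _ _)),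
      (hb ⟨s, ⟨hs, h⟩, rfl⟩).trans (le_max_of_le_left (le_max_right _ _))⟩
  · rw [prof_zero h, gProf_zero h]
    exact ⟨zero_le_one.trans (le_max_right _ _), zero_le_one.trans (le_max_right _ _)⟩

lemma contDiff_rho {n : ℕ∞} (t : ℝ) : ContDiff ℝ n (rho t) :=
  contDiff_const.mul (contDiff_prof.comp (contDiff_nsq.div_const _))

lemma contDiff_pot {n : ℕ∞} (t : ℝ) : ContDiff ℝ n (pot t) :=
  contDiff_const.mul (contDiff_gProf.comp (contDiff_nsq.div_const _))

lemma hasCompactSupport_rho {t : ℝ} (ht : 0 < t) : HasCompactSupport (rho t) :=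
  (hasCompactSupport_comp_nsq (φ := prof) (fun _ => prof_zero) ht).mul_left

lemma hasCompactSupport_pot {t : ℝ} (ht : 0 < t) : HasCompactSupport (pot t) :=
  (hasCompactSupport_comp_nsq (φ := gProf) (fun _ => gProf_zero) ht).mul_left

lemma rho_nonneg {t : ℝ} (ht : 0 ≤ t) (Z : C2) : 0 ≤ rho t Z :=
  mul_nonneg (by positivity) (prof_nonneg _)

lemma pot_nonneg {t : ℝ} (ht : 0 ≤ t) (Z : C2) : 0 ≤ pot t Z :=
  mul_nonneg (by positivity) (gProf_nonneg _)

lemma rho_zero {t : ℝ} (ht : 0 < t) {Z : C2} (hZ : t ^ 2 ≤ nsq Z) : rho t Z = 0 := by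
  rw [rho, prof_zero ((one_le_div (by positivity)).2 hZ), mul_zero]

lemma pot_zero {t : ℝ} (ht : 0 < t) {Z : C2} (hZ : t ^ 2 ≤ nsq Z) : pot t Z = 0 := by
  rw [pot, gProf_zero ((one_le_div (by positivity)).2 hZ), mul_zero]

lemma finrank_C2 : Module.finrank ℝ C2 = 6 := by
  rw [Module.finrank_pi_fintype]; simp

lemma integral_rho {t : ℝ} (ht : 0 < t) : ∫ Z, rho t Z = 1 := by
  have e : ∀ Z : C2, rho t Z = (t ^ 6)⁻¹ * (fun W => prof (nsq W)) (t⁻¹ • Z) := fun Z => by
    simp [rho, nsq_smul, div_eq_inv_mul, inv_pow]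
  simp_rw [e]
  rw [integral_const_mul,
    Measure.integral_comp_inv_smul_of_nonneg volume (fun W : C2 => prof (nsq W)) ht.le,
    integral_prof, finrank_C2, smul_eq_mul, mul_one, inv_mul_cancel₀ (by positivity)]

lemma moll_eq_convolution (t : ℝ) (u : C2 → ℝ) :
    moll t u = convolution (rho t) u (ContinuousLinearMap.lsmul ℝ ℝ) volume := by
  funext X
  rw [convolution_lsmul_swap]
  rfl

lemma moll_eq_integral (t : ℝ) (u : C2 → ℝ) (X : C2) :
    moll t u X = ∫ Z, rho t Z * u (X - Z) := by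
  rw [moll_eq_convolution]
  rfl

lemma contDiff_moll {t : ℝ} (ht : 0 < t) {u : C2 → ℝ} (hu : LocallyIntegrable u)
    {n : ℕ∞} : ContDiff ℝ n (moll t u) := by
  rw [moll_eq_convolution]
  exact (hasCompactSupport_rho ht).contDiff_convolution_left _ (contDiff_rho t) hu

lemma moll_nonneg {t : ℝ} (ht : 0 ≤ t) {u : C2 → ℝ} (hu : ∀ X, 0 ≤ u X) (X : C2) :
    0 ≤ moll t u X :=
  integral_nonneg fun Y => mul_nonneg (rho_nonneg ht _) (hu Y)

lemma pd_moll {t : ℝ} (ht : 0 < t) {u : C2 → ℝ} (hu : LocallyIntegrable u) (i : Fin 2) (k : Fin 3)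
    (X : C2) : pd i k (moll t u) X = ∫ Y, pd i k (rho t) (X - Y) * u Y := by
  have h := (hasCompactSupport_rho ht).hasFDerivAt_convolution_left
    (ContinuousLinearMap.lsmul ℝ ℝ) (contDiff_rho (n := 1) t) hu X
  rw [← moll_eq_convolution] at h
  rw [pd, h.fderiv, convolution_eq_swap]
  have hint : Integrable fun Y => ((ContinuousLinearMap.lsmul ℝ ℝ).precompL C2)
      (fderiv ℝ (rho t) (X - Y)) (u Y) := by
    have := ((hasCompactSupport_rho ht).fderiv ℝ).convolutionExists_left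
      ((ContinuousLinearMap.lsmul ℝ ℝ).precompL C2)
      ((contDiff_rho (n := 1) t).continuous_fderiv one_ne_zero) hu X
    exact this.integrable_swap
  rw [ContinuousLinearMap.integral_apply hint]
  rfl

end Vale.Agent.P363.Two
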