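import Vale.Agent.P363.Two.Pins
import Vale.Agent.P363.Two.Kernel

/-!
Hardy's inequality in the weak form `∫ f²/|x-a| ≤ ∫ (f² + |∇f|²)`, and its two-electron version.
-/

noncomputable section

open MeasureTheory Filter Topology Set Real
open scoped ENNReal

namespace Vale.Agent.P363.Two

/-- The `k`-th unit vector of space. -/
abbrev unit3 (k : Fin 3) : R3 := EuclideanSpace.single k 1

/-- A regularised radial unit field. -/
def hardyField (s : ℝ) (a : R3) (k : Fin 3) (x : R3) : ℝ := (x k - a k) / √(s ^ 2 + ‖x - a‖ ^ 2)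

lemma hasFDerivAt_hardyField {s : ℝ} (hs : 0 < s) (a : R3) (k : Fin 3) (x : R3) :
    ∃ L : R3 →L[ℝ] ℝ, HasFDerivAt (hardyField s a k) L x ∧
      L (unit3 k) = (√(s ^ 2 + ‖x - a‖ ^ 2))⁻¹
        - (x k - a k) ^ 2 * ((√(s ^ 2 + ‖x - a‖ ^ 2))⁻¹) ^ 3 := by
  have hq : 0 < s ^ 2 + ‖x - a‖ ^ 2 := by positivity
  have h1 : HasFDerivAt (fun y : R3 => s ^ 2 + ‖y - a‖ ^ 2) _ x :=
    (((hasFDerivAt_id x).sub_const a).norm_sq).const_add (s ^ 2)
  have h2 := h1.sqrt hq.ne'
  have h3 : HasFDerivAt (fun y : R3 => y k - a k) (EuclideanSpace.proj (𝕜 := ℝ) k) x :=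
    (EuclideanSpace.proj (𝕜 := ℝ) k).hasFDerivAt.sub_const _
  have h4 := (hasDerivAt_inv (sqrt_pos.2 hq).ne').comp_hasFDerivAt x h2
  refine ⟨_, h3.mul h4, ?_⟩
  simp [EuclideanSpace.inner_single_right, inv_pow]
  field_simp
  ring

lemma abs_hardyField_le {s : ℝ} (hs : 0 < s) (a : R3) (k : Fin 3) (x : R3) :
    |hardyField s a k x| ≤ 1 := by
  have hq : 0 < √(s ^ 2 + ‖x - a‖ ^ 2) := sqrt_pos.2 (by positivity)
  rw [hardyField, abs_div, abs_of_pos hq, div_le_one hq]
  refine (show |x k - a k| ≤ ‖x - a‖ from ?_).trans (le_sqrt_of_sq_le (by nlinarith [sq_nonneg s]))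
  simpa using PiLp.norm_apply_le (x - a) k

lemma integrable_bdd_mul_of {α : Type*} {m : MeasurableSpace α} {μ : Measure α} {f b : α → ℝ}
    (hf : Integrable f μ) (hb : AEStronglyMeasurable b μ) {C : ℝ} (h : ∀ x, |b x| ≤ C) :
    Integrable (fun x => b x * f x) μ :=
  hf.bdd_mul hb (Eventually.of_forall fun x => by simpa using h x)

/-- Hardy with a regularised distance. -/
lemma hardy_reg {f : R3 → ℝ} (hf : ContDiff ℝ 1 f) (h2 : MemLp f 2)
    (hd : ∀ k, MemLp (fun x => fderiv ℝ f x (unit3 k)) 2) (a : R3) {s : ℝ} (hs : 0 < s) :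
    2 * ∫ x, f x ^ 2 / √(s ^ 2 + ‖x - a‖ ^ 2) ≤
      (∫ x, f x ^ 2) + ∑ k, ∫ x, fderiv ℝ f x (unit3 k) ^ 2 := by
  set q := fun x : R3 => √(s ^ 2 + ‖x - a‖ ^ 2) with hqdef
  have hqpos : ∀ x, 0 < q x := fun x => sqrt_pos.2 (by positivity)
  have hqc : Continuous q := by fun_prop
  have hqinv : Continuous fun x => (q x)⁻¹ := hqc.inv₀ fun x => (hqpos x).ne'
  have hqs : ∀ x, |(q x)⁻¹| ≤ s⁻¹ := fun x => by
    rw [abs_of_pos (inv_pos.2 (hqpos x))]
    exact inv_anti₀ hs (le_sqrt_of_sq_le (by nlinarith [sq_nonneg ‖x - a‖]))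
  have hFc : ∀ k, Continuous (hardyField s a k) := fun k =>
    continuous_iff_continuousAt.2 fun x => (hasFDerivAt_hardyField hs a k x).choose_spec.1.continuousAt
  set df := fun k x => fderiv ℝ f x (unit3 k) with hdfdef
  have hf2 : Integrable fun x => f x ^ 2 := h2.integrable_sq
  have hfd : ∀ k, Integrable fun x => f x * df k x := fun k => h2.integrable_mul (hd k)
  -- the divergence
  set dF := fun k (x : R3) => (q x)⁻¹ - (x k - a k) ^ 2 * ((q x)⁻¹) ^ 3 with hdF
  have hdFc : ∀ k, Continuous (dF k) := fun k =>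
    hqinv.sub ((((by fun_prop : Continuous fun x : R3 => x k)).sub continuous_const).pow 2 |>.mul
      (hqinv.pow 3))
  have hdFle : ∀ k x, |dF k x| ≤ 2 * s⁻¹ := fun k x => by
    have h1 := hqs x
    have h2 : |(x k - a k) * (q x)⁻¹| ≤ 1 := by
      have := abs_hardyField_le hs a k x
      rwa [hardyField, div_eq_mul_inv] at this
    have h3 : |(x k - a k) ^ 2 * ((q x)⁻¹) ^ 3| ≤ s⁻¹ := by
      rw [show (x k - a k) ^ 2 * ((q x)⁻¹) ^ 3 = ((x k - a k) * (q x)⁻¹) ^ 2 * (q x)⁻¹ by ring,
        abs_mul, abs_pow]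
      calc |(x k - a k) * (q x)⁻¹| ^ 2 * |(q x)⁻¹| ≤ 1 ^ 2 * s⁻¹ := by gcongr
        _ = s⁻¹ := by ring
    exact (abs_sub _ _).trans (by linarith)
  have hparts : ∀ k, ∫ x, f x ^ 2 * dF k x = -∫ x, 2 * hardyField s a k x * (f x * df k x) := by
    intro k
    have hdiff : ∀ x, DifferentiableAt ℝ (hardyField s a k) x := fun x =>
      (hasFDerivAt_hardyField hs a k x).choose_spec.1.differentiableAt
    have e1 : ∀ x, fderiv ℝ (hardyField s a k) x (unit3 k) = dF k x := fun x => by
      obtain ⟨L, hL, hLv⟩ := hasFDerivAt_hardyField hs a k x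
      rw [hL.fderiv, hLv]
    have e2 : ∀ x, fderiv ℝ (fun y => f y ^ 2) x (unit3 k) = 2 * (f x * df k x) := fun x => by
      simp only [pow_two]
      rw [fderiv_fun_mul (hf.differentiable one_ne_zero x) (hf.differentiable one_ne_zero x)]
      simp [hdfdef]
      ring
    have := integral_mul_fderiv_eq_neg_fderiv_mul_of_integrable (μ := volume) (f := fun x => f x ^ 2)
      (g := hardyField s a k) (v := unit3 k)
      (by
        simp_rw [e2]
        exact ((integrable_bdd_mul_of ((hfd k).const_mul 2) (hFc k).aestronglyMeasurable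
          (abs_hardyField_le hs a k))).congr (Eventually.of_forall fun x => mul_comm _ _))
      (by
        simp_rw [e1]
        exact (integrable_bdd_mul_of hf2 (hdFc k).aestronglyMeasurable (hdFle k)).congr
          (Eventually.of_forall fun x => mul_comm _ _))
      ((integrable_bdd_mul_of hf2 (hFc k).aestronglyMeasurable
          (abs_hardyField_le hs a k)).congr (Eventually.of_forall fun x => mul_comm _ _))
      (fun x _ => (hf.differentiable one_ne_zero x).pow 2) (fun x _ => hdiff x)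
    simp_rw [e1, e2] at this
    rw [this]
    congr 1
    exact integral_congr_ae (Eventually.of_forall fun x => by ring)
  have hsumk : ∀ x, ∑ k, (x k - a k) ^ 2 = ‖x - a‖ ^ 2 := fun x => by
    simp [EuclideanSpace.norm_sq_eq]
  have hdiv : ∀ x, 2 * (f x ^ 2 / q x) ≤ ∑ k, f x ^ 2 * dF k x := by
    intro x
    simp only [hdF, ← Finset.mul_sum, Finset.sum_sub_distrib, ← Finset.sum_mul, hsumk,
      Finset.sum_const, Finset.card_univ, Fintype.card_fin, nsmul_eq_mul, div_eq_mul_inv]
    have hi := inv_pos.2 (hqpos x)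
    have hle : ‖x - a‖ ^ 2 * ((q x)⁻¹) ^ 2 ≤ 1 := by
      rw [← mul_pow, ← div_eq_mul_inv]
      refine pow_le_one₀ (by positivity) ((div_le_one (hqpos x)).2 ?_)
      exact le_sqrt_of_sq_le (by nlinarith [sq_nonneg s])
    push_cast
    nlinarith [mul_le_mul_of_nonneg_left (mul_le_mul_of_nonneg_right hle hi.le) (sq_nonneg (f x))]
  have hcs : ∀ x, -∑ k, 2 * hardyField s a k x * (f x * df k x) ≤
      f x ^ 2 + ∑ k, df k x ^ 2 := by
    intro x
    have hF : ∑ k, hardyField s a k x ^ 2 ≤ 1 := by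
      simp only [hardyField, div_pow, ← Finset.sum_div, hsumk]
      rw [sq_sqrt (by positivity), div_le_one (by positivity)]
      nlinarith
    have h := Finset.sum_nonneg (s := Finset.univ)
      fun k _ => sq_nonneg (hardyField s a k x * f x + df k x)
    simp only [add_sq, mul_pow, Finset.sum_add_distrib, ← Finset.sum_mul] at h
    have h2 : ∑ k, 2 * hardyField s a k x * (f x * df k x)
        = ∑ k, 2 * (hardyField s a k x * f x) * df k x :=
      Finset.sum_congr rfl fun k _ => by ring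
    nlinarith [mul_le_mul_of_nonneg_right hF (sq_nonneg (f x))]
  have hi1 : Integrable fun x => 2 * (f x ^ 2 / q x) :=
    ((integrable_bdd_mul_of hf2 hqinv.aestronglyMeasurable hqs).congr
      (Eventually.of_forall fun x => by rw [div_eq_mul_inv, mul_comm])).const_mul 2
  have hi2 : ∀ k, Integrable fun x => f x ^ 2 * dF k x := fun k =>
    (integrable_bdd_mul_of hf2 (hdFc k).aestronglyMeasurable (hdFle k)).congr
      (Eventually.of_forall fun x => mul_comm _ _)
  have hi3 : ∀ k, Integrable fun x => 2 * hardyField s a k x * (f x * df k x) := fun k =>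
    ((integrable_bdd_mul_of (hfd k) (hFc k).aestronglyMeasurable
      (abs_hardyField_le hs a k)).const_mul 2).congr (Eventually.of_forall fun x => by ring)
  have hi4 : ∀ k, Integrable fun x => df k x ^ 2 := fun k => (hd k).integrable_sq
  calc 2 * ∫ x, f x ^ 2 / q x = ∫ x, 2 * (f x ^ 2 / q x) := (integral_const_mul _ _).symm
    _ ≤ ∫ x, ∑ k, f x ^ 2 * dF k x :=
        integral_mono hi1 (integrable_finsetSum _ fun k _ => hi2 k) hdiv
    _ = ∫ x, -∑ k, 2 * hardyField s a k x * (f x * df k x) := by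
        rw [integral_neg, integral_finsetSum _ fun k _ => hi2 k,
          integral_finsetSum _ fun k _ => hi3 k, ← Finset.sum_neg_distrib]
        exact Finset.sum_congr rfl fun k _ => hparts k
    _ ≤ ∫ x, f x ^ 2 + ∑ k, df k x ^ 2 :=
        integral_mono (integrable_finsetSum _ fun k _ => hi3 k).neg
          (hf2.add (integrable_finsetSum _ fun k _ => hi4 k)) hcs
    _ = (∫ x, f x ^ 2) + ∑ k, ∫ x, df k x ^ 2 := by
        rw [integral_add hf2 (integrable_finsetSum _ fun k _ => hi4 k),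
          integral_finsetSum _ fun k _ => hi4 k]

/-- Hardy as an inequality of lower integrals. -/
lemma hardy_lintegral {f : R3 → ℝ} (hf : ContDiff ℝ 1 f) (h2 : MemLp f 2)
    (hd : ∀ k, MemLp (fun x => fderiv ℝ f x (unit3 k)) 2) (a : R3) :
    ∫⁻ x, ENNReal.ofReal (f x ^ 2 / ‖x - a‖) ≤
      ENNReal.ofReal ((∫ x, f x ^ 2) + ∑ k, ∫ x, fderiv ℝ f x (unit3 k) ^ 2) := by
  set B := (∫ x, f x ^ 2) + ∑ k, ∫ x, fderiv ℝ f x (unit3 k) ^ 2
  set F := fun (n : ℕ) (x : R3) => f x ^ 2 / √(scale n ^ 2 + ‖x - a‖ ^ 2)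
  have hsc : ∀ n, 0 < scale n := fun n => by unfold scale; positivity
  have hFc : ∀ n, Continuous (F n) := fun n =>
    (hf.continuous.pow 2).div₀ (by fun_prop) fun x =>
      (sqrt_pos.2 (by have := hsc n; positivity)).ne'
  have hB : ∀ n, ∫⁻ x, ENNReal.ofReal (F n x) ≤ ENNReal.ofReal B := by
    intro n
    have hint : Integrable (F n) := by
      refine (h2.integrable_sq.const_mul (scale n)⁻¹).mono' (hFc n).aestronglyMeasurable
        (Eventually.of_forall fun x => ?_)
      simp only [F]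
      rw [norm_of_nonneg (by positivity), div_eq_mul_inv, mul_comm]
      exact mul_le_mul_of_nonneg_right (inv_anti₀ (hsc n)
        (le_sqrt_of_sq_le (by nlinarith [sq_nonneg ‖x - a‖]))) (sq_nonneg _)
    have h0 : 0 ≤ ∫ x, F n x := integral_nonneg fun x => by positivity
    rw [← ofReal_integral_eq_lintegral_ofReal hint (Eventually.of_forall fun x => by positivity)]
    exact ENNReal.ofReal_le_ofReal (by linarith [hardy_reg hf h2 hd a (hsc n)])
  have hlim : ∀ᵐ x, Tendsto (fun n => ENNReal.ofReal (F n x)) atTop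
      (𝓝 (ENNReal.ofReal (f x ^ 2 / ‖x - a‖))) := by
    filter_upwards [Measure.ae_ne volume a] with x hx
    refine ENNReal.tendsto_ofReal ?_
    have h1 : Tendsto scale atTop (𝓝 0) := tendsto_one_div_add_atTop_nhds_zero_nat
    have h2 : Tendsto (fun n => √(scale n ^ 2 + ‖x - a‖ ^ 2)) atTop (𝓝 ‖x - a‖) := by
      have := ((h1.pow 2).add_const (‖x - a‖ ^ 2)).sqrt
      simpa [sqrt_sq (norm_nonneg _)] using this
    exact tendsto_const_nhds.div h2 (norm_ne_zero_iff.2 (sub_ne_zero.2 hx))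
  calc ∫⁻ x, ENNReal.ofReal (f x ^ 2 / ‖x - a‖)
      = ∫⁻ x, liminf (fun n => ENNReal.ofReal (F n x)) atTop :=
        lintegral_congr_ae (by filter_upwards [hlim] with x hx using hx.liminf_eq.symm)
    _ ≤ liminf (fun n => ∫⁻ x, ENNReal.ofReal (F n x)) atTop :=
        lintegral_liminf_le' fun n => (hFc n).measurable.ennreal_ofReal.aemeasurable
    _ ≤ ENNReal.ofReal B := liminf_le_of_frequently_le' (Frequently.of_forall hB)

lemma integrable_of_lintegral_le {α : Type*} [MeasurableSpace α] {μ : Measure α} {g : α → ℝ}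
    (hm : AEStronglyMeasurable g μ) (h0 : 0 ≤ᵐ[μ] g) {B : ℝ} (hB : 0 ≤ B)
    (h : ∫⁻ x, ENNReal.ofReal (g x) ∂μ ≤ ENNReal.ofReal B) :
    Integrable g μ ∧ ∫ x, g x ∂μ ≤ B := by
  have hi : Integrable g μ :=
    ⟨hm, (hasFiniteIntegral_iff_ofReal h0).2 (h.trans_lt ENNReal.ofReal_lt_top)⟩
  refine ⟨hi, ?_⟩
  rw [← ofReal_integral_eq_lintegral_ofReal hi h0] at h
  exact (ENNReal.ofReal_le_ofReal_iff hB).1 h

theorem hardyPin : HardyPin := by
  intro f a hf h2 hd
  refine integrable_of_lintegral_le ?_ (Eventually.of_forall fun x => by positivity) ?_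
    (hardy_lintegral hf h2 hd a)
  · exact ((hf.continuous.measurable.pow_const 2).div
      (measurable_id.sub_const a).norm).aestronglyMeasurable
  · exact add_nonneg (integral_nonneg fun x => sq_nonneg _)
      (Finset.sum_nonneg fun k _ => integral_nonneg fun x => sq_nonneg _)

/-! ### Two electrons -/

/-- Square of the first-order Sobolev norm. -/
def qn (f : C2 → ℝ) (H : Fin 2 → Fin 3 → C2 → ℝ) : ℝ :=
  (∫ X, f X ^ 2) + ∑ i, ∑ k, ∫ X, H i k X ^ 2

lemma qn_nonneg (f : C2 → ℝ) (H : Fin 2 → Fin 3 → C2 → ℝ) : 0 ≤ qn f H :=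
  add_nonneg (integral_nonneg fun _ => sq_nonneg _)
    (Finset.sum_nonneg fun _ _ => Finset.sum_nonneg fun _ _ => integral_nonneg fun _ => sq_nonneg _)

lemma hasFDerivAt_insertNth (i : Fin 2) (y : Fin 1 → R3) (x : R3) :
    HasFDerivAt (fun x : R3 => (i.insertNth x y : C2))
      (ContinuousLinearMap.single ℝ (fun _ : Fin 2 => R3) i) x := by
  have h : (fun x : R3 => (i.insertNth x y : C2)) =
      fun x => i.insertNth 0 y + ContinuousLinearMap.single ℝ (fun _ : Fin 2 => R3) i x := by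
    funext x j
    rcases Fin.eq_self_or_eq_succAbove i j with rfl | ⟨l, rfl⟩
    · simp
    · simp [Fin.succAbove_ne]
  rw [h]
  exact (ContinuousLinearMap.single ℝ (fun _ : Fin 2 => R3) i).hasFDerivAt.const_add _

lemma lintegral_split (i : Fin 2) {g : C2 → ℝ≥0∞} (hg : Measurable g) :
    ∫⁻ X, g X = ∫⁻ y : Fin 1 → R3, ∫⁻ x : R3, g (i.insertNth x y) := by
  have hp := (volume_preserving_piFinSuccAbove (fun _ : Fin 2 => R3) i).symm _
  rw [← hp.lintegral_comp_emb (MeasurableEquiv.measurableEmbedding _), Measure.volume_eq_prod]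
  exact lintegral_prod_symm (fun a : R3 × (Fin 1 → R3) => g (i.insertNth a.1 a.2))
    (hg.comp (MeasurableEquiv.piFinSuccAbove (fun _ : Fin 2 => R3) i).symm.measurable).aemeasurable

/-- Hardy in one of the two electrons, around a centre not depending on it. -/
lemma hardy2 {h : C2 → ℝ} (hh : ContDiff ℝ 1 h) (h2 : MemLp h 2)
    (hd : ∀ i k, MemLp (pd i k h) 2) (i : Fin 2) {c : C2 → R3} (hc : Measurable c)
    (hci : ∀ y x x', c (i.insertNth x y) = c (i.insertNth x' y)) :
    ∫⁻ X, ENNReal.ofReal (h X ^ 2 / ‖X i - c X‖) ≤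
      ENNReal.ofReal (qn h fun i k => pd i k h) := by
  have hcont : Continuous h := hh.continuous
  have hdc : ∀ k, Continuous (pd i k h) := fun k =>
    (hh.continuous_fderiv one_ne_zero).clm_apply continuous_const
  have hmain : Measurable fun X : C2 => ENNReal.ofReal (h X ^ 2 / ‖X i - c X‖) :=
    ((hcont.measurable.pow_const 2).div ((measurable_pi_apply i).sub hc).norm).ennreal_ofReal
  rw [lintegral_split i hmain]
  have hp := (volume_preserving_piFinSuccAbove (fun _ : Fin 2 => R3) i).symm _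
  have hslice : ∀ {g : C2 → ℝ}, MemLp g 2 →
      ∀ᵐ y : Fin 1 → R3, Integrable fun x : R3 => g (i.insertNth x y) ^ 2 := fun hg => by
    have := hp.integrable_comp_emb (MeasurableEquiv.measurableEmbedding _) |>.2 hg.integrable_sq
    rw [Measure.volume_eq_prod] at this
    exact this.prod_left_ae
  have hall : ∀ᵐ y : Fin 1 → R3, ∀ k : Fin 3,
      Integrable fun x : R3 => pd i k h (i.insertNth x y) ^ 2 :=
    ae_all_iff.2 fun k => hslice (hd i k)
  have hbound : ∀ᵐ y : Fin 1 → R3,
      ∫⁻ x : R3, ENNReal.ofReal (h (i.insertNth x y) ^ 2 /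
          ‖(i.insertNth x y : C2) i - c (i.insertNth x y)‖) ≤
        (∫⁻ x : R3, ENNReal.ofReal (h (i.insertNth x y) ^ 2)) +
          ∑ k, ∫⁻ x : R3, ENNReal.ofReal (pd i k h (i.insertNth x y) ^ 2) := by
    filter_upwards [hslice h2, hall] with y hy hyk
    set f : R3 → ℝ := fun x => h (i.insertNth x y)
    have hf : ContDiff ℝ 1 f := by
      refine hh.comp (contDiff_pi.2 fun j => ?_)
      rcases Fin.eq_self_or_eq_succAbove i j with rfl | ⟨l, rfl⟩ <;> simp [contDiff_const, contDiff_fun_id]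
    have hins : Continuous fun x : R3 => (i.insertNth x y : C2) :=
      continuous_iff_continuousAt.2 fun x => (hasFDerivAt_insertNth i y x).continuousAt
    have hfd : ∀ k x, fderiv ℝ f x (unit3 k) = pd i k h (i.insertNth x y) := fun k x => by
      rw [show f = h ∘ fun x : R3 => (i.insertNth x y : C2) from rfl,
        ((hh.differentiable one_ne_zero _).hasFDerivAt.comp x (hasFDerivAt_insertNth i y x)).fderiv]
      rfl
    have hf2 : MemLp f 2 :=
      (memLp_two_iff_integrable_sq (hcont.comp hins).aestronglyMeasurable).2 hy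
    have hd2 : ∀ k, MemLp (fun x => fderiv ℝ f x (unit3 k)) 2 := fun k => by
      simp_rw [hfd]
      exact (memLp_two_iff_integrable_sq ((hdc k).comp hins).aestronglyMeasurable).2 (hyk k)
    have := hardy_lintegral hf hf2 hd2 (c (i.insertNth 0 y))
    simp_rw [hfd] at this
    rw [ENNReal.ofReal_add (integral_nonneg fun _ => sq_nonneg _)
      (Finset.sum_nonneg fun _ _ => integral_nonneg fun _ => sq_nonneg _),
      ENNReal.ofReal_sum_of_nonneg fun _ _ => integral_nonneg fun _ => sq_nonneg _,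
      ofReal_integral_eq_lintegral_ofReal hy (Eventually.of_forall fun _ => sq_nonneg _)] at this
    simp_rw [ofReal_integral_eq_lintegral_ofReal (hyk _) (Eventually.of_forall fun _ => sq_nonneg _)]
      at this
    refine le_trans (le_of_eq (lintegral_congr fun x => ?_)) this
    simp [f, hci y x 0]
  have hm0 : Measurable fun p : (Fin 1 → R3) × R3 => (i.insertNth p.2 p.1 : C2) :=
    (MeasurableEquiv.piFinSuccAbove (fun _ : Fin 2 => R3) i).symm.measurable.comp
      (measurable_snd.prodMk measurable_fst)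
  have hm1 : Measurable fun y : Fin 1 → R3 =>
      ∫⁻ x : R3, ENNReal.ofReal (h (i.insertNth x y) ^ 2) :=
    ((hcont.measurable.comp hm0).pow_const 2).ennreal_ofReal.lintegral_prod_right'
  have hm2 : ∀ k, Measurable fun y : Fin 1 → R3 =>
      ∫⁻ x : R3, ENNReal.ofReal (pd i k h (i.insertNth x y) ^ 2) := fun k =>
    (((hdc k).measurable.comp hm0).pow_const 2).ennreal_ofReal.lintegral_prod_right'
  refine (lintegral_mono_ae hbound).trans ?_
  rw [lintegral_add_left hm1, lintegral_finsetSum _ fun k _ => hm2 k,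
    ← lintegral_split i (hcont.measurable.pow_const 2).ennreal_ofReal]
  simp_rw [← lintegral_split i ((hdc _).measurable.pow_const 2).ennreal_ofReal]
  rw [← ofReal_integral_eq_lintegral_ofReal h2.integrable_sq
    (Eventually.of_forall fun _ => sq_nonneg _)]
  simp_rw [← ofReal_integral_eq_lintegral_ofReal (hd i _).integrable_sq
    (Eventually.of_forall fun _ => sq_nonneg _)]
  rw [← ENNReal.ofReal_sum_of_nonneg fun _ _ => integral_nonneg fun _ => sq_nonneg _,
    ← ENNReal.ofReal_add (integral_nonneg fun _ => sq_nonneg _)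
      (Finset.sum_nonneg fun _ _ => integral_nonneg fun _ => sq_nonneg _)]
  refine ENNReal.ofReal_le_ofReal (add_le_add le_rfl ?_)
  exact Finset.single_le_sum (f := fun l => ∑ k, ∫ X, pd l k h X ^ 2)
    (fun _ _ => Finset.sum_nonneg fun _ _ => integral_nonneg fun _ => sq_nonneg _)
    (Finset.mem_univ i)

lemma wmaj_measurable {M : ℕ} (R : Fin M → R3) : Measurable (wmaj R) :=
  (measurable_const.add (Finset.measurable_sum _ fun _j _ =>
    (((measurable_pi_apply 0).sub_const _).norm.inv).add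
      (((measurable_pi_apply 1).sub_const _).norm.inv))).add
    (((measurable_pi_apply 0).sub (measurable_pi_apply 1)).norm.inv)

lemma wmaj_one_le {M : ℕ} (R : Fin M → R3) (X : C2) : 1 ≤ wmaj R X := by
  have : 0 ≤ ∑ j, (‖X 0 - R j‖⁻¹ + ‖X 1 - R j‖⁻¹) := Finset.sum_nonneg fun j _ => by positivity
  have : 0 ≤ ‖X 0 - X 1‖⁻¹ := by positivity
  unfold wmaj
  linarith

/-- The majorant is form bounded by the Sobolev norm. -/
lemma lintegral_wmaj_le {M : ℕ} (R : Fin M → R3) {h : C2 → ℝ} (hh : ContDiff ℝ 1 h)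
    (h2 : MemLp h 2) (hd : ∀ i k, MemLp (pd i k h) 2) :
    ∫⁻ X, ENNReal.ofReal (wmaj R X * h X ^ 2) ≤
      (2 * M + 2 : ℕ) * ENNReal.ofReal (qn h fun i k => pd i k h) := by
  set B := ENNReal.ofReal (qn h fun i k => pd i k h)
  have hm : ∀ (i : Fin 2) (c : C2 → R3), Measurable c →
      Measurable fun X : C2 => ENNReal.ofReal (h X ^ 2 / ‖X i - c X‖) := fun i c hc =>
    ((hh.continuous.measurable.pow_const 2).div
      ((measurable_pi_apply i).sub hc).norm).ennreal_ofReal
  have e : ∀ X : C2, ENNReal.ofReal (wmaj R X * h X ^ 2) = ENNReal.ofReal (h X ^ 2) +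
      ((∑ j, (ENNReal.ofReal (h X ^ 2 / ‖X 0 - R j‖) + ENNReal.ofReal (h X ^ 2 / ‖X 1 - R j‖)))
        + ENNReal.ofReal (h X ^ 2 / ‖X 0 - X 1‖)) := fun X => by
    rw [← Finset.sum_congr rfl fun j _ => ENNReal.ofReal_add (by positivity) (by positivity),
      ← ENNReal.ofReal_sum_of_nonneg fun j _ => by positivity,
      ← ENNReal.ofReal_add (Finset.sum_nonneg fun j _ => by positivity) (by positivity),
      ← ENNReal.ofReal_add (sq_nonneg _) (add_nonneg (Finset.sum_nonneg fun j _ => by positivity)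
        (by positivity))]
    congr 1
    simp only [wmaj, div_eq_mul_inv, add_mul, Finset.sum_mul, one_mul]
    rw [Finset.sum_congr rfl fun j _ => show h X ^ 2 * ‖X 0 - R j‖⁻¹ + h X ^ 2 * ‖X 1 - R j‖⁻¹
      = ‖X 0 - R j‖⁻¹ * h X ^ 2 + ‖X 1 - R j‖⁻¹ * h X ^ 2 by ring]
    ring
  have b0 : ∫⁻ X, ENNReal.ofReal (h X ^ 2) ≤ B := by
    rw [← ofReal_integral_eq_lintegral_ofReal h2.integrable_sq
      (Eventually.of_forall fun _ => sq_nonneg _)]
    exact ENNReal.ofReal_le_ofReal (le_add_of_nonneg_right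
      (Finset.sum_nonneg fun _ _ => Finset.sum_nonneg fun _ _ => integral_nonneg fun _ => sq_nonneg _))
  have bj : ∀ i j, ∫⁻ X : C2, ENNReal.ofReal (h X ^ 2 / ‖X i - R j‖) ≤ B := fun i j =>
    hardy2 hh h2 hd i measurable_const fun _ _ _ => rfl
  have b1 : ∫⁻ X : C2, ENNReal.ofReal (h X ^ 2 / ‖X 0 - X 1‖) ≤ B :=
    hardy2 hh h2 hd 0 (measurable_pi_apply 1) fun y x x' => by simp
  have ms : ∀ j, Measurable fun X : C2 =>
      ENNReal.ofReal (h X ^ 2 / ‖X 0 - R j‖) + ENNReal.ofReal (h X ^ 2 / ‖X 1 - R j‖) := fun j =>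
    (hm 0 (fun _ => R j) measurable_const).add (hm 1 (fun _ => R j) measurable_const)
  rw [lintegral_congr e, lintegral_add_left (hh.continuous.measurable.pow_const 2).ennreal_ofReal,
    lintegral_add_left (Finset.measurable_sum _ fun j _ => ms j),
    lintegral_finsetSum _ fun j _ => ms j]
  simp_rw [fun j => lintegral_add_left (μ := volume) (hm 0 (fun _ => R j) measurable_const)]
  calc _ ≤ B + ((∑ _j : Fin M, (B + B)) + B) := by
        gcongr with j
        · exact bj 0 j
        · exact bj 1 j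
    _ = _ := by
        simp only [Finset.sum_const, Finset.card_univ, Fintype.card_fin, nsmul_eq_mul]
        push_cast
        ring

end Vale.Agent.P363.Two
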