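import Vale.Agent.P363.Two.Slices

/-!
Weighted quadratic integrals under convergence in a weighted `L²`, and subsequences along which
the slices converge.
-/

noncomputable section

open MeasureTheory Set Filter Topology
open scoped ENNReal

namespace Vale.Agent.P363.Two

variable {α : Type*} [MeasurableSpace α] {μ : Measure α}

lemma tendsto_weighted_sq {g s f : α → ℝ} {fn : ℕ → α → ℝ} (hg : ∀ x, 0 ≤ g x)
    (hs : ∀ x, |s x| ≤ g x) (hsm : AEStronglyMeasurable s μ)
    (hfm : AEStronglyMeasurable f μ) (hfnm : ∀ n, AEStronglyMeasurable (fn n) μ)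
    (hf : Integrable (fun x => g x * f x ^ 2) μ)
    (hfn : ∀ n, Integrable (fun x => g x * fn n x ^ 2) μ)
    (hlim : Tendsto (fun n => ∫ x, g x * (fn n x - f x) ^ 2 ∂μ) atTop (𝓝 0))
    (hgm : AEStronglyMeasurable g μ) :
    Tendsto (fun n => ∫ x, s x * fn n x ^ 2 ∂μ) atTop (𝓝 (∫ x, s x * f x ^ 2 ∂μ)) := by
  have hdom : ∀ {h : α → ℝ}, AEStronglyMeasurable h μ →
      Integrable (fun x => g x * h x ^ 2) μ → Integrable (fun x => s x * h x ^ 2) μ :=
    fun {h} hm hi => hi.mono' (hsm.mul (hm.pow 2)) (Eventually.of_forall fun x => by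
      rw [Real.norm_eq_abs, abs_mul, abs_of_nonneg (sq_nonneg (h x))]
      exact mul_le_mul_of_nonneg_right (hs x) (sq_nonneg _))
  have hd : ∀ n, Integrable (fun x => g x * (fn n x - f x) ^ 2) μ := fun n => by
    refine (((hfn n).const_mul 2).add (hf.const_mul 2)).mono' (hgm.mul (((hfnm n).sub hfm).pow 2))
      (Eventually.of_forall fun x => ?_)
    rw [Real.norm_eq_abs, abs_of_nonneg (mul_nonneg (hg x) (sq_nonneg _))]
    have h1 := mul_nonneg (hg x) (sq_nonneg (fn n x + f x))
    simp only [Pi.add_apply]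
    nlinarith
  set T := ∫ x, g x * f x ^ 2 ∂μ
  have hT : 0 ≤ T := integral_nonneg fun x => mul_nonneg (hg x) (sq_nonneg _)
  rw [Metric.tendsto_atTop]
  intro ε hε
  set η := ε / (2 * (T + 1)) with hη'
  have hη : 0 < η := by positivity
  obtain ⟨N, hN⟩ := Metric.tendsto_atTop.1 hlim (ε / (2 * (1 + η⁻¹))) (by positivity)
  refine ⟨N, fun n hn => ?_⟩
  have h2 := hN n hn
  rw [Real.dist_eq, sub_zero,
    abs_of_nonneg (integral_nonneg fun x => mul_nonneg (hg x) (sq_nonneg _))] at h2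
  rw [Real.dist_eq, ← integral_sub (hdom (hfnm n) (hfn n)) (hdom hfm hf), ← Real.norm_eq_abs]
  refine (norm_integral_le_of_norm_le
    (g := fun x => (1 + η⁻¹) * (g x * (fn n x - f x) ^ 2) + η * (g x * f x ^ 2))
    (((hd n).const_mul _).add (hf.const_mul _)) (Eventually.of_forall fun x => ?_)).trans_lt ?_
  · have e1 : s x * fn n x ^ 2 - s x * f x ^ 2 =
        s x * ((fn n x - f x) ^ 2 + 2 * (fn n x - f x) * f x) := by ring
    rw [Real.norm_eq_abs, e1, abs_mul]
    set d := fn n x - f x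
    have h3 : |2 * d * f x| ≤ η⁻¹ * d ^ 2 + η * f x ^ 2 := by
      have key : η⁻¹ * d ^ 2 + η * f x ^ 2 - |2 * d * f x| = η⁻¹ * (|d| - η * |f x|) ^ 2 := by
        rw [abs_mul, abs_mul, abs_two, ← sq_abs d, ← sq_abs (f x)]
        field_simp
        ring
      linarith [mul_nonneg (inv_nonneg.2 hη.le) (sq_nonneg (|d| - η * |f x|))]
    calc |s x| * |d ^ 2 + 2 * d * f x| ≤ g x * ((1 + η⁻¹) * d ^ 2 + η * f x ^ 2) := by
          refine mul_le_mul (hs x) ((abs_add_le _ _).trans ?_) (abs_nonneg _) (hg x)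
          rw [abs_of_nonneg (sq_nonneg d)]
          linarith
      _ = _ := by ring
  · rw [integral_add ((hd n).const_mul _) (hf.const_mul _), integral_const_mul, integral_const_mul]
    have h4 : (1 + η⁻¹) * ∫ x, g x * (fn n x - f x) ^ 2 ∂μ < ε / 2 := by
      have h5 : 0 < 1 + η⁻¹ := by positivity
      calc _ < (1 + η⁻¹) * (ε / (2 * (1 + η⁻¹))) := mul_lt_mul_of_pos_left h2 h5
        _ = ε / 2 := by field_simp
    have h6 : η * T ≤ ε / 2 := by
      rw [hη', div_mul_eq_mul_div, div_le_iff₀ (by positivity)]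
      nlinarith
    linarith

/-- A subsequence along which nonnegative functions with vanishing integrals tend to zero. -/
lemma exists_seq_tendsto_zero {d : ℕ → α → ℝ} (h0 : ∀ n, 0 ≤ᵐ[μ] d n)
    (hi : ∀ n, Integrable (d n) μ) (hlim : Tendsto (fun n => ∫ x, d n x ∂μ) atTop (𝓝 0)) :
    ∃ ns : ℕ → ℕ, StrictMono ns ∧ ∀ᵐ x ∂μ, Tendsto (fun n => d (ns n) x) atTop (𝓝 0) := by
  have h : TendstoInMeasure μ d atTop fun _ => (0 : ℝ) := by
    refine tendstoInMeasure_of_tendsto_eLpNorm one_ne_zero (fun n => (hi n).aestronglyMeasurable)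
      aestronglyMeasurable_const ?_
    have e : ∀ n, eLpNorm (d n - fun _ => (0 : ℝ)) 1 μ = ENNReal.ofReal (∫ x, d n x ∂μ) := fun n => by
      have h1 : (d n - fun _ => (0 : ℝ)) = d n := by funext x; simp
      rw [h1, eLpNorm_one_eq_lintegral_enorm, ← ofReal_integral_norm_eq_lintegral_enorm (hi n)]
      congr 1
      refine integral_congr_ae ?_
      filter_upwards [h0 n] with x hx using abs_of_nonneg hx
    simp_rw [e]
    simpa using ENNReal.tendsto_ofReal hlim
  exact h.exists_seq_tendsto_ae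

end Vale.Agent.P363.Two
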