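import Vale.Agent.P363.Two.Identity
import Vale.Agent.P363.Two.Limits

/-!
The one-body potential of a positive two-electron minimiser, from its mollifications.
-/

noncomputable section

open MeasureTheory Set Filter Topology
open scoped ENNReal

namespace Vale.Agent.P363.Two

variable {M : ℕ} {Z : Fin M → ℕ} {R : Fin M → R3} {e : ℝ} {Ψ : Wave 2} {ψ : C2 → ℝ}
  {H : Fin 2 → Fin 3 → C2 → ℝ}

/-- A one-body potential whose zero-energy minimiser has squared modulus the slice integral
of `ψ²`. -/
structure OneBody (R : Fin M → R3) (ψ : C2 → ℝ) (v φ : R3 → ℝ) (D : Fin 3 → R3 → ℝ) : Prop where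
  measurable : Measurable v
  bound : ∃ K, 0 ≤ K ∧ ∀ x, |v x| ≤ K * U R x
  phi_nonneg : ∀ x, 0 ≤ φ x
  phi_sq : ∀ x, φ x ^ 2 = den ψ x
  memLp : MemLp φ 2
  memLpGrad : ∀ k, MemLp (D k) 2
  weak : ∀ k, WeakDeriv (axis k) φ (D k)
  potential : Integrable fun x => v x * φ x ^ 2
  zero : ∫ x, ((∑ k, (1 / 2 : ℝ) * D k x ^ 2) + v x * φ x ^ 2) = 0
  nonneg : ∀ w : R3 → ℝ, ContDiff ℝ 1 w → MemLp w 2 → (∀ k, MemLp (pd1 k w) 2) →
    (Integrable fun x => v x * w x ^ 2) ∧ 0 ≤ qone v w

lemma weak_of_contDiff {w : R3 → ℝ} (hw : ContDiff ℝ 1 w) (k : Fin 3) :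
    WeakDeriv (axis k) w (pd1 k w) := by
  intro η hη
  obtain ⟨hηs, hηc⟩ := hη
  have hη1 : ContDiff ℝ 1 η := hηs.of_le (mod_cast le_top)
  have c1 : Continuous fun x => fderiv ℝ η x (axis k) :=
    (hη1.continuous_fderiv one_ne_zero).clm_apply continuous_const
  have c2 : Continuous fun x => fderiv ℝ w x (axis k) :=
    (hw.continuous_fderiv one_ne_zero).clm_apply continuous_const
  have h := integral_mul_fderiv_eq_neg_fderiv_mul_of_integrable (μ := volume) (f := w) (g := η)
    (v := axis k)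
    (((c2.mul hη1.continuous).integrable_of_hasCompactSupport hηc.mul_left))
    ((hw.continuous.mul c1).integrable_of_hasCompactSupport
      ((hηc.fderiv_apply ℝ (axis k)).mul_left))
    ((hw.continuous.mul hη1.continuous).integrable_of_hasCompactSupport hηc.mul_left)
    (fun x _ => hw.differentiable one_ne_zero x)
    (fun x _ => hη1.differentiable one_ne_zero x)
  simpa [smul_eq_mul, mul_comm, pd1] using h

lemma integrable_U_sq (hardy : HardyPin) {w : R3 → ℝ} (hw : ContDiff ℝ 1 w) (hw2 : MemLp w 2)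
    (hwd : ∀ k, MemLp (pd1 k w) 2) : Integrable fun x => U R x * w x ^ 2 := by
  have h : Integrable fun x => w x ^ 2 + ∑ j, w x ^ 2 / ‖x - R j‖ :=
    hw2.integrable_sq.add (integrable_finsetSum _ fun j _ => (hardy w (R j) hw hw2 hwd).1)
  refine h.congr (Eventually.of_forall fun x => ?_)
  simp only [U, add_mul, one_mul, Finset.sum_mul, div_eq_inv_mul]

/-- Convergence on the slice through `x`. -/
def SliceLimit (Z : Fin M → ℕ) (R : Fin M → R3) (e : ℝ) (ψ : C2 → ℝ)
    (H : Fin 2 → Fin 3 → C2 → ℝ) (q : ℕ → C2 → ℝ) (x : R3) : Prop :=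
  0 < den ψ x ∧
  Tendsto (fun n => den (q n) x) atTop (𝓝 (den ψ x)) ∧
  (∀ i k, Tendsto (fun n => den (pd i k (q n)) x) atTop (𝓝 (den (H i k) x))) ∧
  (∀ k, Tendsto (fun n => crossInt (q n) (pd 0 k (q n)) x) atTop
    (𝓝 (crossInt ψ (H 0 k) x))) ∧
  Tendsto (fun n => ∫ y, (pot2 Z R (mk x y) - e) * q n (mk x y) ^ 2) atTop
    (𝓝 (∫ y, (pot2 Z R (mk x y) - e) * ψ (mk x y) ^ 2)) ∧
  (∀ k, (Integrable fun y => ψ (mk x y) * H 0 k (mk x y)) ∧
    crossInt ψ (H 0 k) x ^ 2 / den ψ x ≤ den (H 0 k) x)

/-- The limits on one good slice. -/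
lemma slice_limit {δ C : ℝ} {A : C2 → ℝ} {q : ℕ → C2 → ℝ} {x : R3} {K0 : ℝ}
    (hu : IsSol Z R e ψ) (hA : Controlled R δ C ψ A) (hC : 0 < C) (hδ : 0 < δ)
    (hpos : ∀ X, 0 < A X) (hregq : ∀ n, Regular R C A (q n)) (hK0 : 0 < K0)
    (h0 : ∀ X : C2, |pot2 Z R X - e| ≤ K0 * wmaj R X)
    (b1 : ∀ n, Integrable fun y => wmaj R (mk x y) * q n (mk x y) ^ 2)
    (b2 : ∀ n, Integrable fun y => wmaj R (mk x y) * (q n (mk x y) - ψ (mk x y)) ^ 2)
    (b3 : ∀ n i k, Integrable fun y => (pd i k (q n) (mk x y) - H i k (mk x y)) ^ 2)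
    (b4 : ∀ n i k, Integrable fun y => pd i k (q n) (mk x y) ^ 2)
    (b5 : ∀ i k, Integrable fun y => H i k (mk x y) ^ 2)
    (b6 : Integrable fun y => wmaj R (mk x y) * ψ (mk x y) ^ 2)
    (bψ : AEStronglyMeasurable fun y => ψ (mk x y))
    (bH : ∀ i k, AEStronglyMeasurable fun y => H i k (mk x y))
    (bd : Tendsto (fun n => (∫ y, wmaj R (mk x y) * (q n (mk x y) - ψ (mk x y)) ^ 2) +
      ∑ i, ∑ k, ∫ y, (pd i k (q n) (mk x y) - H i k (mk x y)) ^ 2) atTop (𝓝 0))
    (blow : ∀ᵐ y : R3, A (mk x y) ≤ C * ψ (mk x y)) : SliceLimit Z R e ψ H q x := by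
  have hwm : AEStronglyMeasurable fun y => wmaj R (mk x y) :=
    (measurable_majorant.comp (continuous_mk_right x).measurable).aestronglyMeasurable
  have hqm : ∀ n, AEStronglyMeasurable fun y => q n (mk x y) := fun n =>
    ((continuous_p (hregq n)).comp (continuous_mk_right x)).aestronglyMeasurable
  have hgm : ∀ n i k, AEStronglyMeasurable fun y => pd i k (q n) (mk x y) := fun n i k =>
    ((continuous_pd (hregq n) i k).comp (continuous_mk_right x)).aestronglyMeasurable
  have hW0 : Tendsto (fun n => ∫ y, wmaj R (mk x y) * (q n (mk x y) - ψ (mk x y)) ^ 2) atTop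
      (𝓝 0) :=
    squeeze_zero (fun n => integral_nonneg fun y => mul_nonneg (wmaj_nonneg _) (sq_nonneg _))
      (fun n => le_add_of_nonneg_right (Finset.sum_nonneg fun i _ =>
        Finset.sum_nonneg fun k _ => integral_nonneg fun y => sq_nonneg _)) bd
  have hG0 : ∀ i k, Tendsto (fun n => ∫ y, (pd i k (q n) (mk x y) - H i k (mk x y)) ^ 2) atTop
      (𝓝 0) := fun i k => by
    refine squeeze_zero (fun n => integral_nonneg fun y => sq_nonneg _) (fun n => ?_) bd
    refine le_trans ?_ (le_add_of_nonneg_left (integral_nonneg fun y =>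
      mul_nonneg (wmaj_nonneg _) (sq_nonneg _)))
    exact (Finset.single_le_sum
      (f := fun l => ∫ y, (pd i l (q n) (mk x y) - H i l (mk x y)) ^ 2)
      (fun l _ => integral_nonneg fun y => sq_nonneg _) (Finset.mem_univ k)).trans
      (Finset.single_le_sum
        (f := fun j => ∑ l, ∫ y, (pd j l (q n) (mk x y) - H j l (mk x y)) ^ 2)
        (fun j _ => Finset.sum_nonneg fun l _ => integral_nonneg fun y => sq_nonneg _)
        (Finset.mem_univ i))
  have dq : ∀ {f : C2 → ℝ}, (AEStronglyMeasurable fun y => f (mk x y)) →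
      (Integrable fun y => wmaj R (mk x y) * f (mk x y) ^ 2) →
      Integrable fun y => f (mk x y) ^ 2 := fun {f} hm hi =>
    hi.mono' (hm.pow 2) (Eventually.of_forall fun y => by
      rw [Real.norm_eq_abs, abs_sq]
      exact le_mul_of_one_le_left (sq_nonneg _) (one_le_majorant _))
  have t1 : Tendsto (fun n => den (q n) x) atTop (𝓝 (den ψ x)) := by
    have := tendsto_weighted_sq (g := fun y => wmaj R (mk x y)) (s := fun _ => (1 : ℝ))
      (fun y => wmaj_nonneg _) (fun y => by rw [abs_one]; exact one_le_majorant _)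
      aestronglyMeasurable_const bψ hqm b6 b1 hW0 hwm
    simpa [den] using this
  have hψ2 := dq bψ b6
  have hdpos : 0 < den ψ x := by
    have h1 : slice A x ≤ C ^ 2 * den ψ x := by
      rw [slice, den, ← integral_const_mul]
      refine integral_mono_ae (slice_sq_integrable hu hA hC hδ x) (hψ2.const_mul _) ?_
      filter_upwards [blow] with y hy
      rw [← mul_pow]; exact pow_le_pow_left₀ (hA.nonneg _) hy 2
    exact pos_of_mul_pos_right ((slice_pos hu hA hC hδ hpos x).trans_le h1) (sq_nonneg C)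
  have tsq : ∀ {f : R3 → ℝ} {fn : ℕ → R3 → ℝ}, AEStronglyMeasurable f →
      (∀ n, AEStronglyMeasurable (fn n)) → Integrable (fun y => f y ^ 2) →
      (∀ n, Integrable fun y => fn n y ^ 2) →
      Tendsto (fun n => ∫ y, (fn n y - f y) ^ 2) atTop (𝓝 0) →
      Tendsto (fun n => ∫ y, fn n y ^ 2) atTop (𝓝 (∫ y, f y ^ 2)) :=
    fun {f fn} m1 m2 i1 i2 hl => by
      have := tendsto_weighted_sq (g := fun _ => (1 : ℝ)) (s := fun _ => (1 : ℝ))
        (fun _ => zero_le_one) (fun _ => (abs_one).le) aestronglyMeasurable_const m1 m2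
        (by simpa using i1) (by simpa using i2) (by simpa using hl) aestronglyMeasurable_const
      simpa using this
  have t2 : ∀ i k, Tendsto (fun n => den (pd i k (q n)) x) atTop (𝓝 (den (H i k) x)) :=
    fun i k => tsq (bH i k) (fun n => hgm n i k) (b5 i k) (fun n => b4 n i k) (hG0 i k)
  have hprod : ∀ {f g : C2 → ℝ}, (AEStronglyMeasurable fun y => f (mk x y)) →
      (AEStronglyMeasurable fun y => g (mk x y)) → (Integrable fun y => f (mk x y) ^ 2) →
      (Integrable fun y => g (mk x y) ^ 2) →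
      (Integrable fun y => (f (mk x y) + g (mk x y)) ^ 2) ∧
      ∫ y, (f (mk x y) + g (mk x y)) ^ 2 = den f x + 2 * crossInt f g x + den g x := by
    intro f g m1 m2 i1 i2
    have := slice_quad i1 i2 (m1.mul m2) 1 1
    simpa using this
  have t3 : ∀ k, Tendsto (fun n => crossInt (q n) (pd 0 k (q n)) x) atTop
      (𝓝 (crossInt ψ (H 0 k) x)) := fun k => by
    have hs := tsq (f := fun y => ψ (mk x y) + H 0 k (mk x y))
      (fn := fun n y => q n (mk x y) + pd 0 k (q n) (mk x y)) (bψ.add (bH 0 k))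
      (fun n => (hqm n).add (hgm n 0 k)) (hprod bψ (bH 0 k) hψ2 (b5 0 k)).1
      (fun n => (hprod (hqm n) (hgm n 0 k) (dq (hqm n) (b1 n)) (b4 n 0 k)).1) ?_
    · simp only [(hprod bψ (bH 0 k) hψ2 (b5 0 k)).2,
        fun n => (hprod (hqm n) (hgm n 0 k) (dq (hqm n) (b1 n)) (b4 n 0 k)).2] at hs
      have h9 := ((hs.sub t1).sub (t2 0 k)).const_mul (1 / 2 : ℝ)
      convert h9 using 1
      · funext n; ring
      · congr 1; ring
    · refine squeeze_zero (fun n => integral_nonneg fun y => sq_nonneg _)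
        (g := fun n => 2 * (∫ y, wmaj R (mk x y) * (q n (mk x y) - ψ (mk x y)) ^ 2) +
          2 * ∫ y, (pd 0 k (q n) (mk x y) - H 0 k (mk x y)) ^ 2) (fun n => ?_)
        (by simpa using (hW0.const_mul 2).add ((hG0 0 k).const_mul 2))
      rw [← integral_const_mul, ← integral_const_mul,
        ← integral_add ((b2 n).const_mul _) ((b3 n 0 k).const_mul _)]
      refine integral_mono_of_nonneg (Eventually.of_forall fun y => sq_nonneg _)
        (((b2 n).const_mul _).add ((b3 n 0 k).const_mul _)) (Eventually.of_forall fun y => ?_)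
      have h8 := le_mul_of_one_le_left (sq_nonneg (q n (mk x y) - ψ (mk x y)))
        (one_le_majorant (R := R) (mk x y))
      nlinarith [sq_nonneg ((q n (mk x y) - ψ (mk x y)) -
        (pd 0 k (q n) (mk x y) - H 0 k (mk x y)))]
  have t4 := tendsto_weighted_sq (g := fun y => K0 * wmaj R (mk x y))
    (s := fun y => pot2 Z R (mk x y) - e) (fun y => mul_nonneg hK0.le (wmaj_nonneg _))
    (fun y => h0 _)
    (((measurable_pot2.comp (continuous_mk_right x).measurable).sub_const e).aestronglyMeasurable)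
    bψ hqm (by simpa [mul_assoc] using b6.const_mul K0)
    (fun n => by simpa [mul_assoc] using (b1 n).const_mul K0)
    (by simpa [mul_assoc, integral_const_mul] using hW0.const_mul K0) (hwm.const_mul K0)
  refine ⟨hdpos, t1, t2, t3, t4, fun k => ?_⟩
  refine ⟨(hψ2.add (b5 0 k)).mono' (bψ.mul (bH 0 k)) (Eventually.of_forall fun y => ?_), ?_⟩
  · rw [Real.norm_eq_abs, abs_le]
    simp only [Pi.add_apply]
    constructor <;> nlinarith [sq_nonneg (ψ (mk x y) + H 0 k (mk x y)),
      sq_nonneg (ψ (mk x y) - H 0 k (mk x y)), sq_nonneg (ψ (mk x y)),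
      sq_nonneg (H 0 k (mk x y))]
  · have h5 := cross_sq_le hψ2 (b5 0 k) (bψ.mul (bH 0 k)) hdpos
    have h6 := mul_le_mul_of_nonneg_right h5 hdpos.le
    rw [div_mul_cancel₀ _ hdpos.ne'] at h6
    have : crossInt ψ (H 0 k) x ^ 2 / den ψ x ^ 2 * den ψ x =
        crossInt ψ (H 0 k) x ^ 2 / den ψ x := by field_simp
    linarith

/-- Regular approximants converging on almost every slice. -/
lemma exists_approx {δ C : ℝ} {A : C2 → ℝ} (hm : MollPin) (hl : MollLimPin)
    (hr : Reduced Z R Ψ e ψ H) (hA : Controlled R δ C ψ A) (hC : 0 < C) (hδ : 0 < δ)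
    (hpos : ∀ X, 0 < A X) :
    ∃ q : ℕ → C2 → ℝ, (∀ n, Regular R C A (q n)) ∧ ∀ᵐ x : R3, SliceLimit Z R e ψ H q x := by
  have hu := hr.sol
  have hψm : AEStronglyMeasurable ψ := hu.memLp.aestronglyMeasurable
  have hloc : LocallyIntegrable ψ := hu.memLp.locallyIntegrable (by norm_num)
  obtain ⟨n₀, hn₀⟩ := exists_nat_gt (δ⁻¹)
  have hsc : ∀ n, 0 < scale (n + n₀) ∧ scale (n + n₀) ≤ δ := fun n => by
    refine ⟨by unfold scale; positivity, ?_⟩
    rw [scale, one_div, inv_le_comm₀ (by positivity) hδ]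
    push_cast
    linarith [(Nat.cast_nonneg n : (0 : ℝ) ≤ n)]
  obtain ⟨hWψ, hmoll⟩ := hm M R ψ H hu.memLp hr.memLpGrad hr.weak
  obtain ⟨hl0, hl1⟩ := hl M R ψ H hu.memLp hr.memLpGrad hr.weak
  set p : ℕ → C2 → ℝ := fun n => moll (scale (n + n₀)) ψ with hp
  have hreg : ∀ n, Regular R C A (p n) := fun n =>
    { smooth := contDiff_moll (hsc n).1 hloc
      memLp := (hmoll _).2.1
      memLpGrad := fun i k => ((hmoll _).2.2.1 i k).1
      crude := pd_moll_bound hu hA hC hr.nonneg (hsc n).1 (hsc n).2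
      nonneg := moll_nonneg (hsc n).1.le hr.nonneg
      upper := hA.mollUpper _ (hsc n).1 (hsc n).2
      lower := hA.mollLower _ (hsc n).1 (hsc n).2
      grad := hA.mollGrad _ (hsc n).1 (hsc n).2 }
  have hHm : ∀ i k, AEStronglyMeasurable (H i k) := fun i k =>
    (hr.memLpGrad i k).aestronglyMeasurable
  have hWp : ∀ n, Integrable fun X => wmaj R X * p n X ^ 2 := fun n => (hmoll _).2.2.2
  have hWd : ∀ n, Integrable fun X => wmaj R X * (p n X - ψ X) ^ 2 := fun n => by
    refine (((hWp n).const_mul 2).add (hWψ.const_mul 2)).mono'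
      (measurable_majorant.aestronglyMeasurable.mul
        ((((hreg n).memLp.aestronglyMeasurable).sub hψm).pow 2)) (Eventually.of_forall fun X => ?_)
    rw [Real.norm_eq_abs, abs_of_nonneg (mul_nonneg (wmaj_nonneg _) (sq_nonneg _))]
    simp only [Pi.add_apply]
    nlinarith [mul_nonneg (wmaj_nonneg (R := R) X) (sq_nonneg (p n X + ψ X))]
  have hGd : ∀ n i k, Integrable fun X => (pd i k (p n) X - H i k X) ^ 2 := fun n i k =>
    (((hreg n).memLpGrad i k).sub (hr.memLpGrad i k)).integrable_sq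
  -- a subsequence converging on almost every slice
  set d : ℕ → R3 → ℝ := fun n x => (∫ y, wmaj R (mk x y) * (p n (mk x y) - ψ (mk x y)) ^ 2) +
    ∑ i, ∑ k, ∫ y, (pd i k (p n) (mk x y) - H i k (mk x y)) ^ 2 with hd
  have hdi : ∀ n, Integrable (d n) := fun n =>
    (integrable_slice_integral (hWd n)).add (integrable_finsetSum _ fun i _ =>
      integrable_finsetSum _ fun k _ => integrable_slice_integral (hGd n i k))
  have hd0 : ∀ n x, 0 ≤ d n x := fun n x =>
    add_nonneg (integral_nonneg fun y => mul_nonneg (wmaj_nonneg _) (sq_nonneg _))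
      (Finset.sum_nonneg fun i _ => Finset.sum_nonneg fun k _ =>
        integral_nonneg fun y => sq_nonneg _)
  have hdl : Tendsto (fun n => ∫ x, d n x) atTop (𝓝 0) := by
    have e1 : ∀ n, ∫ x, d n x = (∫ X, wmaj R X * (moll (scale (n + n₀)) ψ X - ψ X) ^ 2) +
        ∑ i, ∑ k, ∫ X, (moll (scale (n + n₀)) (H i k) X - H i k X) ^ 2 := fun n => by
      have e2 : ∀ i k, (fun X => (moll (scale (n + n₀)) (H i k) X - H i k X) ^ 2) =
          fun X => (pd i k (p n) X - H i k X) ^ 2 := fun i k => by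
        funext X; rw [hp, ((hmoll _).2.2.1 i k).2 X]
      simp only [e2]
      rw [hd, integral_add (integrable_slice_integral (hWd n)) (integrable_finsetSum _ fun i _ =>
        integrable_finsetSum _ fun k _ => integrable_slice_integral (hGd n i k)),
        integral_finsetSum _ fun i _ => integrable_finsetSum _ fun k _ =>
          integrable_slice_integral (hGd n i k)]
      congr 1
      · exact (integral_mk (hWd n)).symm
      · refine Finset.sum_congr rfl fun i _ => ?_
        rw [integral_finsetSum _ fun k _ => integrable_slice_integral (hGd n i k)]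
        exact Finset.sum_congr rfl fun k _ => (integral_mk (hGd n i k)).symm
    simp only [e1]
    have h0 : Tendsto (fun n => n + n₀) atTop atTop := tendsto_add_atTop_nat n₀
    have := (hl0.comp h0).add (tendsto_finsetSum Finset.univ fun i _ =>
      tendsto_finsetSum Finset.univ fun k _ => (hl1 i k).comp h0)
    simpa using! this
  obtain ⟨ns, -, hns⟩ := exists_seq_tendsto_zero (fun n => Eventually.of_forall (hd0 n)) hdi hdl
  set q : ℕ → C2 → ℝ := fun n => p (ns n) with hq
  have hregq : ∀ n, Regular R C A (q n) := fun n => hreg _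
  obtain ⟨K0, hK0, h0⟩ := pot2_majorant (Z := Z) (R := R) (e := e)
  refine ⟨q, hregq, ?_⟩
  have a1 : ∀ᵐ x : R3, ∀ n, Integrable fun y => wmaj R (mk x y) * q n (mk x y) ^ 2 :=
    ae_all_iff.2 fun n => slice_integrable (hWp _)
  have a2 : ∀ᵐ x : R3, ∀ n, Integrable fun y =>
      wmaj R (mk x y) * (q n (mk x y) - ψ (mk x y)) ^ 2 :=
    ae_all_iff.2 fun n => slice_integrable (hWd _)
  have a3 : ∀ᵐ x : R3, ∀ n, ∀ i k, Integrable fun y =>
      (pd i k (q n) (mk x y) - H i k (mk x y)) ^ 2 := by
    simp only [ae_all_iff]; exact fun n i k => slice_integrable (hGd _ i k)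
  have a4 : ∀ᵐ x : R3, ∀ n, ∀ i k, Integrable fun y => pd i k (q n) (mk x y) ^ 2 := by
    simp only [ae_all_iff]
    exact fun n i k => slice_integrable ((hregq n).memLpGrad i k).integrable_sq
  have a5 : ∀ᵐ x : R3, ∀ i k, Integrable fun y => H i k (mk x y) ^ 2 := by
    simp only [ae_all_iff]; exact fun i k => slice_integrable (hr.memLpGrad i k).integrable_sq
  have a6 := slice_integrable hWψ
  have hψ' : ∀ᵐ x : R3, AEStronglyMeasurable fun y => ψ (mk x y) :=
    (hψm.comp_quasiMeasurePreserving measurePreserving_mk.quasiMeasurePreserving).prodMk_left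
  have hH' : ∀ᵐ x : R3, ∀ i k, AEStronglyMeasurable fun y => H i k (mk x y) := by
    simp only [ae_all_iff]
    exact fun i k => ((hHm i k).comp_quasiMeasurePreserving
      measurePreserving_mk.quasiMeasurePreserving).prodMk_left
  have hlow := ae_mk hA.lower
  filter_upwards [a1, a2, a3, a4, a5, a6, hψ', hH', hns, hlow] with
    x b1 b2 b3 b4 b5 b6 bψ bH bd blow
  exact slice_limit hu hA hC hδ hpos hregq hK0 h0 b1 b2 b3 b4 b5 b6 bψ bH bd blow

/-- The weak derivative of the slice modulus. -/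
lemma weak_sqrt_den {δ C K : ℝ} {A : C2 → ℝ} {q : ℕ → C2 → ℝ}
    (hu : IsSol Z R e ψ) (hA : Controlled R δ C ψ A) (hC : 0 < C) (hδ : 0 < δ)
    (hpos : ∀ X, 0 < A X) (hregq : ∀ n, Regular R C A (q n))
    (hlim : ∀ᵐ x : R3, SliceLimit Z R e ψ H q x) (hK : 0 < K)
    (hKb : ∀ p : C2 → ℝ, Regular R C A p → ∀ᵐ x : R3, ∀ i k,
      den (pd i k p) x / den p x ≤ K * U R x)
    (hUS : Integrable fun x => U R x * slice A x) (k : Fin 3) :
    WeakDeriv (axis k) (fun x => √(den ψ x))
      (fun x => crossInt ψ (H 0 k) x / √(den ψ x)) := by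
  have hKU : ∀ x, 0 ≤ K * U R x := fun x => mul_nonneg hK.le (zero_le_one.trans (one_le_U x))
  intro η hη
  set φn : ℕ → R3 → ℝ := fun n x => √(den (q n) x)
  set Dn : ℕ → R3 → ℝ := fun n x => crossInt (q n) (pd 0 k (q n)) x / φn n x
  have hdn : ∀ n x, 0 < den (q n) x := fun n => den_pos hu hA hC hδ (hregq n) hpos
  have hdc : ∀ n, ContDiff ℝ 1 (den (q n)) := fun n => contDiff_den hu hA hC hδ (hregq n)
  have hφc : ∀ n, ContDiff ℝ 1 (φn n) := fun n => (hdc n).sqrt fun x => (hdn n x).ne'
  have hpdφ : ∀ n x, pd1 k (φn n) x = Dn n x := fun n x => by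
    have h2 := (((hdc n).differentiable one_ne_zero) x).hasFDerivAt.sqrt (hdn n x).ne'
    rw [pd1, show fderiv ℝ (φn n) x = _ from h2.fderiv]
    have e1 : fderiv ℝ (den (q n)) x (axis k) = 2 * crossInt (q n) (pd 0 k (q n)) x :=
      pd1_den hu hA hC hδ (hregq n) k x
    simp only [smul_apply, smul_eq_mul, e1, Dn, φn]
    ring
  have heq : ∀ n, ∫ x, fderiv ℝ η x (axis k) * φn n x = -∫ x, η x * Dn n x := fun n => by
    have := weak_of_contDiff (hφc n) k η hη
    simpa only [smul_eq_mul, hpdφ] using this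
  have hη1 : ContDiff ℝ 1 η := hη.1.of_le (mod_cast le_top)
  have cη : Continuous fun x => fderiv ℝ η x (axis k) :=
    (hη1.continuous_fderiv one_ne_zero).clm_apply continuous_const
  have hbη : ∀ f : R3 → ℝ, Continuous f → HasCompactSupport f →
      Integrable fun x => |f x| * (1 + (K + 1) * C ^ 2 * (U R x * slice A x)) := fun f hc hs => by
    obtain ⟨B, hB⟩ := hc.bounded_above_of_compact_support hs
    have h2 : Integrable fun x => |f x| * ((K + 1) * C ^ 2 * (U R x * slice A x)) :=
      (hUS.const_mul _).bdd_mul hc.abs.aestronglyMeasurable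
        (Eventually.of_forall fun x => by simpa using hB x)
    exact ((hc.integrable_of_hasCompactSupport hs).abs.add h2).congr
      (Eventually.of_forall fun x => by simp; ring)
  have hsq : ∀ t : ℝ, |t| ≤ 1 + t ^ 2 := fun t => by nlinarith [sq_abs t, sq_nonneg (|t| - 1)]
  have hb1 : ∀ n x, |φn n x| ≤ 1 + (K + 1) * C ^ 2 * (U R x * slice A x) := fun n x => by
    have h1 := (den_bounds hu hA hC hδ (hregq n) x).1
    have h2 := hsq (φn n x)
    rw [Real.sq_sqrt (hdn n x).le] at h2
    have h3 : slice A x ≤ (K + 1) * (U R x * slice A x) :=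
      le_trans (le_mul_of_one_le_left (slice_nonneg A x) (one_le_U (R := R) x))
        (le_mul_of_one_le_left (mul_nonneg (zero_le_one.trans (one_le_U x)) (slice_nonneg A x))
          (by linarith))
    nlinarith [mul_le_mul_of_nonneg_left h3 (sq_nonneg C)]
  have hb2 : ∀ n, ∀ᵐ x : R3, |Dn n x| ≤ 1 + (K + 1) * C ^ 2 * (U R x * slice A x) := fun n => by
    filter_upwards [hKb (q n) (hregq n),
      slice_integrable ((hregq n).memLpGrad 0 k).integrable_sq] with x hb hi
    have hpn := p_slice_integrable hu hA hC hδ (hregq n) x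
    have h5 := cross_sq_le hpn hi (((continuous_p (hregq n)).mul
      (continuous_pd (hregq n) 0 k)).comp (continuous_mk_right x)).aestronglyMeasurable (hdn n x)
    have h6 := mul_le_mul_of_nonneg_right (h5.trans (hb 0 k)) (hdn n x).le
    have e2 : Dn n x ^ 2 = crossInt (q n) (pd 0 k (q n)) x ^ 2 / den (q n) x ^ 2 *
        den (q n) x := by
      simp only [Dn, φn, div_pow, Real.sq_sqrt (hdn n x).le]
      field_simp [(hdn n x).ne']
    have h7 := hsq (Dn n x)
    rw [e2] at h7
    have h8 := mul_le_mul_of_nonneg_left (den_bounds hu hA hC hδ (hregq n) x).1 (hKU x)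
    have h9 : 0 ≤ U R x * slice A x :=
      mul_nonneg (zero_le_one.trans (one_le_U x)) (slice_nonneg A x)
    nlinarith [mul_nonneg (sq_nonneg C) h9]
  have L1 : Tendsto (fun n => ∫ x, fderiv ℝ η x (axis k) * φn n x) atTop
      (𝓝 (∫ x, fderiv ℝ η x (axis k) * √(den ψ x))) := by
    refine tendsto_integral_of_dominated_convergence _
      (fun n => (cη.mul (hφc n).continuous).aestronglyMeasurable)
      (hbη _ cη (hη.2.fderiv_apply ℝ (axis k))) (fun n => Eventually.of_forall fun x => ?_) ?_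
    · rw [Real.norm_eq_abs, abs_mul]
      exact mul_le_mul_of_nonneg_left (hb1 n x) (abs_nonneg _)
    · filter_upwards [hlim] with x hx
      exact (hx.2.1.sqrt).const_mul _
  have L2 : Tendsto (fun n => ∫ x, η x * Dn n x) atTop (𝓝 (∫ x, η x * (crossInt ψ (H 0 k) x / √(den ψ x)))) := by
    refine tendsto_integral_of_dominated_convergence _ (fun n => ?_)
      (hbη _ hη1.continuous hη.2) (fun n => ?_) ?_
    · refine (hη1.continuous.mul ?_).aestronglyMeasurable
      have : Continuous fun x => pd1 k (φn n) x :=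
        ((hφc n).continuous_fderiv one_ne_zero).clm_apply continuous_const
      simpa only [hpdφ] using this
    · filter_upwards [hb2 n] with x hx
      rw [Real.norm_eq_abs, abs_mul]
      exact mul_le_mul_of_nonneg_left hx (abs_nonneg _)
    · filter_upwards [hlim] with x hx
      exact ((hx.2.2.2.1 k).div hx.2.1.sqrt (Real.sqrt_ne_zero'.2 hx.1)).const_mul _
  simp only [smul_eq_mul]
  refine tendsto_nhds_unique L1 ?_
  simp only [heq]
  exact L2.neg

/-- The conditional amplitude theorem. -/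
theorem amplitude (hk : HarnackPin) (hm : MollPin) (hl : MollLimPin) (hardy : HardyPin)
    (hr : Reduced Z R Ψ e ψ H) : ∃ v φ D, OneBody R ψ v φ D := by
  obtain ⟨δ, C, hδ, -, hC, hk'⟩ := hk M Z R e
  obtain ⟨A, hA⟩ := hk' ψ hr.sol hr.nonneg
  have hu := hr.sol
  have hψm : AEStronglyMeasurable ψ := hu.memLp.aestronglyMeasurable
  have hpos : ∀ X, 0 < A X := by
    refine hA.dichotomy.resolve_left fun h0 => ?_
    have h1 : ∫ X, ψ X ^ 2 = 0 := integral_eq_zero_of_ae (by
      filter_upwards [hA.upper] with X hX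
      rw [h0 X, mul_zero] at hX
      simp [le_antisymm hX (hr.nonneg X)])
    rw [hr.normOne] at h1
    exact one_ne_zero h1
  obtain ⟨hWψ, -⟩ := hm M R ψ H hu.memLp hr.memLpGrad hr.weak
  obtain ⟨q, hregq, hlim⟩ := exists_approx hm hl hr hA hC hδ hpos
  obtain ⟨K, hK, hKb⟩ := ampPot_bound hu hA hC hδ hpos
  obtain ⟨K0, hK0, h0⟩ := pot2_majorant (Z := Z) (R := R) (e := e)
  -- the potential
  set v0 := ampPot Z R e ψ H with hv0
  have hvt : ∀ᵐ x : R3, Tendsto (fun n => ampPot Z R e (q n) (fun i k => pd i k (q n)) x) atTop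
      (𝓝 (v0 x)) := by
    filter_upwards [hlim] with x hx
    obtain ⟨hd', t1, t2, t3, t4, -⟩ := hx
    refine (((tendsto_finsetSum Finset.univ fun i _ =>
      tendsto_finsetSum Finset.univ fun k _ => (t2 i k).const_mul (1 / 2 : ℝ)).add t4).div
        t1 hd'.ne').sub ?_
    exact tendsto_finsetSum Finset.univ fun k _ =>
      ((((t3 k).pow 2).const_mul (1 / 2 : ℝ)).div (t1.pow 2) (pow_ne_zero 2 hd'.ne'))
  have hvb : ∀ᵐ x : R3, |v0 x| ≤ K * U R x := by
    filter_upwards [hvt, ae_all_iff.2 fun n => hKb (q n) (hregq n)] with x hx hb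
    exact le_of_tendsto' hx.abs fun n => (hb n).1
  have hVm : Integrable fun X => (pot2 Z R X - e) * ψ X ^ 2 := by
    refine (hWψ.const_mul K0).mono'
      ((measurable_pot2.sub_const e).aestronglyMeasurable.mul (hψm.pow 2))
      (Eventually.of_forall fun X => ?_)
    rw [Real.norm_eq_abs, abs_mul, abs_sq, ← mul_assoc]
    exact mul_le_mul_of_nonneg_right (h0 X) (sq_nonneg _)
  have hdenm : AEMeasurable (den ψ) :=
    (integrable_slice_integral hu.memLp.integrable_sq).aestronglyMeasurable.aemeasurable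
  have hcrm : ∀ k, AEMeasurable (crossInt ψ (H 0 k)) := fun k =>
    (integrable_slice_integral
      (hu.memLp.integrable_mul (hr.memLpGrad 0 k))).aestronglyMeasurable.aemeasurable
  have hnum : Integrable (num Z R e ψ H) :=
    (integrable_finsetSum _ fun i _ => integrable_finsetSum _ fun k _ =>
      (integrable_slice_integral (hr.memLpGrad i k).integrable_sq).const_mul _).add
      (integrable_slice_integral hVm)
  have hv0m : AEMeasurable v0 := by
    refine (hnum.aemeasurable.div hdenm).sub ?_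
    exact Finset.aemeasurable_fun_sum _ fun k _ =>
      (((hcrm k).pow_const 2).const_mul _).div (hdenm.pow_const 2)
  set v : R3 → ℝ := fun x => max (-(K * U R x)) (min (K * U R x) (hv0m.mk v0 x)) with hv
  have hvv0 : v =ᵐ[volume] v0 := by
    filter_upwards [hv0m.ae_eq_mk, hvb] with x hx hb
    rw [hv]; simp only
    rw [← hx, min_eq_right (abs_le.1 hb).2, max_eq_right (abs_le.1 hb).1]
  have hKU : ∀ x, 0 ≤ K * U R x := fun x => mul_nonneg hK.le (zero_le_one.trans (one_le_U x))
  have hvbound : ∀ x, |v x| ≤ K * U R x := fun x => by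
    rw [hv]; simp only
    rw [abs_le]
    exact ⟨le_max_left _ _, max_le (by linarith [hKU x]) (min_le_left _ _)⟩
  have hvmeas : Measurable v :=
    ((measurable_U.const_mul K).neg).max ((measurable_U.const_mul K).min hv0m.measurable_mk)
  set φ : R3 → ℝ := fun x => √(den ψ x) with hφ
  have hφsq : ∀ x, φ x ^ 2 = den ψ x := fun x =>
    Real.sq_sqrt (integral_nonneg fun y => sq_nonneg _)
  set D : Fin 3 → R3 → ℝ := fun k x => crossInt ψ (H 0 k) x / φ x with hD
  have hDsq : ∀ᵐ x : R3, ∀ k, D k x ^ 2 = crossInt ψ (H 0 k) x ^ 2 / den ψ x ∧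
      crossInt ψ (H 0 k) x ^ 2 / den ψ x ≤ den (H 0 k) x := by
    filter_upwards [hlim] with x hx k
    exact ⟨by rw [hD]; simp [div_pow, hφsq], (hx.2.2.2.2.2 k).2⟩
  have hφm : AEStronglyMeasurable φ :=
    (Real.continuous_sqrt.measurable.comp_aemeasurable hdenm).aestronglyMeasurable
  have hφL : MemLp φ 2 := (memLp_two_iff_integrable_sq hφm).2 <| by
    simp only [hφsq]; exact integrable_slice_integral hu.memLp.integrable_sq
  have hDm : ∀ k, AEStronglyMeasurable (D k) := fun k =>
    ((hcrm k).div hφm.aemeasurable).aestronglyMeasurable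
  have hDL : ∀ k, MemLp (D k) 2 := fun k => (memLp_two_iff_integrable_sq (hDm k)).2 <| by
    refine (integrable_slice_integral (hr.memLpGrad 0 k).integrable_sq).mono' ((hDm k).pow 2) ?_
    filter_upwards [hDsq] with x hx
    rw [Real.norm_eq_abs, abs_sq, (hx k).1]
    exact (hx k).2
  -- a common integrable bound
  have hUS : Integrable fun x => U R x * slice A x := by
    have h1 : Integrable fun X : C2 => U R (X 0) * A X ^ 2 := by
      refine (hWψ.const_mul (C ^ 2)).mono' (((measurable_U.comp (measurable_pi_apply 0)).mul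
        (hA.measurable.pow_const 2)).aestronglyMeasurable) ?_
      filter_upwards [hA.lower] with X hX
      rw [Real.norm_eq_abs, abs_of_nonneg
        (mul_nonneg (zero_le_one.trans (one_le_U _)) (sq_nonneg _))]
      calc U R (X 0) * A X ^ 2 ≤ wmaj R X * (C * ψ X) ^ 2 :=
            mul_le_mul (U_le_wmaj_zero X) (pow_le_pow_left₀ (hA.nonneg X) hX 2) (sq_nonneg _)
              (wmaj_nonneg _)
        _ = _ := by ring
    refine (integrable_slice_integral h1).congr (Eventually.of_forall fun x => ?_)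
    simp only [mk_zero, integral_const_mul]; rfl
  have hφU : Integrable fun x => v x * φ x ^ 2 := by
    refine (hUS.const_mul (K * C ^ 2)).mono'
      (hvmeas.aestronglyMeasurable.mul (hφm.pow 2)) ?_
    filter_upwards [hlim] with x hx
    rw [Real.norm_eq_abs, abs_mul, abs_sq, hφsq]
    have h1 : den ψ x ≤ C ^ 2 * slice A x :=
      le_of_tendsto' hx.2.1 fun n => (den_bounds hu hA hC hδ (hregq n) x).1
    calc |v x| * den ψ x ≤ K * U R x * (C ^ 2 * slice A x) :=
          mul_le_mul (hvbound x) h1 (integral_nonneg fun y => sq_nonneg _) (hKU x)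
      _ = _ := by ring
  refine ⟨v, φ, D, hvmeas, ⟨K, hK.le, hvbound⟩, fun x => Real.sqrt_nonneg _, hφsq, hφL, hDL,
    fun k => weak_sqrt_den hu hA hC hδ hpos hregq hlim hK
      (fun p hp => (hKb p hp).mono fun x hx => hx.2.1) hUS k, hφU, ?_, ?_⟩
  -- zero energy
  · have hz := hr.zero
    rw [qform, integral_mk hVm] at hz
    simp only [integral_mk ((hr.memLpGrad _ _).integrable_sq)] at hz
    have e4 : ∀ (i : Fin 2) (k : Fin 3), (1 / 2 : ℝ) * ∫ x, ∫ y, H i k (mk x y) ^ 2 =
        ∫ x, (1 / 2 : ℝ) * ∫ y, H i k (mk x y) ^ 2 := fun i k => (integral_const_mul _ _).symm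
    have j0 := fun i k => (integrable_slice_integral
      (hr.memLpGrad i k).integrable_sq).const_mul (1 / 2 : ℝ)
    simp only [e4, Fin.sum_univ_two] at hz
    rw [← integral_finsetSum _ fun k _ => j0 0 k, ← integral_finsetSum _ fun k _ => j0 1 k,
      ← integral_add (integrable_finsetSum _ fun k _ => j0 0 k)
        (integrable_finsetSum _ fun k _ => j0 1 k),
      ← integral_add ((integrable_finsetSum _ fun k _ => j0 0 k).fun_add
        (integrable_finsetSum _ fun k _ => j0 1 k)) (integrable_slice_integral hVm)] at hz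
    refine (integral_congr_ae ?_).trans hz
    filter_upwards [hlim, hvv0, hDsq] with x hx hvx hDx
    rw [hvx, hφsq, hv0, ampPot, num]
    simp only [fun k => (hDx k).1, Fin.sum_univ_two, Fin.sum_univ_three, den]
    have := hx.1.ne'
    rw [den] at this
    field_simp
    ring
  -- nonnegativity
  · intro w hw hw2 hwd
    have hwU := integrable_U_sq hardy hw hw2 hwd (R := R)
    have hb := fun n => qone_ampPot_nonneg hu hA hC hδ hpos hr.bottom (hregq n) hw hw2 hwd hwU
    have hi : Integrable fun x => v x * w x ^ 2 := by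
      refine (hwU.const_mul K).mono'
        (hvmeas.aestronglyMeasurable.mul (hw.continuous.pow 2).aestronglyMeasurable)
        (Eventually.of_forall fun x => ?_)
      rw [Real.norm_eq_abs, abs_mul, abs_sq, ← mul_assoc]
      exact mul_le_mul_of_nonneg_right (hvbound x) (sq_nonneg _)
    refine ⟨hi, ge_of_tendsto' (x := atTop) ?_ fun n => (hb n).2⟩
    have hsum : Integrable fun x => ∑ k, (1 / 2 : ℝ) * pd1 k w x ^ 2 :=
      integrable_finsetSum _ fun k _ => (hwd k).integrable_sq.const_mul _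
    refine tendsto_integral_of_dominated_convergence
      (fun x => (∑ k, (1 / 2 : ℝ) * pd1 k w x ^ 2) + K * (U R x * w x ^ 2))
      (fun n => (hsum.add (hb n).1).aestronglyMeasurable) (hsum.add (hwU.const_mul K))
      (fun n => ?_) ?_
    · filter_upwards [hKb (q n) (hregq n)] with x hx
      refine (norm_add_le _ _).trans (add_le_add (le_of_eq ?_) ?_)
      · rw [Real.norm_eq_abs, abs_of_nonneg]
        exact Finset.sum_nonneg fun k _ => by positivity
      · rw [Real.norm_eq_abs, abs_mul, abs_sq, ← mul_assoc]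
        exact mul_le_mul_of_nonneg_right hx.1 (sq_nonneg _)
    · filter_upwards [hvt, hvv0] with x hx hvx
      rw [hvx]
      exact tendsto_const_nhds.add (hx.mul_const _)

end Vale.Agent.P363.Two
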