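import Vale.Agent.P363.Two.Reference
import Vale.Agent.P363.ClassV

/-!
Two electrons: the doubly occupied orbital is a noninteracting ground state with the molecular
density.
-/

noncomputable section

open MeasureTheory Set Filter Topology
open scoped ENNReal

namespace Vale.Agent.P363.Two

variable {M : ℕ} {Z : Fin M → ℕ} {R : Fin M → R3}

/-- The singlet spin factor. -/
def singlet (s : Fin 2 → Fin 2) : ℝ :=
  (if s 0 = 0 ∧ s 1 = 1 then 1 else if s 0 = 1 ∧ s 1 = 0 then -1 else 0) / √2

lemma singlet_sq_sum : ∑ s, singlet s ^ 2 = 1 := by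
  rw [← (finTwoArrowEquiv (Fin 2)).symm.sum_comp, Fintype.sum_prod_type]
  simp [Fin.sum_univ_two, singlet, div_pow]
  norm_num

lemma singlet_swap (s : Fin 2 → Fin 2) : singlet (fun i => s (Equiv.swap 0 1 i)) = -singlet s := by
  obtain ⟨a, b, rfl⟩ : ∃ a b, s = ![a, b] := ⟨s 0, s 1, by funext i; fin_cases i <;> rfl⟩
  fin_cases a <;> fin_cases b <;> simp [singlet, neg_div]

lemma memLp_re {Ψ : C2 → ℂ} (h : MemLp Ψ 2) : MemLp (fun X => (Ψ X).re) 2 := h.re

lemma memLp_im {Ψ : C2 → ℂ} (h : MemLp Ψ 2) : MemLp (fun X => (Ψ X).im) 2 := h.im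

lemma weak_parts {Ψ G : C2 → ℂ} {i : Fin 2} {k : Fin 3} (hm : MemLp Ψ 2) (hG : MemLp G 2)
    (h : WeakDeriv (dir i k) Ψ G) :
    WeakDeriv (dir i k) (fun X => (Ψ X).re) (fun X => (G X).re) ∧
      WeakDeriv (dir i k) (fun X => (Ψ X).im) (fun X => (G X).im) := by
  have key : ∀ (L : ℂ →L[ℝ] ℝ), WeakDeriv (dir i k) (fun X => L (Ψ X)) (fun X => L (G X)) := by
    intro L η hη
    have hη1 : ContDiff ℝ 1 η := hη.1.of_le (mod_cast le_top)
    have cη : Continuous fun X => fderiv ℝ η X (dir i k) :=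
      (hη1.continuous_fderiv one_ne_zero).clm_apply continuous_const
    have i1 : Integrable fun X => fderiv ℝ η X (dir i k) • Ψ X :=
      (hm.locallyIntegrable (by norm_num)).integrable_smul_left_of_hasCompactSupport cη
        (hη.2.fderiv_apply ℝ (dir i k))
    have i2 : Integrable fun X => η X • G X :=
      (hG.locallyIntegrable (by norm_num)).integrable_smul_left_of_hasCompactSupport
        hη1.continuous hη.2
    have := congrArg L (h η hη)
    rw [map_neg, ← L.integral_comp_comm i1, ← L.integral_comp_comm i2] at this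
    simpa only [map_smul] using this
  exact ⟨key Complex.reCLM, key Complex.imCLM⟩

lemma complex_sq {F : C2 → ℂ} (h : MemLp F 2) :
    ∫ X, ‖F X‖ ^ 2 = (∫ X, (F X).re ^ 2) + ∫ X, (F X).im ^ 2 := by
  rw [← integral_add (memLp_re h).integrable_sq (memLp_im h).integrable_sq]
  exact integral_congr_ae (Eventually.of_forall fun X => by
    simp only [Complex.sq_norm, Complex.normSq_apply]; ring)

lemma ofReal_weak {f g : C2 → ℝ} {i : Fin 2} {k : Fin 3} (c : ℝ)
    (h : WeakDeriv (dir i k) f g) :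
    WeakDeriv (dir i k) (fun X => ((c * f X : ℝ) : ℂ)) (fun X => ((c * g X : ℝ) : ℂ)) := by
  intro η hη
  have := h η hη
  simp only [smul_eq_mul] at this
  simp only [Complex.real_smul, ← Complex.ofReal_mul, mul_left_comm _ c]
  rw [integral_complex_ofReal, integral_complex_ofReal, integral_const_mul, integral_const_mul,
    this, mul_neg, Complex.ofReal_neg]

/-- The reference state. -/
def doublyOccupied (φ : R3 → ℝ) : Wave 2 := fun s X => ((singlet s * (φ (X 0) * φ (X 1)) : ℝ) : ℂ)

/-- Its gradient. -/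
def doublyGrad (φ : R3 → ℝ) (D : Fin 3 → R3 → ℝ) : Grad 2 := fun s i k X =>
  ((singlet s * orbGrad φ D i k X : ℝ) : ℂ)

lemma antisymmetric_doubly (φ : R3 → ℝ) : Antisymmetric (doublyOccupied φ) := by
  intro τ s
  refine Eventually.of_forall fun X => ?_
  have hτ : τ = 1 ∨ τ = Equiv.swap 0 1 := by revert τ; decide
  rcases hτ with rfl | rfl
  · simp [doublyOccupied]
  · simp only [doublyOccupied, singlet_swap, Equiv.swap_apply_left, Equiv.swap_apply_right,
      Equiv.Perm.sign_swap (show (0 : Fin 2) ≠ 1 by decide)]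
    push_cast
    ring

theorem two_electron (hk : HarnackPin) (hf : FormPin) {Ψ : Wave 2}
    (h : IsGroundState (molecule Z R) Ψ) :
    ∃ n, HasDensity Ψ n ∧ EnsembleRepresentable 2 n := by
  obtain ⟨e, ψ, H, hr⟩ := hf hk M Z R Ψ h
  obtain ⟨v, φ, D, ho⟩ := amplitude hk mollPin mollLimPin hardyPin hr
  obtain ⟨K, hK, hb⟩ := ho.bound
  have hψ2 := hr.sol.memLp.integrable_sq
  have hden : Integrable (den ψ) := integrable_slice_integral hψ2
  have hφn : ∫ x, φ x ^ 2 = 1 := by
    simp only [ho.phi_sq]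
    exact (integral_mk hψ2).symm.trans hr.normOne
  have hB : ∀ B : Set R3, MeasurableSet B →
      ∫ x in B, den ψ x = ∫ X in {X : C2 | X 0 ∈ B}, ψ X ^ 2 := by
    intro B hB
    have hS : MeasurableSet {X : C2 | X 0 ∈ B} := measurable_pi_apply 0 hB
    rw [← integral_indicator hB, ← integral_indicator hS, integral_mk (hψ2.indicator hS)]
    refine integral_congr_ae (Eventually.of_forall fun x => ?_)
    by_cases hx : x ∈ B <;> simp [hx, den, indicator]
  -- the molecular density
  obtain ⟨G, hG, hnorm, -⟩ := id h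
  choose c hc using hr.comp
  have hsq : ∀ s, ∀ᵐ X, ‖Ψ s X‖ ^ 2 = ‖c s‖ ^ 2 * ψ X ^ 2 := fun s => by
    filter_upwards [hc s] with X hX
    rw [hX, norm_mul, Complex.norm_real, mul_pow, Real.norm_eq_abs, sq_abs]
  have hcs : ∑ s, ‖c s‖ ^ 2 = 1 := by
    rw [← hnorm, normSq]
    refine Finset.sum_congr rfl fun s _ => ?_
    rw [integral_congr_ae (hsq s), integral_const_mul, hr.normOne, mul_one]
  set σ : C2 → C2 := fun X i => X (Equiv.swap 0 1 i)
  have hall : ∀ᵐ X : C2, ∀ s, ‖Ψ s X‖ ^ 2 = ‖c s‖ ^ 2 * ψ X ^ 2 ∧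
      Ψ (fun i => s (Equiv.swap 0 1 i)) (σ X) = -Ψ s X ∧
      ‖Ψ s (σ X)‖ ^ 2 = ‖c s‖ ^ 2 * ψ (σ X) ^ 2 := by
    refine ae_all_iff.2 fun s => (hsq s).and ((?_ : ∀ᵐ X : C2, _).and
      (measurePreserving_swap.quasiMeasurePreserving.ae (hsq s)))
    filter_upwards [hG.antisym (Equiv.swap 0 1) s] with X hX
    simpa [σ] using hX
  have hsym : ∀ᵐ X : C2, ψ (σ X) ^ 2 = ψ X ^ 2 := by
    filter_upwards [hall] with X hX
    have e1 : ∑ s, ‖Ψ s (σ X)‖ ^ 2 = ∑ s, ‖Ψ s X‖ ^ 2 := by
      set P : (Fin 2 → Fin 2) ≃ (Fin 2 → Fin 2) :=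
        Equiv.arrowCongr (Equiv.swap 0 1) (Equiv.refl _) with hP
      rw [← P.sum_comp]
      refine Finset.sum_congr rfl fun s _ => ?_
      have e2 : P s = fun i => s (Equiv.swap 0 1 i) := by
        funext i; simp [hP, Equiv.arrowCongr]
      rw [e2, (hX s).2.1, norm_neg]
    simp only [fun s => (hX s).1, fun s => (hX s).2.2, ← Finset.sum_mul, hcs, one_mul] at e1
    exact e1
  set n : R3 → ℝ := fun x => 2 * den ψ x with hndef
  have hn : HasDensity Ψ n := by
    refine ⟨hden.const_mul 2, fun B hBm => ?_⟩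
    have e3 : ∀ i, ∑ s, ∫ X in {X : C2 | X i ∈ B}, ‖Ψ s X‖ ^ 2 =
        ∫ X in {X : C2 | X i ∈ B}, ψ X ^ 2 := fun i => by
      calc _ = ∑ s, ‖c s‖ ^ 2 * ∫ X in {X : C2 | X i ∈ B}, ψ X ^ 2 :=
            Finset.sum_congr rfl fun s _ => by
              rw [integral_congr_ae (ae_restrict_of_ae (hsq s)), integral_const_mul]
        _ = _ := by rw [← Finset.sum_mul, hcs, one_mul]
    have hemb : MeasurableEmbedding σ := by
      refine MeasurableEmbedding.of_measurable_inverse (g := σ) measurePreserving_swap.measurable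
        ?_ measurePreserving_swap.measurable fun X => funext fun i => by simp [σ]
      rw [Set.range_eq_univ.2 fun X => ⟨σ X, funext fun i => by simp [σ]⟩]
      exact MeasurableSet.univ
    have e4 : ∫ X in {X : C2 | X 1 ∈ B}, ψ X ^ 2 = ∫ X in {X : C2 | X 0 ∈ B}, ψ X ^ 2 := by
      rw [← measurePreserving_swap.setIntegral_preimage_emb hemb (fun X => ψ X ^ 2)
        {X : C2 | X 1 ∈ B}]
      simp only [Set.preimage_ofPred_eq, Equiv.swap_apply_right]
      exact integral_congr_ae (ae_restrict_of_ae hsym)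
    simp only [hndef, integral_const_mul, hB B hBm, Fin.sum_univ_two, e3, e4]
    ring
  -- the reference state
  have hF := inH1_orb ho.memLp ho.memLpGrad ho.weak
  obtain ⟨hFi, hF0⟩ := qtwo_orb ho hφn
  have hFn : ∫ X : C2, (φ (X 0) * φ (X 1)) ^ 2 = 1 := by
    simp only [mul_pow]
    rw [integral_prod_orb (fun x => φ x ^ 2) (fun x => φ x ^ 2), hφn, mul_one]
  have hnormF : normSq (doublyOccupied φ) = 1 := by
    simp only [normSq, doublyOccupied, Complex.norm_real, Real.norm_eq_abs, sq_abs,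
      mul_pow (singlet _), integral_const_mul, hFn, mul_one, singlet_sq_sum]
  have hdom : InDomain (sumPot v) (doublyOccupied φ) (doublyGrad φ D) :=
    { antisym := antisymmetric_doubly φ
      memLp := fun s => (hF.memLp.const_mul (singlet s)).ofReal
      memLpGrad := fun s i k => ((hF.memLpGrad i k).const_mul (singlet s)).ofReal
      weak := fun s i k => ofReal_weak _ (hF.weak i k)
      potential := fun s => (hFi.const_mul (singlet s ^ 2)).congr
        (Eventually.of_forall fun X => by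
          simp only [doublyOccupied, Complex.norm_real, Real.norm_eq_abs, sq_abs]; ring) }
  have hE : energy (sumPot v) (doublyOccupied φ) (doublyGrad φ D) = 0 := by
    have e5 : ∀ s, (∑ i, ∑ k, (1 / 2 : ℝ) * ∫ X, ‖doublyGrad φ D s i k X‖ ^ 2) +
        ∫ X, sumPot v X * ‖doublyOccupied φ s X‖ ^ 2 =
        singlet s ^ 2 * qtwo v (fun X => φ (X 0) * φ (X 1)) (orbGrad φ D) := fun s => by
      simp only [doublyGrad, doublyOccupied, Complex.norm_real, Real.norm_eq_abs, sq_abs,
        mul_pow (singlet s), mul_left_comm (sumPot v _) (singlet s ^ 2), integral_const_mul,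
        qtwo, Fin.sum_univ_two, Fin.sum_univ_three]
      ring
    simp only [energy, e5, hF0, mul_zero, Finset.sum_const_zero]
  refine ⟨n, hn, representable_of_pure (inClassV_of_bound ho.measurable hK hb)
    ⟨doublyGrad φ D, hdom, hnormF, fun Φ K' hΦ => ?_⟩ ?_⟩
  · -- every competitor has nonnegative energy
    rw [hE, zero_mul]
    refine Finset.sum_nonneg fun s _ => ?_
    have hre : InH1 (fun X => (Φ s X).re) fun i k X => (K' s i k X).re :=
      ⟨memLp_re (hΦ.memLp s), fun i k => memLp_re (hΦ.memLpGrad s i k), fun i k =>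
        (weak_parts (hΦ.memLp s) (hΦ.memLpGrad s i k) (hΦ.weak s i k)).1⟩
    have him : InH1 (fun X => (Φ s X).im) fun i k X => (K' s i k X).im :=
      ⟨memLp_im (hΦ.memLp s), fun i k => memLp_im (hΦ.memLpGrad s i k), fun i k =>
        (weak_parts (hΦ.memLp s) (hΦ.memLpGrad s i k) (hΦ.weak s i k)).2⟩
    have q1 := qtwo_nonneg ho.measurable hK hb ho.nonneg hre
    have q2 := qtwo_nonneg ho.measurable hK hb ho.nonneg him
    have hint : ∀ {f : C2 → ℝ} {J : Fin 2 → Fin 3 → C2 → ℝ}, InH1 f J →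
        Integrable fun X => sumPot v X * f X ^ 2 := fun hfJ => by
      refine ((wmaj_bound R hfJ).1.const_mul (2 * K)).mono'
        ((measurable_sumPot ho.measurable).aestronglyMeasurable.mul
          (hfJ.memLp.aestronglyMeasurable.pow 2)) (Eventually.of_forall fun X => ?_)
      rw [Real.norm_eq_abs, abs_mul, abs_sq, ← mul_assoc]
      exact mul_le_mul_of_nonneg_right (abs_sumPot_le hb hK X) (sq_nonneg _)
    have e6 : ∫ X, sumPot v X * ‖Φ s X‖ ^ 2 = (∫ X, sumPot v X * (Φ s X).re ^ 2) +
        ∫ X, sumPot v X * (Φ s X).im ^ 2 := by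
      rw [← integral_add (hint hre) (hint him)]
      exact integral_congr_ae (Eventually.of_forall fun X => by
        simp only [Complex.sq_norm, Complex.normSq_apply]; ring)
    simp only [qtwo, Fin.sum_univ_two, Fin.sum_univ_three] at q1 q2
    simp only [Fin.sum_univ_two, Fin.sum_univ_three, complex_sq (hΦ.memLpGrad s _ _), e6]
    linarith
  · refine ⟨hden.const_mul 2, fun B hBm => ?_⟩
    have hpre : ∀ (i : Fin 2), ∑ s, ∫ X in {X : C2 | X i ∈ B}, ‖doublyOccupied φ s X‖ ^ 2 =
        ∫ x in B, den ψ x := fun i => by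
      have hS : MeasurableSet {X : C2 | X i ∈ B} := measurable_pi_apply i hBm
      have e7 : ∫ X in {X : C2 | X i ∈ B}, (φ (X 0) * φ (X 1)) ^ 2 = ∫ x in B, den ψ x := by
        rw [← integral_indicator hS, ← integral_indicator hBm]
        rcases Fin.eq_zero_or_eq_succ i with rfl | ⟨j, rfl⟩
        · have : ∀ X : C2, {X : C2 | X 0 ∈ B}.indicator (fun X => (φ (X 0) * φ (X 1)) ^ 2) X =
              B.indicator (den ψ) (X 0) * φ (X 1) ^ 2 := fun X => by
            by_cases hX : X 0 ∈ B <;> simp [indicator, hX, ← ho.phi_sq, mul_pow]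
          rw [integral_congr_ae (Eventually.of_forall this),
            integral_prod_orb (B.indicator (den ψ)) (fun x => φ x ^ 2), hφn, mul_one]
        · obtain rfl : j = 0 := Subsingleton.elim _ _
          have : ∀ X : C2, {X : C2 | X 1 ∈ B}.indicator (fun X => (φ (X 0) * φ (X 1)) ^ 2) X =
              φ (X 0) ^ 2 * B.indicator (den ψ) (X 1) := fun X => by
            by_cases hX : X 1 ∈ B <;> simp [indicator, hX, ← ho.phi_sq, mul_pow]
          simp only [Fin.succ_zero_eq_one]
          rw [integral_congr_ae (Eventually.of_forall this),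
            integral_prod_orb (fun x => φ x ^ 2) (B.indicator (den ψ)), hφn, one_mul]
      simp only [doublyOccupied, Complex.norm_real, Real.norm_eq_abs, sq_abs,
        mul_pow (singlet _), integral_const_mul, e7, ← Finset.sum_mul, singlet_sq_sum, one_mul]
    simp only [hndef, integral_const_mul, Fin.sum_univ_two, hpre]
    ring

end Vale.Agent.P363.Two
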