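import Vale.Agent.P363.Defs

/-!
Two electrons: the objects of the proof. Mollifiers with an explicit potential for their scale
derivative, the majorant of the Coulomb potential, weak solutions and the pointwise control.
-/

noncomputable section

open MeasureTheory Real
open scoped ENNReal

namespace Vale.Agent.P363.Two

/-- Two-electron configurations. -/
abbrev C2 := Cfg 2

/-- The squared Euclidean length. -/
def nsq (X : C2) : ℝ := ‖X 0‖ ^ 2 + ‖X 1‖ ^ 2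

/-- The unnormalised profile, in terms of the squared length. -/
def profRaw (s : ℝ) : ℝ := expNegInvGlue (1 - s)

/-- The normalised profile. -/
def prof (s : ℝ) : ℝ := profRaw s / ∫ Z : C2, profRaw (nsq Z)

/-- The potential of the scale derivative of the mollifier: `gProf' = -prof/2`. -/
def gProf (s : ℝ) : ℝ := (1 / 2) * ∫ x in s..1, prof x

/-- The mollifier at scale `t`. -/
def rho (t : ℝ) (Z : C2) : ℝ := (t ^ 6)⁻¹ * prof (nsq Z / t ^ 2)

/-- The potential with `∂ₜ (rho t) = Δ (pot t)`. -/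
def pot (t : ℝ) (Z : C2) : ℝ := (t ^ 5)⁻¹ * gProf (nsq Z / t ^ 2)

/-- Mollification at scale `t`. -/
def moll (t : ℝ) (u : C2 → ℝ) (X : C2) : ℝ := ∫ Y, rho t (X - Y) * u Y

/-- Directional derivative. -/
def pd (i : Fin 2) (k : Fin 3) (f : C2 → ℝ) (X : C2) : ℝ := fderiv ℝ f X (dir i k)

/-- The Laplacian. -/
def lap (f : C2 → ℝ) (X : C2) : ℝ := ∑ i, ∑ k, pd i k (pd i k f) X

variable {M : ℕ}

/-- The two-electron molecular potential, written out. -/
def pot2 (Z : Fin M → ℕ) (R : Fin M → R3) (X : C2) : ℝ :=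
  (-∑ j, (Z j : ℝ) / ‖X 0 - R j‖) + (-∑ j, (Z j : ℝ) / ‖X 1 - R j‖) + 1 / ‖X 0 - X 1‖

/-- A majorant of the Coulomb singularities. -/
def wmaj (R : Fin M → R3) (X : C2) : ℝ :=
  1 + (∑ j, (‖X 0 - R j‖⁻¹ + ‖X 1 - R j‖⁻¹)) + ‖X 0 - X 1‖⁻¹

/-- The singular factor in the gradient bound. -/
def sing (R : Fin M → R3) (X : C2) : ℝ :=
  1 + (∑ j, (‖X 0 - R j‖ ^ (-(2 / 5 : ℝ)) + ‖X 1 - R j‖ ^ (-(2 / 5 : ℝ))))
    + ‖X 0 - X 1‖ ^ (-(2 / 5 : ℝ))

/-- A weak solution of `(-(1/2) Δ + W - e) u = 0` with finite potential energy. -/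
structure IsSol (Z : Fin M → ℕ) (R : Fin M → R3) (e : ℝ) (u : C2 → ℝ) : Prop where
  memLp : MemLp u 2
  weighted : Integrable fun X => wmaj R X * u X ^ 2
  eqn : ∀ η : C2 → ℝ, IsTest η →
    ∫ X, u X * lap η X = ∫ X, 2 * (pot2 Z R X - e) * u X * η X

/-- What the Harnack argument gives for a nonnegative solution `u`: it is comparable to a slowly
varying function `A`, together with all its mollifications, and so is the gradient of these. -/
structure Controlled (R : Fin M → R3) (δ C : ℝ) (u A : C2 → ℝ) : Prop where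
  measurable : Measurable A
  nonneg : ∀ X, 0 ≤ A X
  dichotomy : (∀ X, A X = 0) ∨ ∀ X, 0 < A X
  step : ∀ X Y, dist X Y ≤ δ → A Y ≤ C * A X
  upper : ∀ᵐ X, u X ≤ C * A X
  lower : ∀ᵐ X, A X ≤ C * u X
  mollUpper : ∀ t, 0 < t → t ≤ δ → ∀ X, moll t u X ≤ C * A X
  mollLower : ∀ t, 0 < t → t ≤ δ → ∀ X, A X ≤ C * moll t u X
  mollGrad : ∀ t, 0 < t → t ≤ δ → ∀ i k, ∀ᵐ X, |pd i k (moll t u) X| ≤ C * A X * sing R X

/-- The quadratic form of `-(1/2) Δ + W - e` at a function with gradient `H`. -/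
def qform (Z : Fin M → ℕ) (R : Fin M → R3) (e : ℝ) (f : C2 → ℝ) (H : Fin 2 → Fin 3 → C2 → ℝ) :
    ℝ :=
  (∑ i, ∑ k, (1 / 2 : ℝ) * ∫ X, H i k X ^ 2) + ∫ X, (pot2 Z R X - e) * f X ^ 2

/-- The output of the variational part: one positive minimiser carries every spin component. -/
structure Reduced (Z : Fin M → ℕ) (R : Fin M → R3) (Ψ : Wave 2) (e : ℝ) (ψ : C2 → ℝ)
    (H : Fin 2 → Fin 3 → C2 → ℝ) : Prop where
  sol : IsSol Z R e ψ
  nonneg : ∀ X, 0 ≤ ψ X
  normOne : ∫ X, ψ X ^ 2 = 1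
  memLpGrad : ∀ i k, MemLp (H i k) 2
  weak : ∀ i k, WeakDeriv (dir i k) ψ (H i k)
  zero : qform Z R e ψ H = 0
  bottom : ∀ h : C2 → ℝ, ContDiff ℝ 1 h → MemLp h 2 →
    (∀ i k, MemLp (pd i k h) 2) → 0 ≤ qform Z R e h fun i k => pd i k h
  comp : ∀ s, ∃ c : ℂ, ∀ᵐ X, Ψ s X = c * ((ψ X : ℝ) : ℂ)

end Vale.Agent.P363.Two
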