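import Vale.Agent.P363.Two.Slices

/-!
The conditional amplitude of a regular positive two-electron function: the one-body form with the
potential built from it is the two-electron form at `w(x) p(x, y) / √(∫ p(x, ·)²)`.
-/

noncomputable section

open MeasureTheory Set Filter Topology Metric
open scoped ENNReal

namespace Vale.Agent.P363.Two

variable {M : ℕ} {Z : Fin M → ℕ} {R : Fin M → R3} {e δ C : ℝ} {u A p : C2 → ℝ}

/-- `∫ f(x, y)² dy`. -/
def den (f : C2 → ℝ) (x : R3) : ℝ := ∫ y, f (mk x y) ^ 2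

/-- `∫ f g (x, y) dy`. -/
def crossInt (f g : C2 → ℝ) (x : R3) : ℝ := ∫ y, f (mk x y) * g (mk x y)

/-- The energy in the slice. -/
def num (Z : Fin M → ℕ) (R : Fin M → R3) (e : ℝ) (f : C2 → ℝ) (G : Fin 2 → Fin 3 → C2 → ℝ)
    (x : R3) : ℝ :=
  (∑ i, ∑ k, (1 / 2 : ℝ) * den (G i k) x) + ∫ y, (pot2 Z R (mk x y) - e) * f (mk x y) ^ 2

/-- The potential of the conditional amplitude. -/
def ampPot (Z : Fin M → ℕ) (R : Fin M → R3) (e : ℝ) (f : C2 → ℝ) (G : Fin 2 → Fin 3 → C2 → ℝ)
    (x : R3) : ℝ :=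
  num Z R e f G x / den f x - ∑ k, (1 / 2 : ℝ) * crossInt f (G 0 k) x ^ 2 / den f x ^ 2

/-- A regular approximant of a controlled solution. -/
structure Regular (R : Fin M → R3) (C : ℝ) (A p : C2 → ℝ) : Prop where
  smooth : ContDiff ℝ 1 p
  memLp : MemLp p 2
  memLpGrad : ∀ i k, MemLp (pd i k p) 2
  crude : ∃ L, 0 ≤ L ∧ ∀ i k X, |pd i k p X| ≤ L * A X
  nonneg : ∀ X, 0 ≤ p X
  upper : ∀ X, p X ≤ C * A X
  lower : ∀ X, A X ≤ C * p X
  grad : ∀ i k, ∀ᵐ X, |pd i k p X| ≤ C * A X * sing R X

variable (hu : IsSol Z R e u) (hA : Controlled R δ C u A) (hC : 0 < C) (hδ : 0 < δ)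
  (hp : Regular R C A p)
include hu hA hC hδ hp

omit hu hA hC hδ in
lemma continuous_p : Continuous p := hp.smooth.continuous

omit hu hA hC hδ in
lemma continuous_pd (i : Fin 2) (k : Fin 3) : Continuous (pd i k p) :=
  (hp.smooth.continuous_fderiv one_ne_zero).clm_apply continuous_const

lemma p_slice_integrable (x : R3) : Integrable fun y => p (mk x y) ^ 2 := by
  refine ((slice_sq_integrable hu hA hC hδ x).const_mul (C ^ 2)).mono'
    (((continuous_p hp).comp (continuous_mk_right x)).pow 2).aestronglyMeasurable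
    (Eventually.of_forall fun y => ?_)
  rw [Real.norm_eq_abs, abs_of_nonneg (sq_nonneg _), ← mul_pow]
  exact pow_le_pow_left₀ (hp.nonneg _) (hp.upper _) 2

lemma den_bounds (x : R3) : den p x ≤ C ^ 2 * slice A x ∧ slice A x ≤ C ^ 2 * den p x := by
  have h1 := p_slice_integrable hu hA hC hδ hp x
  have h2 := slice_sq_integrable hu hA hC hδ x
  constructor
  · rw [den, slice, ← integral_const_mul]
    refine integral_mono h1 (h2.const_mul _) fun y => ?_
    rw [← mul_pow]; exact pow_le_pow_left₀ (hp.nonneg _) (hp.upper _) 2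
  · rw [den, slice, ← integral_const_mul]
    refine integral_mono h2 (h1.const_mul _) fun y => ?_
    rw [← mul_pow]; exact pow_le_pow_left₀ (hA.nonneg _) (hp.lower _) 2

variable (hpos : ∀ X, 0 < A X)
include hpos

lemma den_pos (x : R3) : 0 < den p x := by
  have h1 := slice_pos hu hA hC hδ hpos x
  have h2 := (den_bounds hu hA hC hδ hp x).2
  exact pos_of_mul_pos_right (h1.trans_le h2) (sq_nonneg C)

omit hpos in
lemma den_hasFDerivAt :
    ∃ D : R3 → R3 →L[ℝ] ℝ, (∀ x, HasFDerivAt (den p) (D x) x) ∧ Continuous D ∧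
      ∀ x k, D x (axis k) = 2 * crossInt p (pd 0 k p) x := by
  obtain ⟨L, hL, hLb⟩ := hp.crude
  set F' : R3 → R3 → R3 →L[ℝ] ℝ := fun x y =>
    (2 * p (mk x y)) • (fderiv ℝ p (mk x y)).comp
      (ContinuousLinearMap.single ℝ (fun _ : Fin 2 => R3) 0) with hF'
  have hdiff : ∀ x y, HasFDerivAt (fun z => p (mk z y) ^ 2) (F' x y) x := fun x y => by
    have h := (((hp.smooth.differentiable one_ne_zero) (mk x y)).hasFDerivAt.comp x
      (hasFDerivAt_mk_left x y)).pow 2
    refine h.congr_fderiv ?_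
    simp [hF', two_mul]
  have happ : ∀ x y k, F' x y (axis k) = 2 * (p (mk x y) * pd 0 k p (mk x y)) := fun x y k => by
    simp [hF', pd, dir_eq, mul_assoc]
  have hnorm : ∀ x y, ‖F' x y‖ ≤ 6 * C * L * A (mk x y) ^ 2 := by
    intro x y
    refine ContinuousLinearMap.opNorm_le_bound _ (by positivity) fun v => ?_
    have hv : v = ∑ k, v k • axis k := by
      conv_lhs => rw [← (EuclideanSpace.basisFun (Fin 3) ℝ).sum_repr v]
      simp [axis]
    calc ‖F' x y v‖ = ‖∑ k, v k * F' x y (axis k)‖ := by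
          conv_lhs => rw [hv, map_sum]
          simp [map_smul]
      _ ≤ ∑ k : Fin 3, ‖v‖ * (2 * (C * A (mk x y) * (L * A (mk x y)))) := by
          refine (norm_sum_le _ _).trans (Finset.sum_le_sum fun k _ => ?_)
          rw [norm_mul, happ]
          refine mul_le_mul (PiLp.norm_apply_le v k) ?_ (norm_nonneg _) (norm_nonneg _)
          rw [norm_mul, norm_mul, Real.norm_eq_abs, Real.norm_eq_abs, Real.norm_eq_abs, abs_two,
            abs_of_nonneg (hp.nonneg _)]
          exact mul_le_mul_of_nonneg_left (mul_le_mul (hp.upper _) (hLb 0 k _) (abs_nonneg _)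
            (mul_nonneg hC.le (hA.nonneg _))) (by norm_num)
      _ = _ := by simp [Finset.sum_const]; ring
  have hcont : ∀ y, Continuous fun x => F' x y := fun y => by
    have h1 := (hp.smooth.continuous_fderiv one_ne_zero).comp (continuous_mk_left y)
    exact ((continuous_const.mul ((continuous_p hp).comp (continuous_mk_left y)))).smul
      (h1.clm_comp_const _)
  have hcontr : ∀ x, Continuous fun y => F' x y := fun x => by
    have h1 := (hp.smooth.continuous_fderiv one_ne_zero).comp (continuous_mk_right x)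
    exact ((continuous_const.mul ((continuous_p hp).comp (continuous_mk_right x)))).smul
      (h1.clm_comp_const _)
  set bound : R3 → R3 → ℝ := fun x₀ y => 6 * C * L * (C ^ 2 * A (mk x₀ y) ^ 2) with hbound
  have hbd : ∀ x₀ x y, dist x₀ x ≤ δ → ‖F' x y‖ ≤ bound x₀ y := fun x₀ x y h => by
    refine (hnorm x y).trans (mul_le_mul_of_nonneg_left ?_ (by positivity))
    rw [← mul_pow]
    exact pow_le_pow_left₀ (hA.nonneg _) (hA.step _ _ ((dist_mk_left x₀ x y).trans h)) 2
  have hbi : ∀ x₀, Integrable (bound x₀) := fun x₀ =>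
    ((slice_sq_integrable hu hA hC hδ x₀).const_mul _).const_mul _
  refine ⟨fun x => ∫ y, F' x y, fun x₀ => ?_, ?_, fun x k => ?_⟩
  · refine hasFDerivAt_integral_of_dominated_of_fderiv_le (bound := bound x₀) (ball_mem_nhds x₀ hδ)
      (Eventually.of_forall fun x =>
        (((continuous_p hp).comp (continuous_mk_right x)).pow 2).aestronglyMeasurable)
      (p_slice_integrable hu hA hC hδ hp x₀) (hcontr x₀).aestronglyMeasurable
      (Eventually.of_forall fun y x hx => hbd x₀ x y ?_) (hbi x₀)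
      (Eventually.of_forall fun y x _ => hdiff x y)
    rw [dist_comm]; exact (mem_ball.1 hx).le
  · refine continuous_iff_continuousAt.2 fun x₀ => ?_
    refine continuousAt_of_dominated (bound := bound x₀)
      (Eventually.of_forall fun x => (hcontr x).aestronglyMeasurable) ?_ (hbi x₀)
      (Eventually.of_forall fun y => (hcont y).continuousAt)
    filter_upwards [ball_mem_nhds x₀ hδ] with x hx
    refine Eventually.of_forall fun y => hbd x₀ x y ?_
    rw [dist_comm]; exact (mem_ball.1 hx).le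
  · have hi : Integrable fun y => F' x y :=
      (hbi x).mono' (hcontr x).aestronglyMeasurable
        (Eventually.of_forall fun y => hbd x x y (by rw [dist_self]; exact hδ.le))
    rw [ContinuousLinearMap.integral_apply hi, crossInt, ← integral_const_mul]
    exact integral_congr_ae (Eventually.of_forall fun y => happ x y k)

omit hpos in
lemma contDiff_den : ContDiff ℝ 1 (den p) := by
  obtain ⟨D, hD, hDc, -⟩ := den_hasFDerivAt hu hA hC hδ hp
  rw [contDiff_one_iff_fderiv]
  refine ⟨fun x => (hD x).differentiableAt, ?_⟩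
  rw [show fderiv ℝ (den p) = D from funext fun x => (hD x).fderiv]
  exact hDc

omit hpos in
lemma pd1_den (k : Fin 3) (x : R3) : pd1 k (den p) x = 2 * crossInt p (pd 0 k p) x := by
  obtain ⟨D, hD, -, hDk⟩ := den_hasFDerivAt hu hA hC hδ hp
  rw [pd1, (hD x).fderiv, hDk]

omit hp hpos in
/-- The bounds on the slices of the gradient and of the potential energy. -/
lemma slice_terms :
    ∃ K, 0 < K ∧ ∀ p : C2 → ℝ, Regular R C A p → ∀ᵐ x : R3,
      (∀ i k, (Integrable fun y => pd i k p (mk x y) ^ 2) ∧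
        den (pd i k p) x ≤ K * U R x * slice A x) ∧
      (Integrable fun y => wmaj R (mk x y) * p (mk x y) ^ 2) ∧
      ∫ y, wmaj R (mk x y) * p (mk x y) ^ 2 ≤ K * U R x * slice A x := by
  obtain ⟨K1, hK1, h1⟩ := slice_wmaj_bound hu hA hC hδ
  obtain ⟨K2, hK2, h2⟩ := sing_sq_le (R := R)
  refine ⟨C ^ 2 * K2 * K1 + C ^ 2 * K1, by positivity, fun p hp => ?_⟩
  have hg : ∀ᵐ x : R3, ∀ i k, ∀ᵐ y, |pd i k p (mk x y)| ≤ C * A (mk x y) * sing R (mk x y) := by
    simp only [ae_all_iff]; exact fun i k => ae_mk (hp.grad i k)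
  filter_upwards [hg] with x hx
  obtain ⟨hi, hb⟩ := h1 x
  have hKU : 0 ≤ K1 * U R x * slice A x :=
    mul_nonneg (mul_nonneg hK1.le (zero_le_one.trans (one_le_U x))) (slice_nonneg A x)
  refine ⟨fun i k => ?_, ?_⟩
  · have hle : ∀ᵐ y, pd i k p (mk x y) ^ 2 ≤ C ^ 2 * K2 * (A (mk x y) ^ 2 * wmaj R (mk x y)) := by
      filter_upwards [hx i k] with y hy
      calc pd i k p (mk x y) ^ 2 = |pd i k p (mk x y)| ^ 2 := (sq_abs _).symm
        _ ≤ (C * A (mk x y) * sing R (mk x y)) ^ 2 := pow_le_pow_left₀ (abs_nonneg _) hy 2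
        _ = C ^ 2 * A (mk x y) ^ 2 * sing R (mk x y) ^ 2 := by ring
        _ ≤ C ^ 2 * A (mk x y) ^ 2 * (K2 * wmaj R (mk x y)) :=
            mul_le_mul_of_nonneg_left (h2 _) (by positivity)
        _ = _ := by ring
    have hint : Integrable fun y => pd i k p (mk x y) ^ 2 := by
      refine (hi.const_mul (C ^ 2 * K2)).mono'
        (((continuous_pd hp i k).comp (continuous_mk_right x)).pow 2).aestronglyMeasurable ?_
      filter_upwards [hle] with y hy
      rw [Real.norm_eq_abs, abs_of_nonneg (sq_nonneg _)]; exact hy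
    refine ⟨hint, (integral_mono_ae hint (hi.const_mul _) hle).trans ?_⟩
    rw [integral_const_mul]
    nlinarith [mul_le_mul_of_nonneg_left hb (show 0 ≤ C ^ 2 * K2 by positivity),
      mul_nonneg (sq_nonneg C) hKU]
  · have hle : ∀ y, wmaj R (mk x y) * p (mk x y) ^ 2 ≤
        C ^ 2 * (A (mk x y) ^ 2 * wmaj R (mk x y)) := fun y => by
      rw [← mul_assoc, ← mul_pow, mul_comm (wmaj R _)]
      exact mul_le_mul_of_nonneg_right (pow_le_pow_left₀ (hp.nonneg _) (hp.upper _) 2)
        (wmaj_nonneg _)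
    have hint : Integrable fun y => wmaj R (mk x y) * p (mk x y) ^ 2 := by
      refine (hi.const_mul (C ^ 2)).mono'
        (((measurable_majorant.comp (continuous_mk_right x).measurable)).mul
          (((continuous_p hp).comp (continuous_mk_right x)).measurable.pow_const 2)
          ).aestronglyMeasurable (Eventually.of_forall fun y => ?_)
      rw [Real.norm_eq_abs, abs_of_nonneg (mul_nonneg (wmaj_nonneg _) (sq_nonneg _))]
      exact hle y
    refine ⟨hint, (integral_mono hint (hi.const_mul _) hle).trans ?_⟩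
    rw [integral_const_mul]
    nlinarith [mul_le_mul_of_nonneg_left hb (sq_nonneg C),
      mul_nonneg (mul_nonneg (sq_nonneg C) hK2.le) hKU]

end Vale.Agent.P363.Two
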