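import Vale.Agent.P363.Two.MollLim

/-!
The variational block: a two-electron ground state reduces to one positive minimiser of the form.
-/

noncomputable section

open MeasureTheory Filter Topology Set Real Function
open scoped ENNReal

namespace Vale.Agent.P363.Two

variable {M : ℕ} {Z : Fin M → ℕ} {R : Fin M → R3} {e : ℝ}

/-! ### Weighted integrals -/

lemma pot2_measurable : Measurable (pot2 Z R) :=
  ((Finset.measurable_sum _ fun _j _ =>
      (((measurable_pi_apply 0).sub_const _).norm).const_div _).neg.add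
    (Finset.measurable_sum _ fun _j _ =>
      (((measurable_pi_apply 1).sub_const _).norm).const_div _).neg).add
    ((((measurable_pi_apply 0).sub (measurable_pi_apply 1)).norm).const_div _)

lemma pot2_sub_abs_le (X : C2) :
    |pot2 Z R X - e| ≤ ((∑ j, (Z j : ℝ)) + 1 + |e|) * wmaj R X := by
  have hw := wmaj_one_le R X
  have hz : ∀ j, (Z j : ℝ) ≤ ∑ j, (Z j : ℝ) := fun j =>
    Finset.single_le_sum (f := fun j => (Z j : ℝ)) (fun _ _ => Nat.cast_nonneg _) (Finset.mem_univ j)
  have h0 : 0 ≤ ∑ j, (Z j : ℝ) := Finset.sum_nonneg fun _ _ => Nat.cast_nonneg _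
  have h1 : ∀ i : Fin 2, 0 ≤ ∑ j, (Z j : ℝ) / ‖X i - R j‖ := fun i =>
    Finset.sum_nonneg fun j _ => by positivity
  have h2 : (∑ j, (Z j : ℝ) / ‖X 0 - R j‖) + ∑ j, (Z j : ℝ) / ‖X 1 - R j‖ ≤
      (∑ j, (Z j : ℝ)) * ∑ j, (‖X 0 - R j‖⁻¹ + ‖X 1 - R j‖⁻¹) := by
    rw [← Finset.sum_add_distrib, Finset.mul_sum]
    refine Finset.sum_le_sum fun j _ => ?_
    rw [div_eq_mul_inv, div_eq_mul_inv, ← mul_add]
    exact mul_le_mul_of_nonneg_right (hz j) (by positivity)
  have h3 : 0 ≤ ∑ j, (‖X 0 - R j‖⁻¹ + ‖X 1 - R j‖⁻¹) := Finset.sum_nonneg fun j _ => by positivity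
  have h4 : 0 ≤ ‖X 0 - X 1‖⁻¹ := by positivity
  have h5 := mul_le_mul_of_nonneg_left hw (abs_nonneg e)
  have h6 := mul_nonneg h0 h4
  have ha := le_abs_self e
  have hb := neg_abs_le e
  have := h1 0
  have := h1 1
  rw [abs_le]
  simp only [pot2, wmaj, one_div] at *
  constructor <;> nlinarith

lemma integrable_wmul {w K u v : C2 → ℝ} {C : ℝ} (hK : AEStronglyMeasurable K volume)
    (hKw : ∀ X, |K X| ≤ C * w X) (hu : AEStronglyMeasurable u volume)
    (hv : AEStronglyMeasurable v volume) (iu : Integrable fun X => w X * u X ^ 2)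
    (iv : Integrable fun X => w X * v X ^ 2) :
    Integrable fun X => K X * (u X * v X) := by
  refine ((iu.add iv).const_mul C).mono' (hK.mul (hu.mul hv)) (Eventually.of_forall fun X => ?_)
  simp only [Pi.add_apply, norm_mul, Real.norm_eq_abs]
  have h : |u X| * |v X| ≤ u X ^ 2 + v X ^ 2 := by
    nlinarith [sq_abs (u X), sq_abs (v X), sq_nonneg (|u X| - |v X|), abs_nonneg (u X), abs_nonneg (v X)]
  calc |K X| * (|u X| * |v X|) ≤ |K X| * (u X ^ 2 + v X ^ 2) :=
        mul_le_mul_of_nonneg_left h (abs_nonneg _)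
    _ ≤ C * w X * (u X ^ 2 + v X ^ 2) :=
        mul_le_mul_of_nonneg_right (hKw X) (by positivity)
    _ = C * (w X * u X ^ 2 + w X * v X ^ 2) := by ring

lemma abs_integral_wmul_le {w K u v : C2 → ℝ} {C r : ℝ} (hr : 0 < r)
    (hKw : ∀ X, |K X| ≤ C * w X) (iu : Integrable fun X => w X * u X ^ 2)
    (iv : Integrable fun X => w X * v X ^ 2) :
    |∫ X, K X * (u X * v X)| ≤ C * (r⁻¹ * (∫ X, w X * u X ^ 2) + r * ∫ X, w X * v X ^ 2) := by
  have i : Integrable fun X => C * (r⁻¹ * (w X * u X ^ 2) + r * (w X * v X ^ 2)) :=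
    ((iu.const_mul r⁻¹).add (iv.const_mul r)).const_mul C
  rw [← Real.norm_eq_abs]
  refine (norm_integral_le_of_norm_le i (Eventually.of_forall fun X => ?_)).trans_eq ?_
  · simp only [norm_mul, Real.norm_eq_abs]
    have h : |u X| * |v X| ≤ r⁻¹ * u X ^ 2 + r * v X ^ 2 := by
      rw [← sub_nonneg, show r⁻¹ * u X ^ 2 + r * v X ^ 2 - |u X| * |v X| =
        r⁻¹ * (|u X| - r * |v X|) ^ 2 + |u X| * |v X| by
          rw [← sq_abs (u X), ← sq_abs (v X)]; field_simp; ring]
      positivity
    calc |K X| * (|u X| * |v X|) ≤ |K X| * (r⁻¹ * u X ^ 2 + r * v X ^ 2) :=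
          mul_le_mul_of_nonneg_left h (abs_nonneg _)
      _ ≤ C * w X * (r⁻¹ * u X ^ 2 + r * v X ^ 2) :=
          mul_le_mul_of_nonneg_right (hKw X) (by positivity)
      _ = _ := by ring
  · rw [integral_const_mul, integral_add (iu.const_mul r⁻¹) (iv.const_mul r), integral_const_mul,
      integral_const_mul]

/-- Weighted convergence passes to the linear and to the quadratic integrals. -/
lemma tendsto_wmul {w K v u : C2 → ℝ} {un : ℕ → C2 → ℝ} {C : ℝ} (hw : ∀ X, 0 ≤ w X)
    (hK : AEStronglyMeasurable K volume) (hKw : ∀ X, |K X| ≤ C * w X)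
    (mu : AEStronglyMeasurable u volume) (mn : ∀ n, AEStronglyMeasurable (un n) volume)
    (mv : AEStronglyMeasurable v volume)
    (iu : Integrable fun X => w X * u X ^ 2)
    (iv : Integrable fun X => w X * v X ^ 2) (idiff : ∀ n, Integrable fun X => w X * (un n X - u X) ^ 2)
    (hlim : Tendsto (fun n => ∫ X, w X * (un n X - u X) ^ 2) atTop (𝓝 0)) :
    Tendsto (fun n => ∫ X, K X * (un n X * v X)) atTop (𝓝 (∫ X, K X * (u X * v X))) ∧
      Tendsto (fun n => ∫ X, K X * (un n X * un n X)) atTop (𝓝 (∫ X, K X * (u X * u X))) := by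
  have lin : ∀ {v : C2 → ℝ}, (Integrable fun X => w X * v X ^ 2) →
      Tendsto (fun n => ∫ X, K X * ((un n X - u X) * v X)) atTop (𝓝 0) := by
    intro v iv
    set A := fun n => ∫ X, w X * (un n X - u X) ^ 2
    have hA : ∀ n, 0 ≤ A n := fun n => integral_nonneg fun X => mul_nonneg (hw X) (sq_nonneg _)
    set r := fun n => √(A n) + scale n
    have hr : ∀ n, 0 < r n := fun n => add_pos_of_nonneg_of_pos (sqrt_nonneg _) (scale_pos n)
    have hC : ∀ X, 0 ≤ C * w X := fun X => (abs_nonneg _).trans (hKw X)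
    refine squeeze_zero_norm (a := fun n => |C| * (√(A n) + r n * |∫ X, w X * v X ^ 2|))
      (fun n => (abs_integral_wmul_le (hr n) hKw (idiff n) iv).trans ?_) ?_
    · refine (le_abs_self _).trans ?_
      rw [abs_mul]
      refine mul_le_mul_of_nonneg_left ((abs_add_le _ _).trans (add_le_add ?_ ?_)) (abs_nonneg _)
      · rw [abs_of_nonneg (mul_nonneg (inv_nonneg.2 (hr n).le) (hA n)), inv_mul_le_iff₀ (hr n)]
        calc A n = √(A n) * √(A n) := (mul_self_sqrt (hA n)).symm
          _ ≤ r n * √(A n) :=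
            mul_le_mul_of_nonneg_right (le_add_of_nonneg_right (scale_pos n).le) (sqrt_nonneg _)
      · rw [abs_mul, abs_of_pos (hr n)]
    · have hs : Tendsto (fun n => √(A n)) atTop (𝓝 0) := by simpa using hlim.sqrt
      simpa [r] using ((hs.add ((hs.add tendsto_scale).mul_const _)).const_mul |C|)
  have mdiff : ∀ n, AEStronglyMeasurable (fun X => un n X - u X) volume := fun n => (mn n).sub mu
  constructor
  · have h := (lin iv).add_const (∫ X, K X * (u X * v X))
    rw [zero_add] at h
    refine h.congr fun n => ?_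
    rw [← integral_add (integrable_wmul hK hKw (mdiff n) mv (idiff n) iv)
      (integrable_wmul hK hKw mu mv iu iv)]
    exact integral_congr_ae (Eventually.of_forall fun X => by ring)
  · have hsq : Tendsto (fun n => ∫ X, K X * ((un n X - u X) * (un n X - u X))) atTop (𝓝 0) := by
      refine squeeze_zero_norm (a := fun n => C * (∫ X, w X * (un n X - u X) ^ 2) * 2)
        (fun n => (abs_integral_wmul_le one_pos hKw (idiff n) (idiff n)).trans_eq (by ring)) ?_
      simpa using (hlim.const_mul C).mul_const 2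
    have h := (hsq.add ((lin iu).const_mul 2)).add_const (∫ X, K X * (u X * u X))
    rw [mul_zero, add_zero, zero_add] at h
    refine h.congr fun n => ?_
    have i1 := integrable_wmul hK hKw (mdiff n) (mdiff n) (idiff n) (idiff n)
    have i2 := (integrable_wmul hK hKw (mdiff n) mu (idiff n) iu).const_mul 2
    have i12 : Integrable fun X => K X * ((un n X - u X) * (un n X - u X))
        + 2 * (K X * ((un n X - u X) * u X)) := i1.add i2
    rw [← integral_const_mul, ← integral_add i1 i2,
      ← integral_add i12 (integrable_wmul hK hKw mu mu iu iu)]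
    exact integral_congr_ae (Eventually.of_forall fun X => by ring)

/-! ### The form -/

/-- The symmetric bilinear form of `-(1/2) Δ + W - e`. -/
def bform (Z : Fin M → ℕ) (R : Fin M → R3) (e : ℝ) (f : C2 → ℝ) (H : Fin 2 → Fin 3 → C2 → ℝ)
    (g : C2 → ℝ) (G : Fin 2 → Fin 3 → C2 → ℝ) : ℝ :=
  (∑ i, ∑ k, (1 / 2 : ℝ) * ∫ X, H i k X * G i k X) + ∫ X, (pot2 Z R X - e) * (f X * g X)

/-- The form is nonnegative. -/
def FormNonneg (Z : Fin M → ℕ) (R : Fin M → R3) (e : ℝ) : Prop :=
  ∀ f H, InH1 f H → 0 ≤ qform Z R e f H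

lemma qform_eq_bform (f : C2 → ℝ) (H : Fin 2 → Fin 3 → C2 → ℝ) :
    qform Z R e f H = bform Z R e f H f H := by
  simp only [qform, bform, pow_two]

lemma integrable_form {f g : C2 → ℝ} {H G : Fin 2 → Fin 3 → C2 → ℝ} (hf : InH1 f H)
    (hg : InH1 g G) : Integrable fun X => (pot2 Z R X - e) * (f X * g X) :=
  integrable_wmul (pot2_measurable.sub_const e).aestronglyMeasurable pot2_sub_abs_le
    hf.memLp.aestronglyMeasurable hg.memLp.aestronglyMeasurable (wmaj_bound R hf).1 (wmaj_bound R hg).1

lemma qform_lincomb {f g : C2 → ℝ} {H G : Fin 2 → Fin 3 → C2 → ℝ} (hf : InH1 f H)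
    (hg : InH1 g G) (a b : ℝ) :
    qform Z R e (fun X => a * f X + b * g X) (fun i k X => a * H i k X + b * G i k X) =
      a ^ 2 * qform Z R e f H + 2 * a * b * bform Z R e f H g G + b ^ 2 * qform Z R e g G := by
  have key : ∀ {K u v : C2 → ℝ}, (Integrable fun X => K X * (u X * u X)) →
      (Integrable fun X => K X * (u X * v X)) → (Integrable fun X => K X * (v X * v X)) →
      ∫ X, K X * ((a * u X + b * v X) * (a * u X + b * v X)) =
        a ^ 2 * (∫ X, K X * (u X * u X)) + 2 * a * b * (∫ X, K X * (u X * v X))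
          + b ^ 2 * ∫ X, K X * (v X * v X) := by
    intro K u v i1 i2 i3
    have j : Integrable fun X => a ^ 2 * (K X * (u X * u X)) + 2 * a * b * (K X * (u X * v X)) :=
      (i1.const_mul _).add (i2.const_mul _)
    rw [← integral_const_mul, ← integral_const_mul, ← integral_const_mul,
      ← integral_add (i1.const_mul _) (i2.const_mul _), ← integral_add j (i3.const_mul _)]
    exact integral_congr_ae (Eventually.of_forall fun X => by ring)
  have hgrad : ∀ i k, ∫ X, (a * H i k X + b * G i k X) * (a * H i k X + b * G i k X) =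
      a ^ 2 * (∫ X, H i k X * H i k X) + 2 * a * b * (∫ X, H i k X * G i k X)
        + b ^ 2 * ∫ X, G i k X * G i k X := fun i k => by
    simpa using key (K := fun _ => 1) (u := H i k) (v := G i k)
      (by simpa [Pi.mul_def] using (hf.memLpGrad i k).integrable_mul (hf.memLpGrad i k))
      (by simpa [Pi.mul_def] using (hf.memLpGrad i k).integrable_mul (hg.memLpGrad i k))
      (by simpa [Pi.mul_def] using (hg.memLpGrad i k).integrable_mul (hg.memLpGrad i k))
  simp only [qform_eq_bform, bform]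
  simp only [hgrad]
  rw [key (integrable_form (e := e) (Z := Z) (R := R) hf hf) (integrable_form hf hg) (integrable_form hg hg)]
  simp only [mul_add, Finset.sum_add_distrib, ← Finset.mul_sum]
  ring

lemma bform_sq_le (hpos : FormNonneg Z R e) {f g : C2 → ℝ} {H G : Fin 2 → Fin 3 → C2 → ℝ}
    (hf : InH1 f H) (hg : InH1 g G) :
    bform Z R e f H g G ^ 2 ≤ qform Z R e f H * qform Z R e g G := by
  have h : ∀ s : ℝ, 0 ≤ qform Z R e g G * (s * s) + 2 * bform Z R e f H g G * s + qform Z R e f H :=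
    fun s => (hpos _ _ (hf.lincomb hg 1 s)).trans_eq (by rw [qform_lincomb hf hg]; ring)
  have := discrim_le_zero h
  unfold discrim at this
  linarith

lemma bform_eq_zero (hpos : FormNonneg Z R e) {f g : C2 → ℝ} {H G : Fin 2 → Fin 3 → C2 → ℝ}
    (hf : InH1 f H) (hg : InH1 g G) (h0 : qform Z R e f H = 0) :
    bform Z R e f H g G = 0 := by
  have := bform_sq_le hpos hf hg
  rw [h0, zero_mul] at this
  exact sq_eq_zero_iff.1 (le_antisymm this (sq_nonneg _))

lemma qform_congr {f f' : C2 → ℝ} (h : f =ᵐ[volume] f') (H : Fin 2 → Fin 3 → C2 → ℝ) :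
    qform Z R e f H = qform Z R e f' H := by
  unfold qform
  congr 1
  exact integral_congr_ae (h.mono fun X hX => by simp [hX])

lemma InH1.congr {f f' : C2 → ℝ} {H : Fin 2 → Fin 3 → C2 → ℝ} (hf : InH1 f H)
    (h : f =ᵐ[volume] f') : InH1 f' H where
  memLp := hf.memLp.ae_eq h
  memLpGrad := hf.memLpGrad
  weak i k η hη := by
    refine (integral_congr_ae (h.mono fun X hX => ?_)).trans (hf.weak i k η hη)
    simp [hX]

/-! ### Exchange of the two electrons -/

/-- Exchange of the positions. -/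
def sw : C2 →L[ℝ] C2 :=
  ContinuousLinearMap.pi fun i => ContinuousLinearMap.proj (Equiv.swap 0 1 i)

@[simp] lemma sw_apply (X : C2) (i : Fin 2) : sw X i = X (Equiv.swap 0 1 i) := rfl

lemma sw_sw (X : C2) : sw (sw X) = X := funext fun i => by simp

lemma sw_dir (i : Fin 2) (k : Fin 3) : sw (dir i k) = dir (Equiv.swap 0 1 i) k := by
  funext l
  fin_cases i <;> fin_cases l <;> simp [dir]

lemma sw_eq_piCongrLeft :
    (sw : C2 → C2) = MeasurableEquiv.piCongrLeft (fun _ : Fin 2 => R3) (Equiv.swap (0 : Fin 2) 1) := by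
  funext X l
  rw [MeasurableEquiv.coe_piCongrLeft]
  conv_rhs => rw [← (Equiv.swap (0 : Fin 2) 1).apply_symm_apply l, Equiv.piCongrLeft_apply_apply]
  simp

lemma measurePreserving_sw : MeasurePreserving sw (volume : Measure C2) volume := by
  rw [sw_eq_piCongrLeft]
  exact volume_measurePreserving_piCongrLeft _ _

lemma integral_sw (g : C2 → ℝ) : ∫ X, g (sw X) = ∫ X, g X := by
  have h := measurePreserving_sw
  rw [sw_eq_piCongrLeft] at h ⊢
  exact h.integral_comp' g

lemma pot2_sw (X : C2) : pot2 Z R (sw X) = pot2 Z R X := by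
  simp [pot2, norm_sub_rev (X 1) (X 0)]
  ring

lemma InH1.comp_sw {f : C2 → ℝ} {H : Fin 2 → Fin 3 → C2 → ℝ} (hf : InH1 f H) :
    InH1 (fun X => f (sw X)) fun i k X => H (Equiv.swap 0 1 i) k (sw X) where
  memLp := hf.memLp.comp_measurePreserving measurePreserving_sw
  memLpGrad i k := (hf.memLpGrad _ k).comp_measurePreserving measurePreserving_sw
  weak i k η hη := by
    have hη' : IsTest fun X => η (sw X) :=
      ⟨hη.1.comp sw.contDiff, hη.2.comp_homeomorph
        (ContinuousLinearEquiv.equivOfInverse sw sw sw_sw sw_sw).toHomeomorph⟩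
    have h := hf.weak (Equiv.swap 0 1 i) k _ hη'
    have hd : ∀ X, fderiv ℝ (fun X => η (sw X)) X (dir (Equiv.swap 0 1 i) k) =
        fderiv ℝ η (sw X) (dir i k) := fun X => by
      rw [show (fun X => η (sw X)) = η ∘ sw from rfl,
        ((hη.1.differentiable (by simp) (sw X)).hasFDerivAt.comp X sw.hasFDerivAt).fderiv]
      simp [sw_dir]
    simp only [hd, smul_eq_mul] at h ⊢
    rw [← integral_sw, ← integral_sw (fun X => η X * H (Equiv.swap 0 1 i) k (sw X))]
    simpa [sw_sw] using h

lemma qform_sw (f : C2 → ℝ) (H : Fin 2 → Fin 3 → C2 → ℝ) :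
    qform Z R e (fun X => f (sw X)) (fun i k X => H (Equiv.swap 0 1 i) k (sw X)) =
      qform Z R e f H := by
  unfold qform
  congr 1
  · rw [← Equiv.sum_comp (Equiv.swap (0 : Fin 2) 1)]
    refine Finset.sum_congr rfl fun i _ => Finset.sum_congr rfl fun k _ => ?_
    simp only [Equiv.swap_apply_self]
    rw [integral_sw (fun X => H i k X ^ 2)]
  · rw [← integral_sw (fun X => (pot2 Z R X - e) * f X ^ 2)]
    simp only [pot2_sw]

lemma molecule_eq : (molecule (N := 2) Z R) = pot2 Z R := by
  funext X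
  simp [molecule, pot2, Fin.sum_univ_two, Finset.sum_filter]
  ring

lemma qform_split {f : C2 → ℝ} {H : Fin 2 → Fin 3 → C2 → ℝ} (hf : InH1 f H) :
    qform Z R e f H = (∑ i, ∑ k, (1 / 2 : ℝ) * ∫ X, H i k X ^ 2) + (∫ X, pot2 Z R X * f X ^ 2)
      - e * ∫ X, f X ^ 2 := by
  have i1 : Integrable fun X => pot2 Z R X * f X ^ 2 := by
    simpa [sq, sub_zero] using integrable_form (Z := Z) (R := R) (e := 0) hf hf
  rw [qform, ← integral_const_mul, add_sub_assoc, ← integral_sub i1 (hf.memLp.integrable_sq.const_mul e)]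
  simp only [sub_mul]

/-- A real orbital times a spin factor. -/
lemma qform_nonneg_of_parity
    (hmin : ∀ (Φ : Wave 2) (K : Grad 2), InDomain (molecule Z R) Φ K →
      e * normSq Φ ≤ energy (molecule Z R) Φ K)
    {c : (Fin 2 → Fin 2) → ℝ} {s₀ : Fin 2 → Fin 2} (hc : c s₀ ≠ 0)
    {f : C2 → ℝ} {H : Fin 2 → Fin 3 → C2 → ℝ} (hf : InH1 f H)
    (hanti : ∀ s X, c (fun i => s (Equiv.swap 0 1 i)) * f (sw X) = -(c s * f X)) :
    0 ≤ qform Z R e f H := by
  set Φ : Wave 2 := fun s X => ((c s * f X : ℝ) : ℂ)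
  set K : Grad 2 := fun s i k X => ((c s * H i k X : ℝ) : ℂ)
  have hdom : InDomain (molecule Z R) Φ K := by
    refine ⟨fun τ s => Eventually.of_forall fun X => ?_, fun s => (hf.memLp.const_mul (c s)).ofReal,
      fun s i k => ((hf.memLpGrad i k).const_mul (c s)).ofReal, fun s i k η hη => ?_, fun s => ?_⟩
    · rcases (by decide : ∀ τ : Equiv.Perm (Fin 2), τ = 1 ∨ τ = Equiv.swap 0 1) τ with rfl | rfl
      · simp [Φ]
      · show ((c (fun i => s (Equiv.swap 0 1 i)) * f (sw X) : ℝ) : ℂ) = _
        rw [hanti, Equiv.Perm.sign_swap (by decide)]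
        simp [Φ]
    · have h := hf.weak i k η hη
      simp only [smul_eq_mul] at h
      simp only [Φ, K, Complex.real_smul, ← Complex.ofReal_mul, integral_complex_ofReal,
        ← Complex.ofReal_neg, mul_left_comm _ (c s), integral_const_mul, h,
        mul_neg]
    · have i1 : Integrable fun X => pot2 Z R X * f X ^ 2 := by
        simpa [sq, sub_zero] using integrable_form (Z := Z) (R := R) (e := 0) hf hf
      refine (i1.const_mul (c s ^ 2)).congr (Eventually.of_forall fun X => ?_)
      simp [Φ, molecule_eq, mul_pow]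
      ring
  have h := hmin Φ K hdom
  have hS : 0 < ∑ s, c s ^ 2 :=
    Finset.sum_pos' (fun s _ => sq_nonneg _) ⟨s₀, Finset.mem_univ _, by positivity⟩
  have hn : normSq Φ = (∑ s, c s ^ 2) * ∫ X, f X ^ 2 := by
    simp only [normSq, Φ, Complex.norm_real, norm_eq_abs, sq_abs, mul_pow, integral_const_mul,
      ← Finset.sum_mul]
  have he : energy (molecule Z R) Φ K = (∑ s, c s ^ 2) *
      ((∑ i, ∑ k, (1 / 2 : ℝ) * ∫ X, H i k X ^ 2) + ∫ X, pot2 Z R X * f X ^ 2) := by
    simp only [energy, Φ, K, molecule_eq, Complex.norm_real, norm_eq_abs, sq_abs, mul_pow,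
      mul_left_comm _ (c _ ^ 2), integral_const_mul, ← Finset.mul_sum, ← mul_add, ← Finset.sum_mul]
  rw [hn, he] at h
  rw [qform_split hf]
  nlinarith

lemma formNonneg
    (hmin : ∀ (Φ : Wave 2) (K : Grad 2), InDomain (molecule Z R) Φ K →
      e * normSq Φ ≤ energy (molecule Z R) Φ K) : FormNonneg Z R e := by
  intro f H hf
  have hg := hf.comp_sw
  set g := fun X => f (sw X)
  set K := fun i k X => H (Equiv.swap 0 1 i) k (sw X)
  have hs := qform_nonneg_of_parity hmin (c := fun s => (s 1 : ℝ) - (s 0 : ℝ)) (s₀ := ![0, 1])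
    (by simp) (hf.lincomb hg (1 / 2) (1 / 2)) (fun s X => by
      simp only [g, sw_sw, Equiv.swap_apply_left, Equiv.swap_apply_right]
      ring)
  have ha := qform_nonneg_of_parity hmin (c := fun s => if s 0 = 0 ∧ s 1 = 0 then 1 else 0)
    (s₀ := ![0, 0]) (by simp) (hf.lincomb hg (1 / 2) (-(1 / 2))) (fun s X => by
      simp only [g, sw_sw, Equiv.swap_apply_left, Equiv.swap_apply_right,
        and_comm (a := s 1 = 0)]
      ring)
  rw [qform_lincomb hf hg, qform_sw] at hs ha
  linarith

/-! ### Null vectors of the form are solutions -/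

lemma isTest_pd {η : C2 → ℝ} (hη : IsTest η) (i : Fin 2) (k : Fin 3) : IsTest (pd i k η) :=
  ⟨(hη.1.fderiv_right (m := ((⊤ : ℕ∞) : WithTop ℕ∞)) le_rfl).clm_apply contDiff_const,
    hη.2.fderiv_apply ℝ (dir i k)⟩

lemma continuous_lap {η : C2 → ℝ} (hη : IsTest η) : Continuous (lap η) :=
  continuous_finsetSum _ fun i _ => continuous_finsetSum _ fun k _ =>
    (isTest_pd (isTest_pd hη i k) i k).1.continuous

lemma InH1.of_test {η : C2 → ℝ} (hη : IsTest η) : InH1 η fun i k => pd i k η :=
  InH1.of_contDiff (hη.1.of_le (by exact_mod_cast le_top))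
    (hη.1.continuous.memLp_of_hasCompactSupport hη.2)
    fun i k => (isTest_pd hη i k).1.continuous.memLp_of_hasCompactSupport (isTest_pd hη i k).2

lemma integral_mul_lap {f : C2 → ℝ} {H : Fin 2 → Fin 3 → C2 → ℝ} (hf : InH1 f H) {η : C2 → ℝ}
    (hη : IsTest η) : ∫ X, f X * lap η X = -∑ i, ∑ k, ∫ X, H i k X * pd i k η X := by
  have hi : ∀ i k, Integrable fun X => f X * pd i k (pd i k η) X := fun i k => by
    simpa [mul_comm] using integrable_test_mul (isTest_pd (isTest_pd hη i k) i k).1.continuous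
      (isTest_pd (isTest_pd hη i k) i k).2 (locInt_of_memLp hf.memLp)
  simp only [lap, Finset.mul_sum]
  rw [integral_finsetSum _ fun i _ => integrable_finsetSum _ fun k _ => hi i k,
    ← Finset.sum_neg_distrib]
  refine Finset.sum_congr rfl fun i _ => ?_
  rw [integral_finsetSum _ fun k _ => hi i k, ← Finset.sum_neg_distrib]
  refine Finset.sum_congr rfl fun k _ => ?_
  have h := hf.weak i k _ (isTest_pd hη i k)
  simp only [smul_eq_mul] at h
  rw [integral_congr_ae (Eventually.of_forall fun X => mul_comm (f X) _),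
    integral_congr_ae (Eventually.of_forall fun X => mul_comm (H i k X) _)]
  exact h

lemma isSol_of_null (hpos : FormNonneg Z R e) {f : C2 → ℝ} {H : Fin 2 → Fin 3 → C2 → ℝ}
    (hf : InH1 f H) (h0 : qform Z R e f H = 0) : IsSol Z R e f := by
  refine ⟨hf.memLp, (wmaj_bound R hf).1, fun η hη => ?_⟩
  have hB := bform_eq_zero hpos hf (InH1.of_test hη) h0
  simp only [bform, ← Finset.mul_sum] at hB
  rw [integral_mul_lap hf hη]
  simp only [mul_assoc, integral_const_mul]
  linarith

lemma IsSol.add_mul {f g : C2 → ℝ} (hf : IsSol Z R e f) (hg : IsSol Z R e g) (b : ℝ) :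
    IsSol Z R e fun X => f X + b * g X := by
  refine ⟨hf.memLp.add (hg.memLp.const_mul b), ?_, fun η hη => ?_⟩
  · refine ((hf.weighted.const_mul 2).add (hg.weighted.const_mul (2 * b ^ 2))).mono'
      ((wmaj_measurable R).aestronglyMeasurable.mul
        ((hf.memLp.aestronglyMeasurable.add (hg.memLp.aestronglyMeasurable.const_mul b)).pow 2))
      (Eventually.of_forall fun X => ?_)
    have := zero_le_one.trans (wmaj_one_le R X)
    simp only [Pi.add_apply, norm_mul, norm_pow, norm_eq_abs, sq_abs, abs_of_nonneg this]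
    nlinarith [mul_nonneg this (sq_nonneg (f X - b * g X))]
  · have hl := (continuous_lap hη)
    have hls : HasCompactSupport (lap η) := by
      refine hη.2.mono' fun X hX => ?_
      by_contra hXt
      refine hX (Finset.sum_eq_zero fun i _ => Finset.sum_eq_zero fun k _ => ?_)
      have h1 : X ∉ tsupport (pd i k η) := fun h => hXt (tsupport_fderiv_apply_subset ℝ (dir i k) h)
      have h2 : X ∉ tsupport (pd i k (pd i k η)) := fun h =>
        h1 (tsupport_fderiv_apply_subset ℝ (dir i k) h)
      exact image_eq_zero_of_notMem_tsupport h2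
    have i1 : ∀ {u : C2 → ℝ}, IsSol Z R e u → Integrable fun X => u X * lap η X := fun hu => by
      simpa [mul_comm] using integrable_test_mul hl hls (locInt_of_memLp hu.memLp)
    have i2 : ∀ {u : C2 → ℝ}, IsSol Z R e u →
        Integrable fun X => 2 * (pot2 Z R X - e) * u X * η X := fun {u} hu => by
      have := (integrable_wmul (pot2_measurable.sub_const e).aestronglyMeasurable
        (pot2_sub_abs_le (Z := Z) (R := R) (e := e)) hu.memLp.aestronglyMeasurable
        hη.1.continuous.aestronglyMeasurable hu.weighted (wmaj_bound R (InH1.of_test hη)).1).const_mul 2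
      simpa [mul_assoc] using this
    calc ∫ X, (f X + b * g X) * lap η X
        = (∫ X, f X * lap η X) + b * ∫ X, g X * lap η X := by
          rw [← integral_const_mul, ← integral_add (i1 hf) ((i1 hg).const_mul b)]
          exact integral_congr_ae (Eventually.of_forall fun X => by ring)
      _ = _ := by
          rw [hf.eqn η hη, hg.eqn η hη, ← integral_const_mul,
            ← integral_add (i2 hf) ((i2 hg).const_mul b)]
          exact integral_congr_ae (Eventually.of_forall fun X => by ring)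

/-! ### The absolute value of a null vector is a solution -/

/-- A smooth approximation of the absolute value. -/
def sabs (η x : ℝ) : ℝ := √(x ^ 2 + η ^ 2) - η

lemma sabs_nonneg (η x : ℝ) : 0 ≤ sabs η x :=
  sub_nonneg.2 (le_sqrt_of_sq_le (by nlinarith [sq_nonneg x]))

lemma sabs_le {η : ℝ} (hη : 0 ≤ η) (x : ℝ) : sabs η x ≤ |x| := by
  rw [sabs, sub_le_iff_le_add, sqrt_le_left (by positivity)]
  nlinarith [sq_abs x, abs_nonneg x]

lemma abs_sabs_sub_le {η : ℝ} (hη : 0 ≤ η) (x : ℝ) : |sabs η x - (|x|)| ≤ min η |x| := by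
  rw [abs_le]
  have h1 := sabs_le hη x
  have h2 := sabs_nonneg η x
  have h3 : |x| ≤ √(x ^ 2 + η ^ 2) := abs_le_sqrt (by nlinarith [sq_nonneg η])
  unfold sabs at *
  rcases min_cases η |x| with ⟨hm, -⟩ | ⟨hm, -⟩ <;> rw [hm] <;> constructor <;> linarith

lemma sabs_lipschitz {η : ℝ} (hη : 0 < η) (x y : ℝ) : |sabs η x - sabs η y| ≤ |x - y| := by
  have hx : |x| ≤ √(x ^ 2 + η ^ 2) := abs_le_sqrt (by nlinarith [sq_nonneg η])
  have hy : |y| ≤ √(y ^ 2 + η ^ 2) := abs_le_sqrt (by nlinarith [sq_nonneg η])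
  have hp : 0 < √(x ^ 2 + η ^ 2) + √(y ^ 2 + η ^ 2) := by positivity
  have e1 : (sabs η x - sabs η y) * (√(x ^ 2 + η ^ 2) + √(y ^ 2 + η ^ 2)) = (x - y) * (x + y) := by
    have a := sq_sqrt (show 0 ≤ x ^ 2 + η ^ 2 by positivity)
    have b := sq_sqrt (show 0 ≤ y ^ 2 + η ^ 2 by positivity)
    unfold sabs
    linear_combination a - b
  refine le_of_mul_le_mul_right ?_ hp
  calc |sabs η x - sabs η y| * (√(x ^ 2 + η ^ 2) + √(y ^ 2 + η ^ 2))
      = |(x - y) * (x + y)| := by rw [← e1, abs_mul, abs_of_pos hp]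
    _ ≤ |x - y| * (√(x ^ 2 + η ^ 2) + √(y ^ 2 + η ^ 2)) := by
        rw [abs_mul]
        exact mul_le_mul_of_nonneg_left ((abs_add_le x y).trans (add_le_add hx hy)) (abs_nonneg _)

lemma InH1.sabs {m : C2 → ℝ} (hm : ContDiff ℝ 1 m) (h2 : MemLp m 2)
    (hd : ∀ i k, MemLp (pd i k m) 2) {η : ℝ} (hη : 0 < η) :
    InH1 (fun X => Two.sabs η (m X)) (fun i k => pd i k fun X => Two.sabs η (m X)) ∧
      ∀ i k, ∫ X, pd i k (fun X => Two.sabs η (m X)) X ^ 2 ≤ ∫ X, pd i k m X ^ 2 := by
  have hne : ∀ X, m X ^ 2 + η ^ 2 ≠ 0 := fun X => by positivity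
  have hh : ContDiff ℝ 1 fun X => Two.sabs η (m X) :=
    (((hm.pow 2).add contDiff_const).sqrt hne).sub contDiff_const
  have hle : ∀ i k X, |pd i k (fun X => Two.sabs η (m X)) X| ≤ |pd i k m X| := fun i k X => by
    have h1 : HasDerivAt (fun x => Two.sabs η x) (m X / √(m X ^ 2 + η ^ 2)) (m X) := by
      have := (((hasDerivAt_pow 2 (m X)).add_const (η ^ 2)).sqrt (hne X)).sub_const η
      refine this.congr_deriv ?_
      push_cast
      ring
    rw [pd, show (fun X => Two.sabs η (m X)) = (fun x => Two.sabs η x) ∘ m from rfl,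
      (h1.comp_hasFDerivAt X (hm.differentiable one_ne_zero X).hasFDerivAt).fderiv]
    simp only [FunLike.coe_smul, Pi.smul_apply, smul_eq_mul, abs_mul, abs_div,
      abs_of_nonneg (sqrt_nonneg _)]
    exact mul_le_of_le_one_left (abs_nonneg _)
      (div_le_one_of_le₀ (abs_le_sqrt (by nlinarith [sq_nonneg η])) (sqrt_nonneg _))
  have hd' : ∀ i k, MemLp (pd i k fun X => Two.sabs η (m X)) 2 := fun i k =>
    (hd i k).mono ((hh.continuous_fderiv one_ne_zero).clm_apply continuous_const).aestronglyMeasurable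
      (Eventually.of_forall fun X => by simpa using hle i k X)
  refine ⟨InH1.of_contDiff hh (h2.mono hh.continuous.aestronglyMeasurable
    (Eventually.of_forall fun X => by
      simpa [abs_of_nonneg (sabs_nonneg η (m X))] using sabs_le hη.le (m X))) hd', fun i k => ?_⟩
  exact integral_mono (hd' i k).integrable_sq (hd i k).integrable_sq
    fun X => sq_le_sq.2 (hle i k X)

lemma isSol_abs (hpos : FormNonneg Z R e) {g : C2 → ℝ} {H : Fin 2 → Fin 3 → C2 → ℝ}
    (hg : InH1 g H) (h0 : qform Z R e g H = 0) : IsSol Z R e fun X => |g X| := by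
  obtain ⟨wlim, glim⟩ := mollLimPin M R g H hg.memLp hg.memLpGrad hg.weak
  set m := fun n => moll (scale n) g
  have hm : ∀ n, InH1 (m n) fun i k => moll (scale n) (H i k) := fun n => hg.moll (scale_pos n)
  have hmd : ∀ n i k, pd i k (m n) = moll (scale n) (H i k) := fun n i k => funext fun X =>
    pd_moll_eq (scale_pos n) (locInt_of_memLp hg.memLp) (hg.weak i k) X
  set h := fun n X => sabs (scale n) (m n X)
  have hsb := fun n => InH1.sabs (contDiff_moll (scale_pos n) (locInt_of_memLp hg.memLp) (n := 1))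
    (hm n).memLp (fun i k => by rw [show pd i k (moll (scale n) g) = _ from hmd n i k]
                                exact (hm n).memLpGrad i k) (scale_pos n)
  have hh : ∀ n, InH1 (h n) fun i k => pd i k (h n) := fun n => (hsb n).1
  have hwn : ∀ X, 0 ≤ wmaj R X := fun X => zero_le_one.trans (wmaj_one_le R X)
  have mw : AEStronglyMeasurable (wmaj R) volume := (wmaj_measurable R).aestronglyMeasurable
  have mg := hg.memLp.aestronglyMeasurable
  have mh : ∀ n, AEStronglyMeasurable (h n) volume := fun n => (hh n).memLp.aestronglyMeasurable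
  have mabs : AEStronglyMeasurable (fun X => |g X|) volume := by simpa using mg.norm
  have iabs : Integrable fun X => wmaj R X * |g X| ^ 2 := by simpa using (wmaj_bound R hg).1
  have imd : ∀ n, Integrable fun X => wmaj R X * (m n X - g X) ^ 2 := fun n => by
    simpa [sub_eq_add_neg] using (wmaj_bound R ((hm n).lincomb hg 1 (-1))).1
  have imin : ∀ n, Integrable fun X => wmaj R X * min (scale n) |g X| ^ 2 := fun n =>
    (wmaj_bound R hg).1.mono' (mw.mul ((aestronglyMeasurable_const.inf mabs).pow 2))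
      (Eventually.of_forall fun X => by
        rw [norm_mul, norm_eq_abs, abs_of_nonneg (hwn X), norm_of_nonneg (sq_nonneg _),
          ← sq_abs (g X)]
        exact mul_le_mul_of_nonneg_left
          (pow_le_pow_left₀ (le_min (scale_pos n).le (abs_nonneg _)) (min_le_right _ _) 2) (hwn X))
  have hpt : ∀ n X, wmaj R X * (h n X - |g X|) ^ 2 ≤
      2 * (wmaj R X * (m n X - g X) ^ 2) + 2 * (wmaj R X * min (scale n) |g X| ^ 2) := fun n X => by
    have a := abs_sub_le (h n X) (sabs (scale n) (g X)) |g X|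
    have b := sabs_lipschitz (scale_pos n) (m n X) (g X)
    have c := abs_sabs_sub_le (scale_pos n).le (g X)
    have d : (h n X - |g X|) ^ 2 ≤ 2 * (m n X - g X) ^ 2 + 2 * min (scale n) |g X| ^ 2 := by
      rw [← sq_abs (h n X - |g X|), ← sq_abs (m n X - g X)]
      nlinarith [abs_nonneg (h n X - |g X|), sq_nonneg (|m n X - g X| - min (scale n) |g X|)]
    nlinarith [mul_le_mul_of_nonneg_left d (hwn X)]
  have ibound : ∀ n, Integrable fun X =>
      2 * (wmaj R X * (m n X - g X) ^ 2) + 2 * (wmaj R X * min (scale n) |g X| ^ 2) := fun n =>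
    ((imd n).const_mul 2).add ((imin n).const_mul 2)
  have idiff : ∀ n, Integrable fun X => wmaj R X * (h n X - |g X|) ^ 2 := fun n =>
    (ibound n).mono' (mw.mul (((mh n).sub mabs).pow 2)) (Eventually.of_forall fun X => by
      rw [norm_of_nonneg (mul_nonneg (hwn X) (sq_nonneg _))]
      exact hpt n X)
  have tmin : Tendsto (fun n => ∫ X, wmaj R X * min (scale n) |g X| ^ 2) atTop (𝓝 0) := by
    rw [← integral_zero C2 ℝ (μ := volume)]
    refine tendsto_integral_of_dominated_convergence (fun X => wmaj R X * g X ^ 2)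
      (fun n => (imin n).aestronglyMeasurable) (wmaj_bound R hg).1
      (fun n => Eventually.of_forall fun X => ?_) (Eventually.of_forall fun X => ?_)
    · rw [norm_of_nonneg (mul_nonneg (hwn X) (sq_nonneg _)), ← sq_abs (g X)]
      exact mul_le_mul_of_nonneg_left
        (pow_le_pow_left₀ (le_min (scale_pos n).le (abs_nonneg _)) (min_le_right _ _) 2) (hwn X)
    · have := ((tendsto_scale.min (tendsto_const_nhds (x := |g X|))).pow 2).const_mul (wmaj R X)
      simpa using this
  have hlim : Tendsto (fun n => ∫ X, wmaj R X * (h n X - |g X|) ^ 2) atTop (𝓝 0) := by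
    refine squeeze_zero (fun n => integral_nonneg fun X => mul_nonneg (hwn X) (sq_nonneg _))
      (fun n => (integral_mono (idiff n) (ibound n) (hpt n)).trans_eq
        (by rw [integral_add ((imd n).const_mul 2) ((imin n).const_mul 2), integral_const_mul,
          integral_const_mul])) ?_
    simpa using (wlim.const_mul 2).add (tmin.const_mul 2)
  have mK := (pot2_measurable (Z := Z) (R := R)).sub_const e |>.aestronglyMeasurable (μ := volume)
  have hq : Tendsto (fun n => qform Z R e (h n) fun i k => pd i k (h n)) atTop (𝓝 0) := by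
    have A := (tendsto_wmul hwn mK pot2_sub_abs_le mabs mh mabs iabs
      iabs idiff hlim).2
    have B : Tendsto (fun n => ∑ i, ∑ k, (1 / 2 : ℝ) * ∫ X, moll (scale n) (H i k) X ^ 2) atTop
        (𝓝 (∑ i, ∑ k, (1 / 2 : ℝ) * ∫ X, H i k X ^ 2)) := by
      refine tendsto_finsetSum _ fun i _ => tendsto_finsetSum _ fun k _ => Tendsto.const_mul _ ?_
      have hs := fun n => ((hm n).memLpGrad i k)
      have := (tendsto_wmul (w := fun _ => 1) (K := fun _ => 1) (C := 1) (v := H i k)
        (fun _ => zero_le_one) aestronglyMeasurable_const (fun _ => by simp)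
        (hg.memLpGrad i k).aestronglyMeasurable (fun n => (hs n).aestronglyMeasurable)
        (hg.memLpGrad i k).aestronglyMeasurable
        (by simpa using (hg.memLpGrad i k).integrable_sq)
        (by simpa using (hg.memLpGrad i k).integrable_sq)
        (fun n => by simpa using ((hs n).sub (hg.memLpGrad i k)).integrable_sq)
        (by simpa using glim i k)).2
      simpa [sq] using this
    have up := B.add A
    have e0 : (∑ i, ∑ k, (1 / 2 : ℝ) * ∫ X, H i k X ^ 2)
        + (∫ X, (pot2 Z R X - e) * (|g X| * |g X|)) = 0 := by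
      rw [← h0, qform]
      congr 1
      exact integral_congr_ae (Eventually.of_forall fun X => by
        simp [abs_mul_abs_self, sq])
    rw [e0] at up
    refine squeeze_zero (fun n => hpos _ _ (hh n)) (fun n => ?_) up
    simp only [qform, sq (h n _)]
    refine add_le_add (Finset.sum_le_sum fun i _ => Finset.sum_le_sum fun k _ => ?_) le_rfl
    refine mul_le_mul_of_nonneg_left ?_ (by norm_num)
    rw [← hmd n i k]
    exact (hsb n).2 i k
  have habs2 : MemLp (fun X => |g X|) 2 := by simpa using hg.memLp.norm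
  refine ⟨habs2, iabs, fun η hη => ?_⟩
  have hη1 := InH1.of_test hη
  have hB : Tendsto (fun n => bform Z R e (h n) (fun i k => pd i k (h n)) η fun i k => pd i k η)
      atTop (𝓝 0) := by
    refine squeeze_zero_norm (fun n => abs_le_sqrt (bform_sq_le hpos (hh n) hη1)) ?_
    simpa using (hq.mul_const (qform Z R e η fun i k => pd i k η)).sqrt
  have hL : Tendsto (fun n => ∫ X, (1 : ℝ) * (h n X * lap η X)) atTop
      (𝓝 (∫ X, (1 : ℝ) * (|g X| * lap η X))) := by
    have hl2 : Integrable fun X => wmaj R X * lap η X ^ 2 := by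
      have hs : InH1 (lap η) fun i k => pd i k (lap η) := by
        refine InH1.of_test ⟨?_, ?_⟩
        · exact ContDiff.sum fun i _ => ContDiff.sum fun k _ => (isTest_pd (isTest_pd hη i k) i k).1
        · refine hη.2.mono' fun X hX => ?_
          by_contra hXt
          refine hX (Finset.sum_eq_zero fun i _ => Finset.sum_eq_zero fun k _ => ?_)
          exact image_eq_zero_of_notMem_tsupport fun h2 => hXt
            (tsupport_fderiv_apply_subset ℝ (dir i k) (tsupport_fderiv_apply_subset ℝ (dir i k) h2))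
      exact (wmaj_bound R hs).1
    exact (tendsto_wmul hwn aestronglyMeasurable_const (C := 1)
      (fun X => by simpa using wmaj_one_le R X) mabs mh (continuous_lap hη).aestronglyMeasurable iabs
      hl2 idiff hlim).1
  have hW := (tendsto_wmul hwn mK pot2_sub_abs_le mabs mh hη.1.continuous.aestronglyMeasurable iabs
    (wmaj_bound R hη1).1 idiff hlim).1
  have hlim' := tendsto_nhds_unique hB ((((hL.const_mul (-(1 / 2 : ℝ))).add hW)).congr fun n => by
    simp only [bform, ← Finset.mul_sum, one_mul, integral_mul_lap (hh n) hη]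
    ring)
  simp only [one_mul] at hlim'
  simp only [mul_assoc, integral_const_mul] at hlim' ⊢
  linarith

/-! ### Signs and the reduction -/

lemma sign_or_zero (hH : HarnackPin) (hpos : FormNonneg Z R e) {g : C2 → ℝ}
    {H : Fin 2 → Fin 3 → C2 → ℝ} (hg : InH1 g H) (h0 : qform Z R e g H = 0) :
    (g =ᵐ[volume] 0) ∨ (∀ᵐ X, 0 < g X) ∨ ∀ᵐ X, g X < 0 := by
  obtain ⟨δ, C, -, -, hC, hctl⟩ := hH M Z R e
  have key : ∀ b : ℝ, b ^ 2 = 1 →
      (∀ᵐ X, |g X| + b * g X ≤ 0) ∨ ∀ᵐ X, 0 < |g X| + b * g X := by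
    intro b hb
    have hb1 : |b| = 1 := by nlinarith [sq_abs b, abs_nonneg b]
    have hnn : ∀ X, 0 ≤ |g X| + b * g X := fun X => by
      have : |b * g X| = |g X| := by rw [abs_mul, hb1, one_mul]
      linarith [neg_abs_le (b * g X)]
    obtain ⟨A, hA⟩ := hctl _ ((isSol_abs hpos hg h0).add_mul (isSol_of_null hpos hg h0) b) hnn
    rcases hA.dichotomy with hz | hp
    · exact Or.inl (hA.upper.mono fun X hX => by simpa [hz X] using hX)
    · refine Or.inr (hA.lower.mono fun X hX => ?_)
      nlinarith [hp X]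
  rcases key 1 (one_pow 2) with a | a <;> rcases key (-1) (by norm_num) with b | b
  · refine Or.inl ?_
    filter_upwards [a, b] with X ha hb
    show g X = 0
    linarith [abs_nonneg (g X), le_abs_self (g X), neg_abs_le (g X)]
  · refine Or.inr (Or.inr ?_)
    filter_upwards [b] with X hb
    by_contra hc
    rw [abs_of_nonneg (not_lt.1 hc)] at hb
    linarith
  all_goals
    refine Or.inr (Or.inl ?_)
    filter_upwards [a] with X ha
    by_contra hc
    rw [abs_of_nonpos (not_lt.1 hc)] at ha
    linarith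

lemma complex_parts {N : ℕ} {V : Cfg N → ℝ} {Ψ : Wave N} {G : Grad N} (hΨ : InDomain V Ψ G)
    (L : ℂ →L[ℝ] ℝ) (s : Fin N → Fin 2) :
    MemLp (fun X => L (Ψ s X)) 2 ∧ (∀ i k, MemLp (fun X => L (G s i k X)) 2) ∧
      ∀ i k, WeakDeriv (dir i k) (fun X => L (Ψ s X)) fun X => L (G s i k X) := by
  refine ⟨L.comp_memLp' (hΨ.memLp s), fun i k => L.comp_memLp' (hΨ.memLpGrad s i k),
    fun i k η hη => ?_⟩
  have hη1 : ContDiff ℝ 1 η := hη.1.of_le (by exact_mod_cast le_top)
  have hi1 : Integrable fun X => fderiv ℝ η X (dir i k) • Ψ s X :=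
    ((hΨ.memLp s).locallyIntegrable (by norm_num)).integrable_smul_left_of_hasCompactSupport
      ((hη1.continuous_fderiv one_ne_zero).clm_apply continuous_const) (hη.2.fderiv_apply ℝ (dir i k))
  have hi2 : Integrable fun X => η X • G s i k X :=
    ((hΨ.memLpGrad s i k).locallyIntegrable (by norm_num)).integrable_smul_left_of_hasCompactSupport
      hη1.continuous hη.2
  simp only [← map_smul]
  rw [L.integral_comp_comm hi1, L.integral_comp_comm hi2, hΨ.weak s i k η hη, map_neg]

theorem formPin : FormPin := by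
  rintro hH M Z R Ψ ⟨G, hΨ, hn, hmin⟩
  set e := energy (molecule Z R) Ψ G with he
  have hpos := formNonneg hmin
  let fr := fun s X => Complex.re (Ψ s X)
  let Hr := fun s i k X => Complex.re (G s i k X)
  let fi := fun s X => Complex.im (Ψ s X)
  let Hi := fun s i k X => Complex.im (G s i k X)
  have hr : ∀ s, InH1 (fr s) (Hr s) := fun s =>
    ⟨(complex_parts hΨ Complex.reCLM s).1, (complex_parts hΨ Complex.reCLM s).2.1,
      (complex_parts hΨ Complex.reCLM s).2.2⟩
  have hi : ∀ s, InH1 (fi s) (Hi s) := fun s =>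
    ⟨(complex_parts hΨ Complex.imCLM s).1, (complex_parts hΨ Complex.imCLM s).2.1,
      (complex_parts hΨ Complex.imCLM s).2.2⟩
  have e2 : ∀ z : ℂ, ‖z‖ ^ 2 = z.re ^ 2 + z.im ^ 2 := fun z => by
    rw [Complex.sq_norm, Complex.normSq_apply]; ring
  have iW : ∀ {f H}, InH1 f H → Integrable fun X => pot2 Z R X * f X ^ 2 := fun hf => by
    simpa [sq, sub_zero] using integrable_form (Z := Z) (R := R) (e := 0) hf hf
  have hsum : ∑ s, (qform Z R e (fr s) (Hr s) + qform Z R e (fi s) (Hi s)) = 0 := by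
    have a : ∀ s, qform Z R e (fr s) (Hr s) + qform Z R e (fi s) (Hi s) =
        (((∑ i, ∑ k, (1 / 2 : ℝ) * ∫ X, ‖G s i k X‖ ^ 2) + ∫ X, molecule Z R X * ‖Ψ s X‖ ^ 2))
          - e * ∫ X, ‖Ψ s X‖ ^ 2 := fun s => by
      simp only [qform_split (hr s), qform_split (hi s), molecule_eq, e2, mul_add]
      rw [integral_add (iW (hr s)) (iW (hi s)),
        integral_add (hr s).memLp.integrable_sq (hi s).memLp.integrable_sq]
      simp only [integral_add ((hr s).memLpGrad _ _).integrable_sq ((hi s).memLpGrad _ _).integrable_sq,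
        mul_add, Finset.sum_add_distrib, Hr, Hi, fr, fi]
      ring
    rw [Finset.sum_congr rfl fun s _ => a s, Finset.sum_sub_distrib, ← Finset.mul_sum]
    show e - e * normSq Ψ = 0
    rw [hn]; ring
  have hzero := fun s => (Finset.sum_eq_zero_iff_of_nonneg
    fun s _ => add_nonneg (hpos _ _ (hr s)) (hpos _ _ (hi s))).1 hsum s (Finset.mem_univ s)
  have zr : ∀ s, qform Z R e (fr s) (Hr s) = 0 := fun s => by
    linarith [hzero s, hpos _ _ (hr s), hpos _ _ (hi s)]
  have zi : ∀ s, qform Z R e (fi s) (Hi s) = 0 := fun s => by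
    linarith [hzero s, hpos _ _ (hr s), hpos _ _ (hi s)]
  obtain ⟨g, K, hg, hgz, hgne⟩ : ∃ g K, InH1 g K ∧ qform Z R e g K = 0 ∧ ¬g =ᵐ[volume] 0 := by
    by_contra hno
    push Not at hno
    have hz : ∀ s, ∫ X, ‖Ψ s X‖ ^ 2 = 0 := fun s => integral_eq_zero_of_ae (by
      filter_upwards [hno _ _ (hr s) (zr s), hno _ _ (hi s) (zi s)] with X ha hb
      have ha' : (Ψ s X).re = 0 := ha
      have hb' : (Ψ s X).im = 0 := hb
      simp [e2, ha', hb'])
    simp [normSq, hz] at hn
  obtain ⟨b, hb⟩ : ∃ b : ℝ, ∀ᵐ X, 0 < b * g X := by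
    rcases sign_or_zero hH hpos hg hgz with h | h | h
    · exact absurd h hgne
    · exact ⟨1, h.mono fun X hX => by linarith⟩
    · exact ⟨-1, h.mono fun X hX => by linarith⟩
  have hT : 0 < ∫ X, g X ^ 2 := by
    refine lt_of_le_of_ne (integral_nonneg fun _ => sq_nonneg _) fun h => hgne ?_
    exact ((integral_eq_zero_iff_of_nonneg (fun _ => sq_nonneg _) hg.memLp.integrable_sq).1 h.symm).mono
      fun X hX => by simpa using hX
  set a := b / (|b| * √(∫ X, g X ^ 2)) with ha
  have hb0 : b ≠ 0 := fun h => by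
    obtain ⟨X, hX⟩ := hb.exists
    simp [h] at hX
  have hapos : ∀ᵐ X, 0 < a * g X := hb.mono fun X hX => by
    rw [ha, div_mul_eq_mul_div]
    exact div_pos hX (mul_pos (abs_pos.2 hb0) (sqrt_pos.2 hT))
  let ψ : C2 → ℝ := fun X => |a * g X|
  have hψe : (fun X => a * g X + 0 * g X) =ᵐ[volume] ψ := hapos.mono fun X hX => by
    show a * g X + 0 * g X = |a * g X|
    rw [abs_of_pos hX]; ring
  set H := fun i k X => a * K i k X + 0 * K i k X
  have hψ : InH1 ψ H := (hg.lincomb hg a 0).congr hψe
  have hψz : qform Z R e ψ H = 0 := by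
    rw [← qform_congr hψe, qform_lincomb hg hg, hgz]; ring
  have hψpos : ∀ᵐ X, 0 < ψ X := hapos.mono fun X hX => abs_pos.2 hX.ne'
  have hone : ∫ X, ψ X ^ 2 = 1 := by
    simp only [ψ, sq_abs, mul_pow, integral_const_mul]
    rw [ha, div_pow, mul_pow, sq_abs, sq_sqrt hT.le]
    field_simp
  have hcomp : ∀ {f F}, InH1 f F → qform Z R e f F = 0 →
      ∃ c : ℝ, ∀ᵐ X, f X = c * ψ X := by
    intro f F hf hz
    have ifψ : Integrable fun X => f X * ψ X := hf.memLp.integrable_mul hψ.memLp
    refine ⟨∫ X, f X * ψ X, ?_⟩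
    set c := ∫ X, f X * ψ X with hc
    have hd := hf.lincomb hψ 1 (-c)
    have hdz : qform Z R e (fun X => 1 * f X + -c * ψ X) (fun i k X => 1 * F i k X + -c * H i k X)
        = 0 := by
      rw [qform_lincomb hf hψ, hz, hψz, bform_eq_zero hpos hf hψ hz]; ring
    have horth : ∫ X, (1 * f X + -c * ψ X) * ψ X = 0 := by
      have : ∫ X, (1 * f X + -c * ψ X) * ψ X = (∫ X, f X * ψ X) - c * ∫ X, ψ X ^ 2 := by
        rw [← integral_const_mul, ← integral_sub ifψ (hψ.memLp.integrable_sq.const_mul c)]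
        exact integral_congr_ae (Eventually.of_forall fun X => by ring)
      rw [this, hone, ← hc]; ring
    have idψ : Integrable fun X => (1 * f X + -c * ψ X) * ψ X := hd.memLp.integrable_mul hψ.memLp
    have hd0 : ∀ᵐ X, 1 * f X + -c * ψ X = 0 := by
      rcases sign_or_zero hH hpos hd hdz with h | h | h
      · exact h
      · have hp := h.and hψpos
        have := (integral_eq_zero_iff_of_nonneg_ae (hp.mono fun X hX => (mul_pos hX.1 hX.2).le) idψ).1 horth
        filter_upwards [this, hψpos] with X h1 h2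
        exact (mul_eq_zero.1 h1).resolve_right h2.ne'
      · have hp := h.and hψpos
        have hneg : ∫ X, -((1 * f X + -c * ψ X) * ψ X) = 0 := by rw [integral_neg, horth, neg_zero]
        have := (integral_eq_zero_iff_of_nonneg_ae
          (hp.mono fun X hX => (neg_pos.2 (mul_neg_of_neg_of_pos hX.1 hX.2)).le) idψ.neg).1 hneg
        filter_upwards [this, hψpos] with X h1 h2
        exact (mul_eq_zero.1 (neg_eq_zero.1 h1)).resolve_right h2.ne'
    exact hd0.mono fun X hX => by linarith
  refine ⟨e, ψ, H, isSol_of_null hpos hψ hψz, fun X => abs_nonneg _, hone, hψ.memLpGrad, hψ.weak,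
    hψz, fun h hh h2 hd => hpos _ _ (InH1.of_contDiff hh h2 hd), fun s => ?_⟩
  obtain ⟨cr, hcr⟩ := hcomp (hr s) (zr s)
  obtain ⟨ci, hci⟩ := hcomp (hi s) (zi s)
  refine ⟨⟨cr, ci⟩, ?_⟩
  filter_upwards [hcr, hci] with X h1 h2
  have h1' : (Ψ s X).re = cr * ψ X := h1
  have h2' : (Ψ s X).im = ci * ψ X := h2
  apply Complex.ext <;> simp [h1', h2']

end Vale.Agent.P363.Two
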