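import Vale.Agent.P363.Two.Defs

/-!
The interfaces between the blocks of the two-electron proof, as propositions.
-/

noncomputable section

open MeasureTheory Filter Topology
open scoped ENNReal

namespace Vale.Agent.P363.Two

/-- Harnack control of nonnegative solutions, with a gradient bound for their mollifications. -/
def HarnackPin : Prop :=
  ∀ (M : ℕ) (Z : Fin M → ℕ) (R : Fin M → R3) (e : ℝ), ∃ δ C : ℝ, 0 < δ ∧ δ ≤ 1 ∧ 0 < C ∧
    ∀ u : C2 → ℝ, IsSol Z R e u → (∀ X, 0 ≤ u X) → ∃ A, Controlled R δ C u A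

/-- The scale used for mollifying. -/
def scale (n : ℕ) : ℝ := 1 / (n + 1 : ℝ)

/-- Mollification of a function with weak gradient in `L²`. -/
def MollPin : Prop :=
  ∀ (M : ℕ) (R : Fin M → R3) (f : C2 → ℝ) (H : Fin 2 → Fin 3 → C2 → ℝ),
    MemLp f 2 → (∀ i k, MemLp (H i k) 2) → (∀ i k, WeakDeriv (dir i k) f (H i k)) →
    (Integrable fun X => wmaj R X * f X ^ 2) ∧
    ∀ n : ℕ, ContDiff ℝ (⊤ : ℕ∞) (moll (scale n) f) ∧ MemLp (moll (scale n) f) 2 ∧
      (∀ i k, MemLp (pd i k (moll (scale n) f)) 2 ∧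
        ∀ X, pd i k (moll (scale n) f) X = moll (scale n) (H i k) X) ∧
      (Integrable fun X => wmaj R X * moll (scale n) f X ^ 2)

/-- Convergence of these mollifications. -/
def MollLimPin : Prop :=
  ∀ (M : ℕ) (R : Fin M → R3) (f : C2 → ℝ) (H : Fin 2 → Fin 3 → C2 → ℝ),
    MemLp f 2 → (∀ i k, MemLp (H i k) 2) → (∀ i k, WeakDeriv (dir i k) f (H i k)) →
    Tendsto (fun n => ∫ X, wmaj R X * (moll (scale n) f X - f X) ^ 2) atTop (𝓝 0) ∧
    ∀ i k, Tendsto (fun n => ∫ X, (moll (scale n) (H i k) X - H i k X) ^ 2) atTop (𝓝 0)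

/-- Hardy's inequality for one particle. -/
def HardyPin : Prop :=
  ∀ (f : R3 → ℝ) (a : R3), ContDiff ℝ 1 f → MemLp f 2 →
    (∀ k : Fin 3, MemLp (fun x => fderiv ℝ f x (EuclideanSpace.single k 1)) 2) →
    (Integrable fun x => f x ^ 2 / ‖x - a‖) ∧
    ∫ x, f x ^ 2 / ‖x - a‖ ≤
      (∫ x, f x ^ 2) + ∑ k : Fin 3, ∫ x, fderiv ℝ f x (EuclideanSpace.single k 1) ^ 2

/-- Reduction of a two-electron ground state to one positive minimiser. -/
def FormPin : Prop :=
  HarnackPin → ∀ (M : ℕ) (Z : Fin M → ℕ) (R : Fin M → R3) (Ψ : Wave 2),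
    IsGroundState (molecule Z R) Ψ → ∃ e ψ H, Reduced Z R Ψ e ψ H

end Vale.Agent.P363.Two
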