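import Vale.Agent.P363.Two.Fibre

/-!
The one-body form as the two-body form of a product `g(x) p(x, y)`.
-/

noncomputable section

open MeasureTheory Set Filter Topology
open scoped ENNReal

namespace Vale.Agent.P363.Two

/-- The one-body form at a smooth function. -/
def qone (v : R3 → ℝ) (w : R3 → ℝ) : ℝ :=
  ∫ x, ((∑ k, (1 / 2 : ℝ) * pd1 k w x ^ 2) + v x * w x ^ 2)

variable {M : ℕ} {Z : Fin M → ℕ} {R : Fin M → R3} {e δ C : ℝ} {u A p : C2 → ℝ}

lemma slice_quad {p q : C2 → ℝ} {x : R3} (hp : Integrable fun y => p (mk x y) ^ 2)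
    (hq : Integrable fun y => q (mk x y) ^ 2)
    (hm : AEStronglyMeasurable fun y => p (mk x y) * q (mk x y)) (c₁ c₂ : ℝ) :
    (Integrable fun y => (c₁ * p (mk x y) + c₂ * q (mk x y)) ^ 2) ∧
      ∫ y, (c₁ * p (mk x y) + c₂ * q (mk x y)) ^ 2 =
        c₁ ^ 2 * den p x + 2 * c₁ * c₂ * crossInt p q x + c₂ ^ 2 * den q x := by
  have hpq : Integrable fun y => p (mk x y) * q (mk x y) := by
    refine (hp.add hq).mono' hm (Eventually.of_forall fun y => ?_)
    rw [Real.norm_eq_abs, abs_le]
    simp only [Pi.add_apply]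
    constructor <;> nlinarith [sq_nonneg (p (mk x y) + q (mk x y)),
      sq_nonneg (p (mk x y) - q (mk x y)), sq_nonneg (p (mk x y)), sq_nonneg (q (mk x y))]
  have e1 : (fun y => (c₁ * p (mk x y) + c₂ * q (mk x y)) ^ 2) = fun y =>
      c₁ ^ 2 * p (mk x y) ^ 2 + 2 * c₁ * c₂ * (p (mk x y) * q (mk x y)) +
        c₂ ^ 2 * q (mk x y) ^ 2 := by funext y; ring
  rw [e1]
  refine ⟨((hp.const_mul _).add (hpq.const_mul _)).add (hq.const_mul _), ?_⟩
  rw [integral_add ((hp.const_mul _).fun_add (hpq.const_mul _)) (hq.const_mul _),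
    integral_add (hp.const_mul _) (hpq.const_mul _), integral_const_mul, integral_const_mul,
    integral_const_mul]
  rfl

lemma cross_sq_le {p q : C2 → ℝ} {x : R3} (hp : Integrable fun y => p (mk x y) ^ 2)
    (hq : Integrable fun y => q (mk x y) ^ 2)
    (hm : AEStronglyMeasurable fun y => p (mk x y) * q (mk x y)) (hd : 0 < den p x) :
    crossInt p q x ^ 2 / den p x ^ 2 ≤ den q x / den p x := by
  have h := (slice_quad hp hq hm (-(crossInt p q x / den p x)) 1).2
  have h0 : 0 ≤ ∫ y, (-(crossInt p q x / den p x) * p (mk x y) + 1 * q (mk x y)) ^ 2 :=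
    integral_nonneg fun _ => sq_nonneg _
  rw [h] at h0
  have : den q x / den p x - crossInt p q x ^ 2 / den p x ^ 2 =
      ((-(crossInt p q x / den p x)) ^ 2 * den p x + 2 * -(crossInt p q x / den p x) * 1 *
        crossInt p q x + 1 ^ 2 * den q x) / den p x := by
    field_simp; ring
  linarith [this, div_nonneg h0 hd.le]

variable (hu : IsSol Z R e u) (hA : Controlled R δ C u A) (hC : 0 < C) (hδ : 0 < δ)
  (hpos : ∀ X, 0 < A X)
include hu hA hC hδ hpos

/-- A uniform bound on the potentials of regular approximants. -/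
lemma ampPot_bound :
    ∃ K, 0 < K ∧ ∀ p : C2 → ℝ, Regular R C A p → ∀ᵐ x : R3,
      |ampPot Z R e p (fun i k => pd i k p) x| ≤ K * U R x ∧
      (∀ i k, den (pd i k p) x / den p x ≤ K * U R x) ∧
      |(∫ y, (pot2 Z R (mk x y) - e) * p (mk x y) ^ 2)| / den p x ≤ K * U R x := by
  obtain ⟨K1, hK1, h1⟩ := slice_terms hu hA hC hδ
  obtain ⟨K0, hK0, h0⟩ := pot2_majorant (Z := Z) (R := R) (e := e)
  set K := C ^ 2 * K1 + C ^ 2 * (K0 * K1)
  refine ⟨10 * K, by positivity, fun p hp => ?_⟩
  filter_upwards [h1 p hp] with x hx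
  obtain ⟨hQ, hWi, hW⟩ := hx
  have hd := den_pos hu hA hC hδ hp hpos x
  have hS := (den_bounds hu hA hC hδ hp x).2
  have hU : 0 ≤ U R x := zero_le_one.trans (one_le_U x)
  have key : ∀ {r c : ℝ}, 0 ≤ c → r ≤ c * U R x * slice A x →
      r / den p x ≤ C ^ 2 * c * U R x := by
    intro r c hc hr
    rw [div_le_iff₀ hd]
    refine hr.trans ?_
    calc c * U R x * slice A x ≤ c * U R x * (C ^ 2 * den p x) :=
          mul_le_mul_of_nonneg_left hS (mul_nonneg hc hU)
      _ = _ := by ring
  have hgrad : ∀ i k, den (pd i k p) x / den p x ≤ C ^ 2 * K1 * U R x :=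
    fun i k => key hK1.le (hQ i k).2
  have hpot : |(∫ y, (pot2 Z R (mk x y) - e) * p (mk x y) ^ 2)| / den p x ≤
      C ^ 2 * (K0 * K1) * U R x := by
    refine key (by positivity) ?_
    rw [← Real.norm_eq_abs]
    refine (norm_integral_le_of_norm_le (g := fun y => K0 * (wmaj R (mk x y) * p (mk x y) ^ 2))
      (hWi.const_mul _) (Eventually.of_forall fun y => ?_)).trans ?_
    · rw [Real.norm_eq_abs, abs_mul, abs_of_nonneg (sq_nonneg (p _)), ← mul_assoc]
      exact mul_le_mul_of_nonneg_right (h0 _) (sq_nonneg _)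
    · rw [integral_const_mul]
      calc K0 * _ ≤ K0 * (K1 * U R x * slice A x) := mul_le_mul_of_nonneg_left hW hK0.le
        _ = _ := by ring
  have hKU : C ^ 2 * K1 * U R x + C ^ 2 * (K0 * K1) * U R x = K * U R x := by ring
  have n1 : 0 ≤ C ^ 2 * K1 * U R x := by positivity
  have n2 : 0 ≤ C ^ 2 * (K0 * K1) * U R x := by positivity
  refine ⟨?_, fun i k => by linarith [hgrad i k], by linarith⟩
  have hcr : ∀ k, crossInt p (pd 0 k p) x ^ 2 / den p x ^ 2 ≤ C ^ 2 * K1 * U R x := fun k =>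
    (cross_sq_le (p_slice_integrable hu hA hC hδ hp x) (hQ 0 k).1
      (((continuous_p hp).mul (continuous_pd hp 0 k)).comp
        (continuous_mk_right x)).aestronglyMeasurable hd).trans (hgrad 0 k)
  have hc0 : ∀ k, 0 ≤ crossInt p (pd 0 k p) x ^ 2 / den p x ^ 2 := fun k => by positivity
  have hd0 : ∀ i k, 0 ≤ den (pd i k p) x / den p x := fun i k =>
    div_nonneg (integral_nonneg fun _ => sq_nonneg _) hd.le
  simp only [ampPot, num, Fin.sum_univ_two, Fin.sum_univ_three, add_div, mul_div_assoc]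
  have hpot' : |(∫ y, (pot2 Z R (mk x y) - e) * p (mk x y) ^ 2) / den p x| ≤
      C ^ 2 * (K0 * K1) * U R x := by rw [abs_div, abs_of_pos hd]; exact hpot
  rw [abs_le] at hpot'
  rw [abs_le]
  constructor <;> linarith [hd0 0 0, hd0 0 1, hd0 0 2, hd0 1 0, hd0 1 1, hd0 1 2, hgrad 0 0,
    hpot'.1, hpot'.2,
    hgrad 0 1, hgrad 0 2, hgrad 1 0, hgrad 1 1, hgrad 1 2, hcr 0, hcr 1, hcr 2, hc0 0, hc0 1, hc0 2]

/-- The variational principle in one variable. -/
theorem qone_ampPot_nonneg
    (bottom : ∀ h : C2 → ℝ, ContDiff ℝ 1 h → MemLp h 2 →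
      (∀ i k, MemLp (pd i k h) 2) → 0 ≤ qform Z R e h fun i k => pd i k h)
    (hp : Regular R C A p) {w : R3 → ℝ} (hw : ContDiff ℝ 1 w) (hw2 : MemLp w 2)
    (hwd : ∀ k, MemLp (pd1 k w) 2) (hwU : Integrable fun x => U R x * w x ^ 2) :
    (Integrable fun x => ampPot Z R e p (fun i k => pd i k p) x * w x ^ 2) ∧
      0 ≤ qone (ampPot Z R e p fun i k => pd i k p) w := by
  obtain ⟨K, hK, hKb⟩ := ampPot_bound hu hA hC hδ hpos
  obtain ⟨K1, hK1, h1⟩ := slice_terms hu hA hC hδ
  obtain ⟨K0, hK0, h0⟩ := pot2_majorant (Z := Z) (R := R) (e := e)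
  have hd : ∀ x, 0 < den p x := den_pos hu hA hC hδ hp hpos
  have hdc : ContDiff ℝ 1 (den p) := contDiff_den hu hA hC hδ hp
  set r : R3 → ℝ := fun x => √(den p x) with hr
  have hr0 : ∀ x, 0 < r x := fun x => Real.sqrt_pos.2 (hd x)
  have hrsq : ∀ x, r x ^ 2 = den p x := fun x => Real.sq_sqrt (hd x).le
  have hrc : ContDiff ℝ 1 r := hdc.sqrt fun x => (hd x).ne'
  set g : R3 → ℝ := fun x => w x / r x with hg
  have hgc : ContDiff ℝ 1 g := hw.div hrc fun x => (hr0 x).ne'
  set g' : Fin 3 → R3 → ℝ := fun k x =>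
    pd1 k w x / r x - w x * crossInt p (pd 0 k p) x / (r x * den p x)
  have hgd : ∀ k x, pd1 k g x = g' k x := fun k x => by
    have hden := ((hdc.differentiable one_ne_zero) x).hasFDerivAt
    have h2 : HasFDerivAt r _ x := hden.sqrt (hd x).ne'
    have h3 : HasFDerivAt g _ x := ((hw.differentiable one_ne_zero) x).hasFDerivAt.mul
      ((hasDerivAt_inv (hr0 x).ne').comp_hasFDerivAt x h2)
    rw [pd1, h3.fderiv]
    have e1 : fderiv ℝ (den p) x (axis k) = 2 * crossInt p (pd 0 k p) x :=
      pd1_den hu hA hC hδ hp k x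
    simp only [add_apply, smul_apply, smul_eq_mul, Function.comp_apply, one_div, e1, g']
    change w x * (-(r x ^ 2)⁻¹ * ((2 * r x)⁻¹ * (2 * crossInt p _ x))) + (r x)⁻¹ * pd1 k w x = _
    rw [← hrsq x]
    field_simp [(hr0 x).ne']
    ring
  set h : C2 → ℝ := fun X => g (X 0) * p X with hh
  have hhc : ContDiff ℝ 1 h := (hgc.comp (contDiff_apply ℝ R3 (0 : Fin 2))).mul hp.smooth
  have hp0 : ∀ (k : Fin 3) (x y : R3),
      pd 0 k h (mk x y) = g' k x * p (mk x y) + g x * pd 0 k p (mk x y) := fun k x y => by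
    rw [← pd1_slice_left (hhc.differentiable one_ne_zero)]
    have hg1 := ((hgc.differentiable one_ne_zero) x).hasFDerivAt
    have hp1 := ((hp.smooth.differentiable one_ne_zero) (mk x y)).hasFDerivAt.comp x
      (hasFDerivAt_mk_left x y)
    have h3 : HasFDerivAt (fun z => h (mk z y)) _ x := hg1.mul hp1
    rw [pd1, h3.fderiv]
    simp [← hgd, pd1, pd, dir_eq]
    ring
  have hp1 : ∀ (k : Fin 3) (x y : R3), pd 1 k h (mk x y) = g x * pd 1 k p (mk x y) :=
    fun k x y => by
    rw [← pd1_slice_right (hhc.differentiable one_ne_zero)]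
    have hp2 := ((hp.smooth.differentiable one_ne_zero) (mk x y)).hasFDerivAt.comp y
      (hasFDerivAt_mk_right x y)
    have h3 : HasFDerivAt (fun z => h (mk x z)) _ y := hp2.const_mul (g x)
    rw [pd1, h3.fderiv]
    simp [pd, dir_eq]
  have hg2 : ∀ x, g x ^ 2 = w x ^ 2 / den p x := fun x => by rw [hg]; simp [div_pow, hrsq]
  have hm0 : ∀ x k, AEStronglyMeasurable fun y => p (mk x y) * pd 0 k p (mk x y) := fun x k =>
    (((continuous_p hp).mul (continuous_pd hp 0 k)).comp
      (continuous_mk_right x)).aestronglyMeasurable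
  -- the slices
  have hsl : ∀ᵐ x : R3,
      (∀ k, (Integrable fun y => pd 0 k h (mk x y) ^ 2) ∧ ∫ y, pd 0 k h (mk x y) ^ 2 =
        pd1 k w x ^ 2 + w x ^ 2 * (den (pd 0 k p) x / den p x -
          crossInt p (pd 0 k p) x ^ 2 / den p x ^ 2)) ∧
      (∀ k, (Integrable fun y => pd 1 k h (mk x y) ^ 2) ∧ ∫ y, pd 1 k h (mk x y) ^ 2 =
        w x ^ 2 * (den (pd 1 k p) x / den p x)) ∧
      ((Integrable fun y => h (mk x y) ^ 2) ∧ ∫ y, h (mk x y) ^ 2 = w x ^ 2) ∧
      ((Integrable fun y => (pot2 Z R (mk x y) - e) * h (mk x y) ^ 2) ∧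
        ∫ y, (pot2 Z R (mk x y) - e) * h (mk x y) ^ 2 =
          w x ^ 2 * ((∫ y, (pot2 Z R (mk x y) - e) * p (mk x y) ^ 2) / den p x)) := by
    filter_upwards [h1 p hp] with x hx
    obtain ⟨hQ, hWi, -⟩ := hx
    have hpi := p_slice_integrable hu hA hC hδ hp x
    refine ⟨fun k => ?_, fun k => ?_, ?_, ?_⟩
    · have h4 := slice_quad hpi (hQ 0 k).1 (hm0 x k) (g' k x) (g x)
      simp only [hp0]
      refine ⟨h4.1, h4.2.trans ?_⟩
      simp only [g', hg]
      rw [← hrsq x]
      field_simp [(hr0 x).ne']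
      ring
    · simp only [hp1, mul_pow]
      refine ⟨(hQ 1 k).1.const_mul _, ?_⟩
      rw [integral_const_mul, hg2]
      change _ * den (pd 1 k p) x = _
      ring
    · have e2 : ∀ y, h (mk x y) ^ 2 = g x ^ 2 * p (mk x y) ^ 2 := fun y => mul_pow _ _ 2
      simp only [e2]
      refine ⟨hpi.const_mul _, ?_⟩
      rw [integral_const_mul, hg2]
      exact div_mul_cancel₀ _ (hd x).ne'
    · have hint : Integrable fun y => (pot2 Z R (mk x y) - e) * p (mk x y) ^ 2 := by
        refine (hWi.const_mul K0).mono' (((measurable_pot2.comp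
          (continuous_mk_right x).measurable).sub_const e).mul (((continuous_p hp).comp
          (continuous_mk_right x)).measurable.pow_const 2)).aestronglyMeasurable
          (Eventually.of_forall fun y => ?_)
        rw [Real.norm_eq_abs, abs_mul, abs_of_nonneg (sq_nonneg (p _)), ← mul_assoc]
        exact mul_le_mul_of_nonneg_right (h0 _) (sq_nonneg _)
      have e2 : ∀ y, (pot2 Z R (mk x y) - e) * h (mk x y) ^ 2 =
          g x ^ 2 * ((pot2 Z R (mk x y) - e) * p (mk x y) ^ 2) := fun y => by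
        change _ * (g x * p (mk x y)) ^ 2 = _
        ring
      simp only [e2]
      refine ⟨hint.const_mul _, ?_⟩
      rw [integral_const_mul, hg2]
      ring
  -- integrability on the configurations
  have hd01 : ∀ᵐ x : R3, ∀ k, 0 ≤ den (pd 0 k p) x / den p x -
      crossInt p (pd 0 k p) x ^ 2 / den p x ^ 2 := by
    filter_upwards [h1 p hp] with x hx k
    exact sub_nonneg.2 (cross_sq_le (p_slice_integrable hu hA hC hδ hp x) (hx.1 0 k).1
      (hm0 x k) (hd x))
  have hb1 : ∀ k, Integrable fun x => pd1 k w x ^ 2 + K * (U R x * w x ^ 2) := fun k =>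
    (hwd k).integrable_sq.add (hwU.const_mul K)
  have hb2 : Integrable fun x => K * (U R x * w x ^ 2) := hwU.const_mul K
  have hI0 : ∀ k, Integrable fun X => pd 0 k h X ^ 2 := fun k => by
    refine integrable_of_slices
      (((hhc.continuous_fderiv one_ne_zero).clm_apply continuous_const).pow 2).aestronglyMeasurable
      (hb1 k) (hsl.mono fun x hx => (hx.1 k).1) ?_
    filter_upwards [hsl, hKb p hp] with x hx hb
    simp only [abs_sq]
    rw [(hx.1 k).2]
    have h5 : 0 ≤ crossInt p (pd 0 k p) x ^ 2 / den p x ^ 2 := by positivity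
    nlinarith [mul_le_mul_of_nonneg_left (hb.2.1 0 k) (sq_nonneg (w x)),
      mul_nonneg (sq_nonneg (w x)) h5]
  have hI1 : ∀ k, Integrable fun X => pd 1 k h X ^ 2 := fun k => by
    refine integrable_of_slices
      (((hhc.continuous_fderiv one_ne_zero).clm_apply continuous_const).pow 2).aestronglyMeasurable
      hb2 (hsl.mono fun x hx => (hx.2.1 k).1) ?_
    filter_upwards [hsl, hKb p hp] with x hx hb
    simp only [abs_sq]
    rw [(hx.2.1 k).2]
    nlinarith [mul_le_mul_of_nonneg_left (hb.2.1 1 k) (sq_nonneg (w x))]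
  have hIh : Integrable fun X => h X ^ 2 := by
    refine integrable_of_slices (hhc.continuous.pow 2).aestronglyMeasurable hw2.integrable_sq
      (hsl.mono fun x hx => hx.2.2.1.1) ?_
    filter_upwards [hsl] with x hx
    simp only [abs_sq]
    exact hx.2.2.1.2.le
  have hIW : Integrable fun X => (pot2 Z R X - e) * h X ^ 2 := by
    refine integrable_of_slices
      ((measurable_pot2.sub_const e).mul (hhc.continuous.measurable.pow_const 2)).aestronglyMeasurable
      ((hwU.const_mul (K0 * (K1 * C ^ 2)))) (hsl.mono fun x hx => hx.2.2.2.1) ?_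
    filter_upwards [hsl, h1 p hp] with x hx hx1
    obtain ⟨-, hWi, hW⟩ := hx1
    calc ∫ y, |(pot2 Z R (mk x y) - e) * h (mk x y) ^ 2|
        ≤ ∫ y, K0 * g x ^ 2 * (wmaj R (mk x y) * p (mk x y) ^ 2) := by
          refine integral_mono hx.2.2.2.1.abs (hWi.const_mul _) fun y => ?_
          simp only
          rw [abs_mul, abs_of_nonneg (sq_nonneg (h _))]
          change _ * (g x * p (mk x y)) ^ 2 ≤ _
          have h6 := mul_le_mul_of_nonneg_right (h0 (mk x y)) (sq_nonneg (g x * p (mk x y)))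
          nlinarith
      _ ≤ K0 * g x ^ 2 * (K1 * U R x * (C ^ 2 * den p x)) := by
          rw [integral_const_mul]
          refine mul_le_mul_of_nonneg_left (hW.trans ?_) (by positivity)
          exact mul_le_mul_of_nonneg_left (den_bounds hu hA hC hδ hp x).2
            (mul_nonneg hK1.le (zero_le_one.trans (one_le_U x)))
      _ = _ := by rw [hg2]; field_simp [(hd x).ne']
  have mem : ∀ {F : C2 → ℝ}, Continuous F → Integrable (fun X => F X ^ 2) → MemLp F 2 :=
    fun hF hi => (memLp_two_iff_integrable_sq hF.aestronglyMeasurable).2 hi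
  have hb := bottom h hhc (mem hhc.continuous hIh) fun i k => by
    refine mem ((hhc.continuous_fderiv one_ne_zero).clm_apply continuous_const) ?_
    rcases Fin.eq_zero_or_eq_succ i with rfl | ⟨j, rfl⟩
    · exact hI0 k
    · rw [Subsingleton.elim j 0]; exact hI1 k
  have hva : AEStronglyMeasurable fun x => ampPot Z R e p (fun i k => pd i k p) x * w x ^ 2 := by
    have e3 : (fun x => ampPot Z R e p (fun i k => pd i k p) x * w x ^ 2) =ᵐ[volume] fun x =>
        (∑ k, (1 / 2 : ℝ) * (∫ y, pd 0 k h (mk x y) ^ 2)) +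
          (∑ k, (1 / 2 : ℝ) * (∫ y, pd 1 k h (mk x y) ^ 2)) +
          (∫ y, (pot2 Z R (mk x y) - e) * h (mk x y) ^ 2) -
          ∑ k, (1 / 2 : ℝ) * pd1 k w x ^ 2 := by
      filter_upwards [hsl] with x hx
      simp only [(hx.1 _).2, (hx.2.1 _).2, hx.2.2.2.2, ampPot, num, Fin.sum_univ_two,
        Fin.sum_univ_three]
      ring
    refine AEStronglyMeasurable.congr ?_ e3.symm
    refine (((Finset.aestronglyMeasurable_fun_sum _ fun k _ =>
      (integrable_slice_integral (hI0 k)).aestronglyMeasurable.const_mul _).add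
      (Finset.aestronglyMeasurable_fun_sum _ fun k _ =>
        (integrable_slice_integral (hI1 k)).aestronglyMeasurable.const_mul _)).add
      (integrable_slice_integral hIW).aestronglyMeasurable).sub ?_
    exact Finset.aestronglyMeasurable_fun_sum _ fun k _ =>
      (hwd k).integrable_sq.aestronglyMeasurable.const_mul _
  have hvi : Integrable fun x => ampPot Z R e p (fun i k => pd i k p) x * w x ^ 2 := by
    refine (hb2).mono' hva ?_
    filter_upwards [hKb p hp] with x hx
    rw [Real.norm_eq_abs, abs_mul, abs_of_nonneg (sq_nonneg (w x)), ← mul_assoc]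
    exact mul_le_mul_of_nonneg_right hx.1 (sq_nonneg _)
  refine ⟨hvi, hb.trans_eq ?_⟩
  have j0 := fun k => integrable_slice_integral (hI0 k)
  have j1 := fun k => integrable_slice_integral (hI1 k)
  have jW := integrable_slice_integral hIW
  rw [qform, qone, integral_mk hIW]
  simp only [Fin.sum_univ_two, integral_mk (hI0 _), integral_mk (hI1 _)]
  have e4 : ∀ (i : Fin 2) (k : Fin 3), (1 / 2 : ℝ) * ∫ x, ∫ y, pd i k h (mk x y) ^ 2 =
      ∫ x, (1 / 2 : ℝ) * ∫ y, pd i k h (mk x y) ^ 2 := fun i k => (integral_const_mul _ _).symm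
  simp only [e4]
  rw [← integral_finsetSum _ fun k _ => (j0 k).const_mul _,
    ← integral_finsetSum _ fun k _ => (j1 k).const_mul _, ← integral_add
      (integrable_finsetSum _ fun k _ => (j0 k).const_mul _)
      (integrable_finsetSum _ fun k _ => (j1 k).const_mul _),
    ← integral_add ((integrable_finsetSum _ fun k _ => (j0 k).const_mul _).fun_add
      (integrable_finsetSum _ fun k _ => (j1 k).const_mul _)) jW]
  refine integral_congr_ae ?_
  filter_upwards [hsl] with x hx
  simp only [(hx.1 _).2, (hx.2.1 _).2, hx.2.2.2.2, ampPot, num, Fin.sum_univ_two,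
    Fin.sum_univ_three]
  ring

end Vale.Agent.P363.Two
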