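import Vale.Agent.P363.Two.Hardy

/-!
Mollification in `L²` and in the Coulomb weighted norm.
-/

noncomputable section

open MeasureTheory Filter Topology Set Real Function
open scoped ENNReal

namespace Vale.Agent.P363.Two

lemma scale_pos (n : ℕ) : 0 < scale n := by unfold scale; positivity

lemma tendsto_scale : Tendsto scale atTop (𝓝 0) := tendsto_one_div_add_atTop_nhds_zero_nat

lemma eventually_scale_lt {δ : ℝ} (hδ : 0 < δ) : ∀ᶠ n in atTop, scale n < δ :=
  tendsto_scale.eventually (gt_mem_nhds hδ)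

lemma locInt_of_memLp {u : C2 → ℝ} (hu : MemLp u 2) : LocallyIntegrable u :=
  hu.locallyIntegrable (by norm_num)

lemma continuous_rho (t : ℝ) : Continuous (rho t) := (contDiff_rho (n := 0) t).continuous

lemma integrable_rho_mul {t : ℝ} (ht : 0 < t) {u : C2 → ℝ} (hu : LocallyIntegrable u) (X : C2) :
    Integrable fun Y => rho t (X - Y) * u Y := by
  have := hu.integrable_smul_left_of_hasCompactSupport (g := fun Y => rho t (X - Y))
    ((continuous_rho t).comp (continuous_const.sub continuous_id))
    ((hasCompactSupport_rho ht).comp_homeomorph (Homeomorph.subLeft X))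
  simpa using this

lemma moll_sub {t : ℝ} (ht : 0 < t) {u v : C2 → ℝ} (hu : LocallyIntegrable u)
    (hv : LocallyIntegrable v) (X : C2) :
    moll t (fun Y => u Y - v Y) X = moll t u X - moll t v X := by
  simp only [moll, mul_sub]
  exact integral_sub (integrable_rho_mul ht hu X) (integrable_rho_mul ht hv X)

lemma moll_const {t : ℝ} (ht : 0 < t) (c : ℝ) (X : C2) : moll t (fun _ => c) X = c := by
  rw [moll_eq_integral, integral_mul_const, integral_rho ht, one_mul]

/-- Jensen. -/
lemma sq_moll_le {t : ℝ} (ht : 0 < t) {u : C2 → ℝ} (hu : MemLp u 2) (X : C2) :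
    moll t u X ^ 2 ≤ moll t (fun Y => u Y ^ 2) X := by
  set c := moll t u X with hc
  have hu2 : LocallyIntegrable fun Y => u Y ^ 2 := hu.integrable_sq.locallyIntegrable
  have i1 := integrable_rho_mul ht hu2 X
  have i2 := (integrable_rho_mul ht (locInt_of_memLp hu) X).const_mul (2 * c)
  have i3 : Integrable fun Y => rho t (X - Y) * c ^ 2 :=
    integrable_rho_mul ht (locallyIntegrable_const _) X
  have h : 0 ≤ ∫ Y, rho t (X - Y) * (u Y - c) ^ 2 :=
    integral_nonneg fun Y => mul_nonneg (rho_nonneg ht.le _) (sq_nonneg _)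
  have e : ∫ Y, rho t (X - Y) * (u Y - c) ^ 2 = (∫ Y, rho t (X - Y) * u Y ^ 2)
      - 2 * c * (∫ Y, rho t (X - Y) * u Y) + ∫ Y, rho t (X - Y) * c ^ 2 := by
    have i12 : Integrable fun Y => rho t (X - Y) * u Y ^ 2 - 2 * c * (rho t (X - Y) * u Y) := i1.sub i2
    rw [← integral_const_mul, ← integral_sub i1 i2, ← integral_add i12 i3]
    exact integral_congr_ae (Eventually.of_forall fun Y => by ring)
  rw [e] at h
  have h3 : ∫ Y, rho t (X - Y) * c ^ 2 = c ^ 2 := moll_const ht (c ^ 2) X
  have h2 : ∫ Y, rho t (X - Y) * u Y = c := rfl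
  rw [h2, h3] at h
  show c ^ 2 ≤ ∫ Y, rho t (X - Y) * u Y ^ 2
  nlinarith

lemma moll_l2 {t : ℝ} (ht : 0 < t) {u : C2 → ℝ} (hu : MemLp u 2) :
    MemLp (moll t u) 2 ∧ ∫ X, moll t u X ^ 2 ≤ ∫ X, u X ^ 2 := by
  have hc : Continuous (moll t u) := (contDiff_moll ht (locInt_of_memLp hu) (n := 0)).continuous
  have hr : Integrable (rho t) :=
    (continuous_rho t).integrable_of_hasCompactSupport (hasCompactSupport_rho ht)
  have hi : Integrable (moll t fun Y => u Y ^ 2) := by
    rw [moll_eq_convolution]
    exact hr.integrable_convolution _ hu.integrable_sq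
  have hint : ∫ X, moll t (fun Y => u Y ^ 2) X = ∫ X, u X ^ 2 := by
    rw [moll_eq_convolution, integral_convolution _ hr hu.integrable_sq]
    simp [integral_rho ht]
  have hsq : Integrable fun X => moll t u X ^ 2 :=
    hi.mono' (hc.pow 2).aestronglyMeasurable (Eventually.of_forall fun X => by
      rw [norm_of_nonneg (sq_nonneg _)]
      exact sq_moll_le ht hu X)
  exact ⟨(memLp_two_iff_integrable_sq hc.aestronglyMeasurable).2 hsq,
    (integral_mono hsq hi (sq_moll_le ht hu)).trans_eq hint⟩

lemma moll_close {t : ℝ} (ht : 0 < t) {g : C2 → ℝ} (hg : Continuous g) (X : C2) {ε : ℝ}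
    (h : ∀ Y, dist Y X ≤ t → |g Y - g X| ≤ ε) : |moll t g X - g X| ≤ ε := by
  have hi1 := integrable_rho_mul ht hg.locallyIntegrable X
  have hi2 : Integrable fun Y => rho t (X - Y) * g X :=
    integrable_rho_mul ht (locallyIntegrable_const _) X
  rw [show moll t g X - g X = moll t g X - moll t (fun _ => g X) X by rw [moll_const ht], moll, moll,
    ← integral_sub hi1 hi2]
  refine abs_integral_le_integral_abs.trans ?_
  calc _ ≤ ∫ Y, rho t (X - Y) * ε := by
        refine integral_mono (hi1.sub hi2).abs (integrable_rho_mul ht (locallyIntegrable_const _) X)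
          fun Y => ?_
        rw [← mul_sub, abs_mul, abs_of_nonneg (rho_nonneg ht.le _)]
        rcases le_or_gt (dist Y X) t with hd | hd
        · exact mul_le_mul_of_nonneg_left (h Y hd) (rho_nonneg ht.le _)
        · rw [rho_zero ht, zero_mul, zero_mul]
          refine le_trans ?_ (norm_sq_le_nsq _)
          rw [← dist_eq_norm, dist_comm]
          exact pow_le_pow_left₀ ht.le hd.le 2
    _ = ε := moll_const ht ε X

/-- Mollifications converge in `L²`. -/
lemma tendsto_moll_l2 {f : C2 → ℝ} (hf : MemLp f 2) :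
    Tendsto (fun n => ∫ X, (moll (scale n) f X - f X) ^ 2) atTop (𝓝 0) := by
  rw [Metric.tendsto_nhds]
  intro ε hε
  have : (volume : Measure C2).Regular :=
    Measure.Regular.of_sigmaCompactSpace_of_isLocallyFiniteMeasure _
  obtain ⟨g, hgs, hfg, hgc, hgLp⟩ :=
    (show MemLp f (ENNReal.ofReal 2) volume by rwa [ENNReal.ofReal_ofNat]).exists_hasCompactSupport_integral_rpow_sub_le
      two_pos (show 0 < ε / 20 by positivity)
  rw [ENNReal.ofReal_ofNat] at hgLp
  have hfg' : ∫ X, (f X - g X) ^ 2 ≤ ε / 20 := by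
    refine le_trans (le_of_eq (integral_congr_ae (Eventually.of_forall fun X => ?_))) hfg
    simp
  set K := Metric.cthickening 1 (tsupport g)
  have hK : IsCompact K := hgs.isCompact.cthickening
  obtain ⟨η, hη, hηK⟩ : ∃ η : ℝ, 0 < η ∧ η ^ 2 * volume.real K ≤ ε / 20 := by
    refine ⟨√(ε / 20 / (volume.real K + 1)), sqrt_pos.2 (by positivity), ?_⟩
    rw [sq_sqrt (by positivity), div_mul_eq_mul_div, div_le_iff₀ (by positivity)]
    nlinarith [measureReal_nonneg (μ := volume) (s := K)]
  obtain ⟨δ, hδ, huc⟩ := Metric.uniformContinuous_iff.1 (hgs.uniformContinuous_of_continuous hgc) η hη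
  filter_upwards [eventually_scale_lt hδ, eventually_scale_lt one_pos] with n hn hn1
  have ht := scale_pos n
  have hclose : ∀ X, |moll (scale n) g X - g X| ≤ η := fun X =>
    moll_close ht hgc X fun Y hY => (by
      have := huc (hY.trans_lt hn)
      rw [Real.dist_eq] at this
      exact this.le)
  have hzero : ∀ X, X ∉ K → moll (scale n) g X - g X = 0 := fun X hX => by
    refine abs_eq_zero.1 (le_antisymm (moll_close ht hgc X fun Y hY => ?_) (abs_nonneg _))
    have hgY : g Y = 0 := image_eq_zero_of_notMem_tsupport fun hYs => hX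
      (Metric.mem_cthickening_of_dist_le X Y 1 _ hYs (by rw [dist_comm]; linarith))
    have hgX : g X = 0 := image_eq_zero_of_notMem_tsupport fun hXs => hX
      (Metric.self_subset_cthickening _ hXs)
    simp [hgY, hgX]
  obtain ⟨hmg, -⟩ := moll_l2 ht hgLp
  obtain ⟨hmf, -⟩ := moll_l2 ht hf
  have hd : MemLp (fun X => f X - g X) 2 := hf.sub hgLp
  obtain ⟨hmd, hmd'⟩ := moll_l2 ht hd
  have hg2 : ∫ X, (moll (scale n) g X - g X) ^ 2 ≤ ε / 20 := by
    refine le_trans ?_ hηK
    rw [← setIntegral_eq_integral_of_forall_compl_eq_zero (s := K) fun X hX => by simp [hzero X hX]]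
    calc ∫ X in K, (moll (scale n) g X - g X) ^ 2 ≤ ∫ _X in K, η ^ 2 :=
          setIntegral_mono_on (hmg.sub hgLp).integrable_sq.integrableOn
            (integrableOn_const hK.measure_lt_top.ne) hK.measurableSet
            fun X _ => sq_le_sq' (abs_le.1 (hclose X)).1 (abs_le.1 (hclose X)).2
      _ = η ^ 2 * volume.real K := by rw [setIntegral_const, smul_eq_mul, mul_comm]
  have hbound : ∫ X, (moll (scale n) f X - f X) ^ 2 ≤
      3 * (∫ X, moll (scale n) (fun Y => f Y - g Y) X ^ 2) +
        3 * (∫ X, (moll (scale n) g X - g X) ^ 2) + 3 * ∫ X, (f X - g X) ^ 2 := by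
    have ia := hmd.integrable_sq.const_mul 3
    have ib := (hmg.sub hgLp).integrable_sq.const_mul 3
    have ic := hd.integrable_sq.const_mul 3
    simp only [Pi.sub_apply] at ib
    have iab : Integrable fun X => 3 * moll (scale n) (fun Y => f Y - g Y) X ^ 2
        + 3 * (moll (scale n) g X - g X) ^ 2 := ia.add ib
    rw [← integral_const_mul, ← integral_const_mul, ← integral_const_mul, ← integral_add ia ib,
      ← integral_add iab ic]
    refine integral_mono (hmf.sub hf).integrable_sq (iab.add ic) fun X => ?_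
    simp only [moll_sub ht (locInt_of_memLp hf) (locInt_of_memLp hgLp)]
    nlinarith [sq_nonneg (moll (scale n) f X - moll (scale n) g X - (moll (scale n) g X - g X)),
      sq_nonneg (moll (scale n) f X - moll (scale n) g X + (f X - g X)),
      sq_nonneg (moll (scale n) g X - g X + (f X - g X))]
  rw [Real.dist_eq, sub_zero, abs_of_nonneg (integral_nonneg fun _ => sq_nonneg _)]
  linarith

/-! ### Weak gradients -/

lemma isTest_rho {t : ℝ} (ht : 0 < t) (X : C2) : IsTest fun Y => rho t (X - Y) :=
  ⟨(contDiff_rho t).comp (contDiff_const.sub contDiff_id),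
    (hasCompactSupport_rho ht).comp_homeomorph (Homeomorph.subLeft X)⟩

lemma pd_moll_eq {t : ℝ} (ht : 0 < t) {f G : C2 → ℝ} {i : Fin 2} {k : Fin 3}
    (hf : LocallyIntegrable f) (hw : WeakDeriv (dir i k) f G) (X : C2) :
    pd i k (moll t f) X = moll t G X := by
  have e : ∀ Y, fderiv ℝ (fun Y => rho t (X - Y)) Y (dir i k) = -pd i k (rho t) (X - Y) := fun Y => by
    have h1 := ((contDiff_rho (n := 1) t).differentiable one_ne_zero (X - Y)).hasFDerivAt.comp Y
      ((hasFDerivAt_id Y).const_sub X)
    rw [show (fun Y => rho t (X - Y)) = rho t ∘ fun Y => X - Y from rfl, h1.fderiv]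
    simp [pd]
  have h := hw _ (isTest_rho ht X)
  simp only [e, smul_eq_mul, neg_mul, integral_neg, neg_inj] at h
  rw [pd_moll ht hf, h]
  rfl

/-- The weak gradient of a `C¹` function is its gradient. -/
lemma weakDeriv_of_contDiff {h : C2 → ℝ} (hh : ContDiff ℝ 1 h) (i : Fin 2) (k : Fin 3) :
    WeakDeriv (dir i k) h (pd i k h) := by
  intro η hη
  have hc : Continuous (pd i k h) := (hh.continuous_fderiv one_ne_zero).clm_apply continuous_const
  have hη1 : ContDiff ℝ 1 η := hη.1.of_le (by exact_mod_cast le_top)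
  have hcd : Continuous fun x => fderiv ℝ η x (dir i k) :=
    (hη1.continuous_fderiv one_ne_zero).clm_apply continuous_const
  have := integral_mul_fderiv_eq_neg_fderiv_mul_of_integrable (μ := volume) (f := h) (g := η)
    (v := dir i k)
    ((hc.mul hη1.continuous).integrable_of_hasCompactSupport hη.2.mul_left)
    ((hh.continuous.mul hcd).integrable_of_hasCompactSupport (hη.2.fderiv_apply ℝ (dir i k)).mul_left)
    ((hh.continuous.mul hη1.continuous).integrable_of_hasCompactSupport hη.2.mul_left)
    (fun x _ => hh.differentiable one_ne_zero x) (fun x _ => hη1.differentiable one_ne_zero x)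
  simp only [smul_eq_mul]
  rw [show ∫ x, fderiv ℝ η x (dir i k) * h x = ∫ x, h x * fderiv ℝ η x (dir i k) from
    integral_congr_ae (Eventually.of_forall fun x => mul_comm _ _), this]
  congr 1
  exact integral_congr_ae (Eventually.of_forall fun x => mul_comm _ _)

/-- `f` is in `H¹` with weak gradient `H`. -/
structure InH1 (f : C2 → ℝ) (H : Fin 2 → Fin 3 → C2 → ℝ) : Prop where
  memLp : MemLp f 2
  memLpGrad : ∀ i k, MemLp (H i k) 2
  weak : ∀ i k, WeakDeriv (dir i k) f (H i k)

lemma integrable_test_mul {g u : C2 → ℝ} (hg : Continuous g) (hgs : HasCompactSupport g)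
    (hu : LocallyIntegrable u) : Integrable fun X => g X * u X := by
  simpa using hu.integrable_smul_left_of_hasCompactSupport hg hgs

lemma InH1.lincomb {f g : C2 → ℝ} {H K : Fin 2 → Fin 3 → C2 → ℝ} (hf : InH1 f H) (hg : InH1 g K)
    (a b : ℝ) : InH1 (fun X => a * f X + b * g X) fun i k X => a * H i k X + b * K i k X where
  memLp := (hf.memLp.const_mul a).add (hg.memLp.const_mul b)
  memLpGrad i k := ((hf.memLpGrad i k).const_mul a).add ((hg.memLpGrad i k).const_mul b)
  weak i k η hη := by
    have hη1 : ContDiff ℝ 1 η := hη.1.of_le (by exact_mod_cast le_top)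
    have hcd : Continuous fun x => fderiv ℝ η x (dir i k) :=
      (hη1.continuous_fderiv one_ne_zero).clm_apply continuous_const
    have hsd := hη.2.fderiv_apply ℝ (dir i k)
    have h1 := hf.weak i k η hη
    have h2 := hg.weak i k η hη
    simp only [smul_eq_mul] at h1 h2 ⊢
    have i1 := (integrable_test_mul hcd hsd (locInt_of_memLp hf.memLp)).const_mul a
    have i2 := (integrable_test_mul hcd hsd (locInt_of_memLp hg.memLp)).const_mul b
    have i3 := (integrable_test_mul hη1.continuous hη.2 (locInt_of_memLp (hf.memLpGrad i k))).const_mul a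
    have i4 := (integrable_test_mul hη1.continuous hη.2 (locInt_of_memLp (hg.memLpGrad i k))).const_mul b
    simp only [mul_add, mul_left_comm _ a, mul_left_comm _ b]
    rw [integral_add i1 i2, integral_add i3 i4, integral_const_mul, integral_const_mul,
      integral_const_mul, integral_const_mul, h1, h2]
    ring

lemma InH1.of_contDiff {h : C2 → ℝ} (hh : ContDiff ℝ 1 h) (h2 : MemLp h 2)
    (hd : ∀ i k, MemLp (pd i k h) 2) : InH1 h fun i k => pd i k h :=
  ⟨h2, hd, fun i k => weakDeriv_of_contDiff hh i k⟩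

lemma InH1.moll {f : C2 → ℝ} {H : Fin 2 → Fin 3 → C2 → ℝ} (hf : InH1 f H) {t : ℝ} (ht : 0 < t) :
    InH1 (Two.moll t f) fun i k => Two.moll t (H i k) := by
  have e : ∀ i k, pd i k (Two.moll t f) = Two.moll t (H i k) := fun i k =>
    funext fun X => pd_moll_eq ht (locInt_of_memLp hf.memLp) (hf.weak i k) X
  have := InH1.of_contDiff (contDiff_moll ht (locInt_of_memLp hf.memLp) (n := 1)) (moll_l2 ht hf.memLp).1
    fun i k => by rw [e]; exact (moll_l2 ht (hf.memLpGrad i k)).1
  simpa only [e] using this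

lemma qn_moll_le {f : C2 → ℝ} {H : Fin 2 → Fin 3 → C2 → ℝ} (hf : InH1 f H) {t : ℝ} (ht : 0 < t) :
    qn (moll t f) (fun i k => moll t (H i k)) ≤ qn f H :=
  add_le_add (moll_l2 ht hf.memLp).2
    (Finset.sum_le_sum fun i _ => Finset.sum_le_sum fun k _ => (moll_l2 ht (hf.memLpGrad i k)).2)

/-- A subsequence of the mollifications converges almost everywhere. -/
lemma exists_subseq_ae {f : C2 → ℝ} (hf : MemLp f 2) :
    ∃ ns : ℕ → ℕ, StrictMono ns ∧
      ∀ᵐ X, Tendsto (fun j => moll (scale (ns j)) f X) atTop (𝓝 (f X)) := by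
  have h := tendsto_moll_l2 hf
  have hm : TendstoInMeasure volume (fun n => moll (scale n) f) atTop f := by
    refine tendstoInMeasure_of_tendsto_eLpNorm two_ne_zero
      (fun n => (moll_l2 (scale_pos n) hf).1.aestronglyMeasurable) hf.aestronglyMeasurable ?_
    have e : ∀ n, eLpNorm (moll (scale n) f - f) 2 volume =
        ENNReal.ofReal ((∫ X, (moll (scale n) f X - f X) ^ 2) ^ (1 / 2 : ℝ)) := fun n => by
      rw [((moll_l2 (scale_pos n) hf).1.sub hf).eLpNorm_eq_integral_rpow_norm two_ne_zero
        (by norm_num)]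
      simp
    simp_rw [e]
    rw [← ENNReal.ofReal_zero]
    refine ENNReal.tendsto_ofReal ?_
    simpa [zero_rpow] using h.rpow_const (p := (1 / 2 : ℝ)) (Or.inr (by norm_num))
  exact hm.exists_seq_tendsto_ae

/-- The weighted norm is bounded by the Sobolev norm. -/
lemma wmaj_bound {M : ℕ} (R : Fin M → R3) {f : C2 → ℝ} {H : Fin 2 → Fin 3 → C2 → ℝ}
    (hf : InH1 f H) :
    (Integrable fun X => wmaj R X * f X ^ 2) ∧
      ∫ X, wmaj R X * f X ^ 2 ≤ (2 * M + 2) * qn f H := by
  obtain ⟨ns, -, hae⟩ := exists_subseq_ae hf.memLp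
  refine integrable_of_lintegral_le
    ((wmaj_measurable R).aestronglyMeasurable.mul (hf.memLp.aestronglyMeasurable.pow 2))
    (Eventually.of_forall fun X =>
      mul_nonneg (zero_le_one.trans (wmaj_one_le R X)) (sq_nonneg _))
    (mul_nonneg (by positivity) (qn_nonneg f H)) ?_
  set m := fun j => moll (scale (ns j)) f
  have hm : ∀ j, ContDiff ℝ 1 (m j) := fun j => contDiff_moll (scale_pos _) (locInt_of_memLp hf.memLp)
  have hb : ∀ j, ∫⁻ X, ENNReal.ofReal (wmaj R X * m j X ^ 2) ≤
      ENNReal.ofReal ((2 * M + 2) * qn f H) := by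
    intro j
    have hmem := hf.moll (scale_pos (ns j))
    have e : ∀ i k, pd i k (m j) = moll (scale (ns j)) (H i k) := fun i k => funext fun X =>
      pd_moll_eq (scale_pos _) (locInt_of_memLp hf.memLp) (hf.weak i k) X
    refine (lintegral_wmaj_le R (hm j) hmem.memLp fun i k => by rw [e]; exact hmem.memLpGrad i k).trans ?_
    simp only [e]
    rw [ENNReal.ofReal_mul (by positivity), ← ENNReal.ofReal_natCast]
    push_cast
    gcongr
    exact qn_moll_le hf (scale_pos _)
  calc ∫⁻ X, ENNReal.ofReal (wmaj R X * f X ^ 2)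
      = ∫⁻ X, liminf (fun j => ENNReal.ofReal (wmaj R X * m j X ^ 2)) atTop :=
        lintegral_congr_ae (by
          filter_upwards [hae] with X hX
          exact (ENNReal.tendsto_ofReal ((hX.pow 2).const_mul _)).liminf_eq.symm)
    _ ≤ liminf (fun j => ∫⁻ X, ENNReal.ofReal (wmaj R X * m j X ^ 2)) atTop :=
        lintegral_liminf_le' fun j =>
          ((wmaj_measurable R).mul ((hm j).continuous.measurable.pow_const 2)).ennreal_ofReal.aemeasurable
    _ ≤ _ := liminf_le_of_frequently_le' (Frequently.of_forall hb)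

theorem mollPin : MollPin := by
  intro M R f H hf hH hw
  have h : InH1 f H := ⟨hf, hH, hw⟩
  refine ⟨(wmaj_bound R h).1, fun n => ?_⟩
  have hn := h.moll (scale_pos n)
  have e : ∀ i k X, pd i k (moll (scale n) f) X = moll (scale n) (H i k) X := fun i k X =>
    pd_moll_eq (scale_pos n) (locInt_of_memLp hf) (hw i k) X
  refine ⟨contDiff_moll (scale_pos n) (locInt_of_memLp hf), hn.memLp,
    fun i k => ⟨?_, e i k⟩, (wmaj_bound R hn).1⟩
  rw [show pd i k (moll (scale n) f) = moll (scale n) (H i k) from funext (e i k)]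
  exact hn.memLpGrad i k

theorem mollLimPin : MollLimPin := by
  intro M R f H hf hH hw
  have h : InH1 f H := ⟨hf, hH, hw⟩
  refine ⟨?_, fun i k => tendsto_moll_l2 (hH i k)⟩
  have hd : ∀ n, InH1 (fun X => moll (scale n) f X - f X)
      fun i k X => moll (scale n) (H i k) X - H i k X := fun n => by
    have := (h.moll (scale_pos n)).lincomb h 1 (-1)
    simpa [sub_eq_add_neg] using this
  refine squeeze_zero (fun n => integral_nonneg fun X =>
    mul_nonneg (zero_le_one.trans (wmaj_one_le R X)) (sq_nonneg _))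
    (fun n => (wmaj_bound R (hd n)).2) ?_
  have hq : Tendsto (fun n => qn (fun X => moll (scale n) f X - f X)
      fun i k X => moll (scale n) (H i k) X - H i k X) atTop (𝓝 (0 + ∑ _i : Fin 2, ∑ _k : Fin 3, 0)) :=
    (tendsto_moll_l2 hf).add (tendsto_finsetSum _ fun i _ => tendsto_finsetSum _ fun k _ =>
      tendsto_moll_l2 (hH i k))
  simpa using hq.const_mul (2 * (M : ℝ) + 2)

end Vale.Agent.P363.Two
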