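import Vale.Agent.P363.Two.Kernel

/-!
Two-electron configurations as pairs of points, and the slices of functions on them.
-/

noncomputable section

open MeasureTheory Set Filter Topology
open scoped ENNReal

namespace Vale.Agent.P363.Two

/-- The configuration with the electrons at `x` and `y`. -/
def mk (x y : R3) : C2 := ![x, y]

@[simp] lemma mk_zero (x y : R3) : mk x y 0 = x := rfl

@[simp] lemma mk_one (x y : R3) : mk x y 1 = y := rfl

lemma eq_mk (X : C2) : X = mk (X 0) (X 1) := by
  funext i; fin_cases i <;> rfl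

lemma measurePreserving_mk : MeasurePreserving (fun p : R3 × R3 => mk p.1 p.2) := by
  have e : (fun p : R3 × R3 => mk p.1 p.2) = MeasurableEquiv.finTwoArrow.symm := by
    funext p i
    fin_cases i <;> rfl
  rw [e]
  exact (volume_preserving_finTwoArrow R3).symm

lemma measurableEmbedding_mk : MeasurableEmbedding fun p : R3 × R3 => mk p.1 p.2 := by
  have h := (MeasurableEquiv.finTwoArrow (α := R3)).symm.measurableEmbedding
  convert h using 1
  funext p; funext i
  fin_cases i <;> rfl

lemma integrable_mk_iff {F : C2 → ℝ} :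
    (Integrable fun p : R3 × R3 => F (mk p.1 p.2)) ↔ Integrable F :=
  measurePreserving_mk.integrable_comp_emb measurableEmbedding_mk

lemma integral_mk_prod (F : C2 → ℝ) : ∫ p : R3 × R3, F (mk p.1 p.2) = ∫ X, F X :=
  measurePreserving_mk.integral_comp measurableEmbedding_mk F

lemma integral_mk {F : C2 → ℝ} (hF : Integrable F) :
    ∫ X, F X = ∫ x, ∫ y, F (mk x y) := by
  rw [← integral_mk_prod F]
  exact integral_prod _ (integrable_mk_iff.2 hF)

lemma slice_integrable {F : C2 → ℝ} (hF : Integrable F) :
    ∀ᵐ x : R3, Integrable fun y => F (mk x y) :=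
  (integrable_mk_iff.2 hF).prod_right_ae

lemma integrable_slice_integral {F : C2 → ℝ} (hF : Integrable F) :
    Integrable fun x => ∫ y, F (mk x y) :=
  (integrable_mk_iff.2 hF).integral_prod_left

lemma ae_mk {P : C2 → Prop} (h : ∀ᵐ X, P X) : ∀ᵐ x : R3, ∀ᵐ y : R3, P (mk x y) :=
  Measure.ae_ae_of_ae_prod (measurePreserving_mk.quasiMeasurePreserving.ae h)

lemma integrable_of_slices {F : C2 → ℝ} (hm : AEStronglyMeasurable F) {g : R3 → ℝ}
    (hg : Integrable g) (hs : ∀ᵐ x : R3, Integrable fun y => F (mk x y))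
    (hb : ∀ᵐ x : R3, ∫ y, |F (mk x y)| ≤ g x) : Integrable F := by
  rw [← integrable_mk_iff]
  have hm' : AEStronglyMeasurable (fun p : R3 × R3 => F (mk p.1 p.2)) :=
    hm.comp_quasiMeasurePreserving measurePreserving_mk.quasiMeasurePreserving
  refine (integrable_prod_iff hm').2 ⟨hs, hg.mono' hm'.norm.integral_prod_right' ?_⟩
  filter_upwards [hb] with x hx
  rw [Real.norm_eq_abs, abs_of_nonneg (integral_nonneg fun _ => norm_nonneg _)]
  simpa [Real.norm_eq_abs] using hx

lemma dist_mk_left (x x' y : R3) : dist (mk x y) (mk x' y) ≤ dist x x' :=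
  (dist_pi_le_iff dist_nonneg).2 fun i => by fin_cases i <;> simp

lemma dist_mk_right (x y y' : R3) : dist (mk x y) (mk x y') ≤ dist y y' :=
  (dist_pi_le_iff dist_nonneg).2 fun i => by fin_cases i <;> simp

lemma continuous_mk_right (x : R3) : Continuous fun y => mk x y :=
  continuous_pi fun i => by fin_cases i <;> simp [mk] <;> fun_prop

lemma continuous_mk_left (y : R3) : Continuous fun x => mk x y :=
  continuous_pi fun i => by fin_cases i <;> simp [mk] <;> fun_prop

lemma continuous_mk : Continuous fun p : R3 × R3 => mk p.1 p.2 :=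
  continuous_pi fun i => by fin_cases i <;> simp [mk] <;> fun_prop

lemma hasFDerivAt_mk_left (x y : R3) :
    HasFDerivAt (fun z => mk z y) (ContinuousLinearMap.single ℝ (fun _ : Fin 2 => R3) 0) x := by
  have h : (fun z : R3 => mk z y) =
      fun z => ContinuousLinearMap.single ℝ (fun _ : Fin 2 => R3) 0 z + mk 0 y := by
    funext z i; fin_cases i <;> simp [mk]
  rw [h]
  exact (ContinuousLinearMap.hasFDerivAt _).add_const _

lemma hasFDerivAt_mk_right (x y : R3) :
    HasFDerivAt (fun z => mk x z) (ContinuousLinearMap.single ℝ (fun _ : Fin 2 => R3) 1) y := by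
  have h : (fun z : R3 => mk x z) =
      fun z => ContinuousLinearMap.single ℝ (fun _ : Fin 2 => R3) 1 z + mk x 0 := by
    funext z i; fin_cases i <;> simp [mk]
  rw [h]
  exact (ContinuousLinearMap.hasFDerivAt _).add_const _

lemma measurePreserving_swap : MeasurePreserving (fun X : C2 => fun i => X (Equiv.swap 0 1 i)) := by
  have h := (measurePreserving_mk.comp Measure.measurePreserving_swap).comp
    (volume_preserving_finTwoArrow R3)
  have e : (fun X : C2 => fun i => X (Equiv.swap 0 1 i)) =
      ((fun p : R3 × R3 => mk p.1 p.2) ∘ Prod.swap) ∘ MeasurableEquiv.finTwoArrow := by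
    funext X i
    fin_cases i <;> simp [mk]
  rw [e]
  exact h

/-- The unit vector of `ℝ³` along the axis `k`. -/
def axis (k : Fin 3) : R3 := EuclideanSpace.single k 1

/-- Directional derivative in `ℝ³`. -/
def pd1 (k : Fin 3) (w : R3 → ℝ) (x : R3) : ℝ := fderiv ℝ w x (axis k)

lemma dir_eq (i : Fin 2) (k : Fin 3) :
    dir i k = ContinuousLinearMap.single ℝ (fun _ : Fin 2 => R3) i (axis k) := rfl

lemma pd1_slice_left {p : C2 → ℝ} (hp : Differentiable ℝ p) (k : Fin 3) (x y : R3) :
    pd1 k (fun z => p (mk z y)) x = pd 0 k p (mk x y) := by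
  have h := (hp (mk x y)).hasFDerivAt.comp x (hasFDerivAt_mk_left x y)
  rw [pd1, show fderiv ℝ (fun z => p (mk z y)) x = _ from h.fderiv]
  rfl

lemma pd1_slice_right {p : C2 → ℝ} (hp : Differentiable ℝ p) (k : Fin 3) (x y : R3) :
    pd1 k (fun z => p (mk x z)) y = pd 1 k p (mk x y) := by
  have h := (hp (mk x y)).hasFDerivAt.comp y (hasFDerivAt_mk_right x y)
  rw [pd1, show fderiv ℝ (fun z => p (mk x z)) y = _ from h.fderiv]
  rfl

end Vale.Agent.P363.Two
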