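import Vale.Agent.P363.Two.Amplitude
import Vale.Agent.P363.Two.MollLim

/-!
The noninteracting side: a one-body potential with a nonnegative form gives a nonnegative
two-electron form, and the doubly occupied orbital is in the form domain.
-/

noncomputable section

open MeasureTheory Set Filter Topology
open scoped ENNReal

namespace Vale.Agent.P363.Two

variable {M : ℕ} {R : Fin M → R3}

/-- The real two-electron form of a one-body potential. -/
def qtwo (v : R3 → ℝ) (f : C2 → ℝ) (H : Fin 2 → Fin 3 → C2 → ℝ) : ℝ :=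
  (∑ i, ∑ k, (1 / 2 : ℝ) * ∫ X, H i k X ^ 2) + ∫ X, sumPot v X * f X ^ 2

lemma sumPot_two (v : R3 → ℝ) (X : C2) : sumPot v X = v (X 0) + v (X 1) := by
  simp [sumPot, Fin.sum_univ_two]

lemma abs_sumPot_le {v : R3 → ℝ} {K : ℝ} (hb : ∀ x, |v x| ≤ K * U R x) (hK : 0 ≤ K) (X : C2) :
    |sumPot v X| ≤ 2 * K * wmaj R X := by
  rw [sumPot_two]
  refine (abs_add_le _ _).trans ?_
  have h0 := (hb (X 0)).trans (mul_le_mul_of_nonneg_left (U_le_wmaj_zero X) hK)
  have h1 := (hb (X 1)).trans (mul_le_mul_of_nonneg_left (U_le_wmaj_one X) hK)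
  linarith

lemma measurable_sumPot {v : R3 → ℝ} (hm : Measurable v) : Measurable (sumPot (N := 2) v) :=
  Finset.measurable_sum _ fun i _ => hm.comp (measurable_pi_apply i)

/-- Both marginal forms of a smooth function are nonnegative. -/
lemma qtwo_smooth_nonneg {v : R3 → ℝ} (hm : Measurable v) {K : ℝ} (hK : 0 ≤ K)
    (hb : ∀ x, |v x| ≤ K * U R x)
    (hnn : ∀ w : R3 → ℝ, ContDiff ℝ 1 w → MemLp w 2 → (∀ k, MemLp (pd1 k w) 2) →
      (Integrable fun x => v x * w x ^ 2) ∧ 0 ≤ qone v w)
    {f : C2 → ℝ} (hf : ContDiff ℝ 1 f) (hf2 : MemLp f 2)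
    (hfd : ∀ i k, MemLp (pd i k f) 2) (hW : Integrable fun X => wmaj R X * f X ^ 2) :
    0 ≤ qtwo v f fun i k => pd i k f := by
  have hVi : ∀ i : Fin 2, Integrable fun X : C2 => v (X i) * f X ^ 2 := fun i => by
    refine (hW.const_mul K).mono'
      ((hm.comp (measurable_pi_apply i)).aestronglyMeasurable.mul
        (hf.continuous.pow 2).aestronglyMeasurable) (Eventually.of_forall fun X => ?_)
    rw [Real.norm_eq_abs, abs_mul, abs_sq, ← mul_assoc]
    refine mul_le_mul_of_nonneg_right ((hb (X i)).trans (mul_le_mul_of_nonneg_left ?_ hK))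
      (sq_nonneg _)
    fin_cases i
    · exact U_le_wmaj_zero X
    · exact U_le_wmaj_one X
  have hcd : ∀ i k, Continuous (pd i k f) := fun i k =>
    (hf.continuous_fderiv one_ne_zero).clm_apply continuous_const
  have key : ∀ i : Fin 2, 0 ≤
      ∫ X, ((∑ k, (1 / 2 : ℝ) * pd i k f X ^ 2) + v (X i) * f X ^ 2) := fun i => by
    have hint : Integrable fun X : C2 =>
        (∑ k, (1 / 2 : ℝ) * pd i k f X ^ 2) + v (X i) * f X ^ 2 :=
      (integrable_finsetSum _ fun k _ => (hfd i k).integrable_sq.const_mul _).add (hVi i)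
    rw [← integral_mk_prod]
    rcases Fin.eq_zero_or_eq_succ i with rfl | ⟨j, rfl⟩
    · rw [Measure.volume_eq_prod, integral_prod_symm _ (integrable_mk_iff.2 hint)]
      refine integral_nonneg_of_ae ?_
      have a1 : ∀ᵐ y : R3, Integrable fun x => f (mk x y) ^ 2 :=
        (integrable_mk_iff.2 hf2.integrable_sq).prod_left_ae
      have a2 : ∀ᵐ y : R3, ∀ k, Integrable fun x => pd 0 k f (mk x y) ^ 2 :=
        ae_all_iff.2 fun k => (integrable_mk_iff.2 (hfd 0 k).integrable_sq).prod_left_ae
      filter_upwards [a1, a2] with y h1 h2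
      set w : R3 → ℝ := fun x => f (mk x y)
      have hd : ∀ x k, pd 0 k f (mk x y) = pd1 k w x := fun x k =>
        (pd1_slice_left (hf.differentiable one_ne_zero) k x y).symm
      have hw : ContDiff ℝ 1 w := hf.comp (contDiff_pi.2 fun l => by
        fin_cases l <;> simp [mk] <;> fun_prop)
      have := (hnn w hw ((memLp_two_iff_integrable_sq hw.continuous.aestronglyMeasurable).2 h1)
        fun k => (memLp_two_iff_integrable_sq (((hw.continuous_fderiv one_ne_zero).clm_apply
          continuous_const).aestronglyMeasurable)).2 (by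
            have e : (fun x => pd1 k w x ^ 2) = fun x => pd 0 k f (mk x y) ^ 2 := by
              funext x; rw [hd]
            change Integrable fun x => pd1 k w x ^ 2
            rw [e]; exact h2 k)).2
      simpa [qone, hd, w] using this
    · obtain rfl : j = 0 := Subsingleton.elim _ _
      rw [Measure.volume_eq_prod, integral_prod _ (integrable_mk_iff.2 hint)]
      refine integral_nonneg_of_ae ?_
      have a1 : ∀ᵐ x : R3, Integrable fun y => f (mk x y) ^ 2 := slice_integrable hf2.integrable_sq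
      have a2 : ∀ᵐ x : R3, ∀ k, Integrable fun y => pd 1 k f (mk x y) ^ 2 :=
        ae_all_iff.2 fun k => slice_integrable (hfd 1 k).integrable_sq
      filter_upwards [a1, a2] with x h1 h2
      set w : R3 → ℝ := fun y => f (mk x y)
      have hd : ∀ y k, pd 1 k f (mk x y) = pd1 k w y := fun y k =>
        (pd1_slice_right (hf.differentiable one_ne_zero) k x y).symm
      have hw : ContDiff ℝ 1 w := hf.comp (contDiff_pi.2 fun l => by
        fin_cases l <;> simp [mk] <;> fun_prop)
      have := (hnn w hw ((memLp_two_iff_integrable_sq hw.continuous.aestronglyMeasurable).2 h1)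
        fun k => (memLp_two_iff_integrable_sq (((hw.continuous_fderiv one_ne_zero).clm_apply
          continuous_const).aestronglyMeasurable)).2 (by
            have e : (fun y => pd1 k w y ^ 2) = fun y => pd 1 k f (mk x y) ^ 2 := by
              funext y; rw [hd]
            change Integrable fun y => pd1 k w y ^ 2
            rw [e]; exact h2 k)).2
      simpa [qone, hd, w] using this
  have h := add_nonneg (key 0) (key 1)
  have e1 : ∀ i : Fin 2, ∫ X, ((∑ k, (1 / 2 : ℝ) * pd i k f X ^ 2) + v (X i) * f X ^ 2) =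
      (∑ k, (1 / 2 : ℝ) * ∫ X, pd i k f X ^ 2) + ∫ X : C2, v (X i) * f X ^ 2 := fun i => by
    rw [integral_add (integrable_finsetSum _ fun k _ => (hfd i k).integrable_sq.const_mul _) (hVi i),
      integral_finsetSum _ fun k _ => (hfd i k).integrable_sq.const_mul _]
    simp only [integral_const_mul]
  have e2 : ∫ X : C2, sumPot v X * f X ^ 2 =
      (∫ X : C2, v (X 0) * f X ^ 2) + ∫ X : C2, v (X 1) * f X ^ 2 := by
    rw [← integral_add (hVi 0) (hVi 1)]
    simp only [sumPot_two, add_mul]
  rw [e1, e1] at h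
  simp only [qtwo, Fin.sum_univ_two, e2]
  linarith

/-- The two-electron form is nonnegative on all of `H¹`. -/
theorem qtwo_nonneg {v : R3 → ℝ} (hm : Measurable v) {K : ℝ} (hK : 0 ≤ K)
    (hb : ∀ x, |v x| ≤ K * U R x)
    (hnn : ∀ w : R3 → ℝ, ContDiff ℝ 1 w → MemLp w 2 → (∀ k, MemLp (pd1 k w) 2) →
      (Integrable fun x => v x * w x ^ 2) ∧ 0 ≤ qone v w)
    {f : C2 → ℝ} {H : Fin 2 → Fin 3 → C2 → ℝ} (hf : InH1 f H) : 0 ≤ qtwo v f H := by
  obtain ⟨hW, hmoll⟩ := mollPin M R f H hf.memLp hf.memLpGrad hf.weak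
  obtain ⟨hl0, hl1⟩ := mollLimPin M R f H hf.memLp hf.memLpGrad hf.weak
  set p : ℕ → C2 → ℝ := fun n => moll (scale n) f
  have hp1 : ∀ n, ContDiff ℝ 1 (p n) := fun n => (hmoll n).1.of_le (mod_cast le_top)
  have hn : ∀ n, 0 ≤ qtwo v (p n) fun i k => pd i k (p n) := fun n =>
    qtwo_smooth_nonneg hm hK hb hnn (hp1 n) (hmoll n).2.1 (fun i k => ((hmoll n).2.2.1 i k).1)
      (hmoll n).2.2.2
  refine ge_of_tendsto' (x := atTop) ?_ hn
  refine Tendsto.add (tendsto_finsetSum _ fun i _ => tendsto_finsetSum _ fun k _ => ?_) ?_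
  · refine Tendsto.const_mul _ ?_
    have := tendsto_weighted_sq (μ := (volume : Measure C2)) (g := fun _ => (1 : ℝ))
      (s := fun _ => (1 : ℝ)) (fn := fun n => pd i k (p n)) (f := H i k) (fun _ => zero_le_one)
      (fun _ => abs_one.le) aestronglyMeasurable_const (hf.memLpGrad i k).aestronglyMeasurable
      (fun n => ((hmoll n).2.2.1 i k).1.aestronglyMeasurable)
      (by simpa using (hf.memLpGrad i k).integrable_sq)
      (fun n => by simpa using ((hmoll n).2.2.1 i k).1.integrable_sq)
      (by simpa [p, fun n X => ((hmoll n).2.2.1 i k).2 X] using hl1 i k) aestronglyMeasurable_const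
    simpa using this
  · refine tendsto_weighted_sq (g := fun X => 2 * K * wmaj R X)
      (fun X => mul_nonneg (by positivity) (wmaj_nonneg X)) (abs_sumPot_le hb hK)
      (measurable_sumPot hm).aestronglyMeasurable hf.memLp.aestronglyMeasurable
      (fun n => (hmoll n).2.1.aestronglyMeasurable)
      (by simpa [mul_assoc] using hW.const_mul (2 * K))
      (fun n => by simpa [mul_assoc] using (hmoll n).2.2.2.const_mul (2 * K)) ?_
      (measurable_majorant.aestronglyMeasurable.const_mul _)
    simpa [mul_assoc, integral_const_mul] using hl0.const_mul (2 * K)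

/-! ### Products of orbitals -/

lemma memLp_prod {a b : R3 → ℝ} (ha : MemLp a 2) (hb : MemLp b 2) :
    MemLp (fun X : C2 => a (X 0) * b (X 1)) 2 := by
  have h : Integrable fun p : R3 × R3 => a p.1 ^ 2 * b p.2 ^ 2 :=
    ha.integrable_sq.mul_prod hb.integrable_sq
  have hm : AEStronglyMeasurable fun X : C2 => a (X 0) * b (X 1) :=
    (ha.aestronglyMeasurable.comp_quasiMeasurePreserving
      (Measure.quasiMeasurePreserving_eval _ 0)).mul
      (hb.aestronglyMeasurable.comp_quasiMeasurePreserving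
        (Measure.quasiMeasurePreserving_eval _ 1))
  refine (memLp_two_iff_integrable_sq hm).2 (integrable_mk_iff.1 ?_)
  simpa [mul_pow] using h

lemma integral_prod_orb (a b : R3 → ℝ) :
    ∫ X : C2, a (X 0) * b (X 1) = (∫ x, a x) * ∫ y, b y := by
  rw [← integral_mk_prod]
  exact integral_prod_mul a b

lemma isTest_slice_left {η : C2 → ℝ} (hη : IsTest η) (y : R3) : IsTest fun x => η (mk x y) := by
  refine ⟨hη.1.comp (contDiff_pi.2 fun l => by fin_cases l <;> simp [mk] <;> fun_prop), ?_⟩
  refine HasCompactSupport.intro (hη.2.isCompact.image (continuous_apply 0)) fun x hx => ?_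
  exact image_eq_zero_of_notMem_tsupport fun h => hx ⟨mk x y, h, rfl⟩

lemma isTest_slice_right {η : C2 → ℝ} (hη : IsTest η) (x : R3) : IsTest fun y => η (mk x y) := by
  refine ⟨hη.1.comp (contDiff_pi.2 fun l => by fin_cases l <;> simp [mk] <;> fun_prop), ?_⟩
  refine HasCompactSupport.intro (hη.2.isCompact.image (continuous_apply 1)) fun y hy => ?_
  exact image_eq_zero_of_notMem_tsupport fun h => hy ⟨mk x y, h, rfl⟩

/-- The gradient of `φ(x) φ(y)`. -/
def orbGrad (φ : R3 → ℝ) (D : Fin 3 → R3 → ℝ) (i : Fin 2) (k : Fin 3) (X : C2) : ℝ :=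
  if i = 0 then D k (X 0) * φ (X 1) else φ (X 0) * D k (X 1)

lemma inH1_orb {φ : R3 → ℝ} {D : Fin 3 → R3 → ℝ} (hφ : MemLp φ 2) (hD : ∀ k, MemLp (D k) 2)
    (hw : ∀ k, WeakDeriv (axis k) φ (D k)) :
    InH1 (fun X : C2 => φ (X 0) * φ (X 1)) (orbGrad φ D) := by
  have hP := memLp_prod hφ hφ
  refine ⟨hP, fun i k => ?_, fun i k η hη => ?_⟩
  · rcases Fin.eq_zero_or_eq_succ i with rfl | ⟨j, rfl⟩
    · exact memLp_prod (hD k) hφ
    · obtain rfl : j = 0 := Subsingleton.elim _ _
      exact memLp_prod hφ (hD k)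
  have hη1 : ContDiff ℝ 1 η := hη.1.of_le (mod_cast le_top)
  have cη : Continuous fun X => fderiv ℝ η X (dir i k) :=
    (hη1.continuous_fderiv one_ne_zero).clm_apply continuous_const
  have i1 : Integrable fun X => fderiv ℝ η X (dir i k) * (φ (X 0) * φ (X 1)) :=
    integrable_test_mul cη (hη.2.fderiv_apply ℝ (dir i k)) (locInt_of_memLp hP)
  simp only [smul_eq_mul]
  rcases Fin.eq_zero_or_eq_succ i with rfl | ⟨j, rfl⟩
  · have i2 : Integrable fun X : C2 => η X * orbGrad φ D 0 k X :=
      integrable_test_mul hη1.continuous hη.2 (locInt_of_memLp (memLp_prod (hD k) hφ))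
    rw [← integral_mk_prod, ← integral_mk_prod (fun X => η X * _), Measure.volume_eq_prod,
      integral_prod_symm _ (integrable_mk_iff.2 i1), integral_prod_symm _ (integrable_mk_iff.2 i2),
      ← integral_neg]
    refine integral_congr_ae (Eventually.of_forall fun y => ?_)
    have h := hw k _ (isTest_slice_left hη y)
    simp only [smul_eq_mul] at h
    have e : ∀ x, fderiv ℝ (fun z => η (mk z y)) x (axis k) = fderiv ℝ η (mk x y) (dir 0 k) :=
      fun x => pd1_slice_left (hη1.differentiable one_ne_zero) k x y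
    simp only [e] at h
    simp only [mk_zero, mk_one, orbGrad, if_pos]
    calc ∫ x, fderiv ℝ η (mk x y) (dir 0 k) * (φ x * φ y)
        = (∫ x, fderiv ℝ η (mk x y) (dir 0 k) * φ x) * φ y := by
          rw [← integral_mul_const]; simp [mul_assoc]
      _ = -∫ x, η (mk x y) * (D k x * φ y) := by
          rw [h, neg_mul, ← integral_mul_const]; simp [mul_assoc]
  · obtain rfl : j = 0 := Subsingleton.elim _ _
    simp only [Fin.succ_zero_eq_one] at i1 ⊢
    have i2 : Integrable fun X : C2 => η X * orbGrad φ D 1 k X :=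
      integrable_test_mul hη1.continuous hη.2 (locInt_of_memLp (memLp_prod hφ (hD k)))
    rw [← integral_mk_prod, ← integral_mk_prod (fun X => η X * _), Measure.volume_eq_prod,
      integral_prod _ (integrable_mk_iff.2 i1), integral_prod _ (integrable_mk_iff.2 i2),
      ← integral_neg]
    refine integral_congr_ae (Eventually.of_forall fun x => ?_)
    have h := hw k _ (isTest_slice_right hη x)
    simp only [smul_eq_mul] at h
    have e : ∀ y, fderiv ℝ (fun z => η (mk x z)) y (axis k) = fderiv ℝ η (mk x y) (dir 1 k) :=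
      fun y => pd1_slice_right (hη1.differentiable one_ne_zero) k x y
    simp only [e] at h
    simp only [mk_zero, mk_one, orbGrad, Fin.reduceEq, if_false]
    calc ∫ y, fderiv ℝ η (mk x y) (dir 1 k) * (φ x * φ y)
        = φ x * ∫ y, fderiv ℝ η (mk x y) (dir 1 k) * φ y := by
          rw [← integral_const_mul]; simp [mul_left_comm]
      _ = -∫ y, η (mk x y) * (φ x * D k y) := by
          rw [h, mul_neg, ← integral_const_mul]; simp [mul_left_comm]

/-- The form of the doubly occupied orbital. -/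
lemma qtwo_orb {v φ : R3 → ℝ} {D : Fin 3 → R3 → ℝ} {ψ : C2 → ℝ}
    (h : OneBody R ψ v φ D) (hn : ∫ x, φ x ^ 2 = 1) :
    (Integrable fun X : C2 => sumPot v X * (φ (X 0) * φ (X 1)) ^ 2) ∧
      qtwo v (fun X => φ (X 0) * φ (X 1)) (orbGrad φ D) = 0 := by
  have hp2 := h.memLp.integrable_sq
  have i0 : Integrable fun X : C2 => v (X 0) * φ (X 0) ^ 2 * φ (X 1) ^ 2 :=
    integrable_mk_iff.1 (by simpa using! h.potential.mul_prod hp2)
  have i1 : Integrable fun X : C2 => φ (X 0) ^ 2 * (v (X 1) * φ (X 1) ^ 2) :=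
    integrable_mk_iff.1 (by simpa using! hp2.mul_prod h.potential)
  have e : ∀ X : C2, sumPot v X * (φ (X 0) * φ (X 1)) ^ 2 =
      v (X 0) * φ (X 0) ^ 2 * φ (X 1) ^ 2 + φ (X 0) ^ 2 * (v (X 1) * φ (X 1) ^ 2) := fun X => by
    rw [sumPot_two]; ring
  refine ⟨(i0.add i1).congr (Eventually.of_forall fun X => (e X).symm), ?_⟩
  have g0 : ∀ k, ∫ X : C2, (D k (X 0) * φ (X 1)) ^ 2 = ∫ x, D k x ^ 2 := fun k => by
    simp only [mul_pow]
    rw [integral_prod_orb (fun x => D k x ^ 2) (fun x => φ x ^ 2), hn, mul_one]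
  have g1 : ∀ k, ∫ X : C2, (φ (X 0) * D k (X 1)) ^ 2 = ∫ x, D k x ^ 2 := fun k => by
    simp only [mul_pow]
    rw [integral_prod_orb (fun x => φ x ^ 2) (fun x => D k x ^ 2), hn, one_mul]
  have hz := h.zero
  rw [integral_add (integrable_finsetSum _ fun k _ => (h.memLpGrad k).integrable_sq.const_mul _)
    h.potential, integral_finsetSum _ fun k _ => (h.memLpGrad k).integrable_sq.const_mul _] at hz
  simp only [integral_const_mul] at hz
  simp only [qtwo, e, integral_add i0 i1, integral_prod_orb (fun x => v x * φ x ^ 2) (fun x => φ x ^ 2),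
    integral_prod_orb (fun x => φ x ^ 2) (fun x => v x * φ x ^ 2), hn, Fin.sum_univ_two, orbGrad,
    if_true, Fin.reduceEq, if_false, g0, g1, mul_one, one_mul]
  linarith

end Vale.Agent.P363.Two
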