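import Vale.Agent.P363.Two.Pair
import Vale.Agent.P363.Two.Pins

/-!
Integrals over one electron of functions controlled by a slowly varying function.
-/

noncomputable section

open MeasureTheory Set Filter Topology Metric
open scoped ENNReal

namespace Vale.Agent.P363.Two

variable {M : ℕ} {Z : Fin M → ℕ} {R : Fin M → R3} {e δ C : ℝ} {u A : C2 → ℝ}

lemma molecule_eq_pot2 (X : C2) : molecule Z R X = pot2 Z R X := by
  have h0 : Finset.univ.filter (fun l : Fin 2 => (0 : Fin 2) < l) = {1} := by decide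
  have h1 : Finset.univ.filter (fun l : Fin 2 => (1 : Fin 2) < l) = ∅ := by decide
  simp [molecule, pot2, Fin.sum_univ_two, h0, h1]
  ring

/-- The one-body weight. -/
def U (R : Fin M → R3) (x : R3) : ℝ := 1 + ∑ j, ‖x - R j‖⁻¹

lemma one_le_U (x : R3) : 1 ≤ U R x := le_add_of_nonneg_right (by positivity)

lemma measurable_U : Measurable (U R) := by unfold U; fun_prop

lemma one_le_majorant (X : C2) : 1 ≤ wmaj R X := by
  have h1 : (0 : ℝ) ≤ ∑ j, (‖X 0 - R j‖⁻¹ + ‖X 1 - R j‖⁻¹) := by positivity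
  have h2 : (0 : ℝ) ≤ ‖X 0 - X 1‖⁻¹ := by positivity
  rw [wmaj]; linarith

lemma wmaj_nonneg (X : C2) : 0 ≤ wmaj R X := zero_le_one.trans (one_le_majorant X)

lemma measurable_majorant : Measurable (wmaj R) := by unfold wmaj; fun_prop

lemma measurable_pot2 : Measurable (pot2 Z R) := by unfold pot2; fun_prop

lemma wmaj_mk (x y : R3) :
    wmaj R (mk x y) = U R x + (∑ j, ‖y - R j‖⁻¹) + ‖y - x‖⁻¹ := by
  simp [wmaj, U, Finset.sum_add_distrib, norm_sub_rev x y]; ring

lemma U_le_wmaj_zero (X : C2) : U R (X 0) ≤ wmaj R X := by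
  conv_rhs => rw [eq_mk X, wmaj_mk]
  have h1 : (0 : ℝ) ≤ ∑ j, ‖X 1 - R j‖⁻¹ := by positivity
  have h2 : (0 : ℝ) ≤ ‖X 1 - X 0‖⁻¹ := by positivity
  linarith

lemma U_le_wmaj_one (X : C2) : U R (X 1) ≤ wmaj R X := by
  have h1 : (0 : ℝ) ≤ ∑ j, ‖X 0 - R j‖⁻¹ := by positivity
  have h2 : (0 : ℝ) ≤ ‖X 0 - X 1‖⁻¹ := by positivity
  simp only [U, wmaj, Finset.sum_add_distrib]; linarith

lemma pot2_majorant :
    ∃ K, 0 < K ∧ ∀ X : C2, |pot2 Z R X - e| ≤ K * wmaj R X := by
  set K : ℝ := |e| + (∑ j, (Z j : ℝ)) + 1 with hK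
  have hZ : ∀ j, (Z j : ℝ) ≤ K := fun j => by
    have h1 : (Z j : ℝ) ≤ ∑ l, (Z l : ℝ) :=
      Finset.single_le_sum (f := fun l => (Z l : ℝ)) (fun l _ => Nat.cast_nonneg _) (Finset.mem_univ j)
    have := abs_nonneg e
    linarith
  have hK1 : 1 ≤ K := by
    have h1 : (0 : ℝ) ≤ ∑ j, (Z j : ℝ) := by positivity
    have := abs_nonneg e
    linarith
  have he : |e| ≤ K := by
    have h1 : (0 : ℝ) ≤ ∑ j, (Z j : ℝ) := by positivity
    linarith
  refine ⟨K, zero_lt_one.trans_le hK1, fun X => ?_⟩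
  have hb : ∀ i : Fin 2, |∑ j, (Z j : ℝ) / ‖X i - R j‖| ≤ K * ∑ j, ‖X i - R j‖⁻¹ := fun i => by
    rw [abs_of_nonneg (by positivity), Finset.mul_sum]
    exact Finset.sum_le_sum fun j _ => by
      rw [div_eq_mul_inv]; exact mul_le_mul_of_nonneg_right (hZ j) (by positivity)
  have hc : |1 / ‖X 0 - X 1‖| ≤ K * ‖X 0 - X 1‖⁻¹ := by
    rw [abs_of_nonneg (by positivity), one_div]
    exact le_mul_of_one_le_left (by positivity) hK1
  have h0 := hb 0
  have h1 := hb 1
  simp only [pot2, wmaj, Finset.sum_add_distrib, mul_add, mul_one]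
  rw [abs_le] at h0 h1 hc he ⊢
  constructor <;> linarith

lemma sing_sq_le : ∃ K, 0 < K ∧ ∀ X : C2, sing R X ^ 2 ≤ K * wmaj R X := by
  have hp : ∀ r : ℝ, 0 ≤ r → (r ^ (-(2 / 5 : ℝ))) ^ 2 ≤ 1 + r⁻¹ := by
    intro r hr
    rw [← Real.rpow_natCast (r ^ (-(2 / 5 : ℝ))) 2, ← Real.rpow_mul hr]
    rcases hr.eq_or_lt with rfl | hr
    · rw [Real.zero_rpow (by norm_num)]; simp
    rcases le_total r 1 with h | h
    · have h2 := Real.rpow_le_rpow_of_exponent_ge hr h
        (show (-1 : ℝ) ≤ -(2 / 5 : ℝ) * ((2 : ℕ) : ℝ) by norm_num)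
      rw [Real.rpow_neg_one] at h2
      linarith
    · exact (Real.rpow_le_one_of_one_le_of_nonpos h (by norm_num)).trans
        (le_add_of_nonneg_right (by positivity))
  refine ⟨6 + 12 * (M : ℝ) ^ 2 + 6 * (M : ℝ), by positivity, fun X => ?_⟩
  set a : Fin M → ℝ := fun j => ‖X 0 - R j‖ ^ (-(2 / 5 : ℝ))
  set b : Fin M → ℝ := fun j => ‖X 1 - R j‖ ^ (-(2 / 5 : ℝ))
  set c : ℝ := ‖X 0 - X 1‖ ^ (-(2 / 5 : ℝ))
  have hs : (∑ j, (a j + b j)) ^ 2 ≤
      2 * (M : ℝ) * ∑ j, ((1 + ‖X 0 - R j‖⁻¹) + (1 + ‖X 1 - R j‖⁻¹)) := by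
    have h := sq_sum_le_card_mul_sum_sq (s := Finset.univ) (f := fun j => a j + b j)
    simp only [Finset.card_univ, Fintype.card_fin] at h
    refine h.trans ?_
    rw [mul_comm (2 : ℝ), mul_assoc, Finset.mul_sum _ _ (2 : ℝ)]
    refine mul_le_mul_of_nonneg_left (Finset.sum_le_sum fun j _ => ?_) (Nat.cast_nonneg M)
    have ha : a j ^ 2 ≤ _ := hp _ (norm_nonneg (X 0 - R j))
    have hb : b j ^ 2 ≤ _ := hp _ (norm_nonneg (X 1 - R j))
    nlinarith [sq_nonneg (a j - b j)]
  have hc : c ^ 2 ≤ 1 + ‖X 0 - X 1‖⁻¹ := hp _ (norm_nonneg _)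
  have e1 : sing R X = 1 + (∑ j, (a j + b j)) + c := rfl
  simp only [Finset.sum_add_distrib, Finset.sum_const, Finset.card_univ, Fintype.card_fin,
    nsmul_eq_mul, mul_one] at hs
  rw [e1]
  have h3 : (1 + (∑ j, (a j + b j)) + c) ^ 2 ≤ 3 * (1 + (∑ j, (a j + b j)) ^ 2 + c ^ 2) := by
    nlinarith [sq_nonneg (1 - ∑ j, (a j + b j)), sq_nonneg (1 - c),
      sq_nonneg ((∑ j, (a j + b j)) - c)]
  have n1 : (0 : ℝ) ≤ ∑ j, ‖X 0 - R j‖⁻¹ := by positivity
  have n2 : (0 : ℝ) ≤ ∑ j, ‖X 1 - R j‖⁻¹ := by positivity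
  have n3 : (0 : ℝ) ≤ ‖X 0 - X 1‖⁻¹ := by positivity
  simp only [wmaj, Finset.sum_add_distrib] at h3 ⊢
  nlinarith [mul_nonneg (Nat.cast_nonneg M : (0 : ℝ) ≤ M) n1,
    mul_nonneg (Nat.cast_nonneg M : (0 : ℝ) ≤ M) n2, mul_nonneg (Nat.cast_nonneg M : (0 : ℝ) ≤ M) n3,
    mul_nonneg (sq_nonneg (M : ℝ)) n1, mul_nonneg (sq_nonneg (M : ℝ)) n2,
    mul_nonneg (sq_nonneg (M : ℝ)) n3]

lemma integrableOn_inv_dist (c : R3) (r : ℝ) :
    IntegrableOn (fun y : R3 => ‖y - c‖⁻¹) (ball c r) := by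
  have h0 : IntegrableOn (fun y : R3 => ‖y‖⁻¹) (ball 0 r) := by
    refine (integrableOn_fun_norm_addHaar volume (f := fun s : ℝ => s⁻¹)).2 ?_
    have : Module.finrank ℝ R3 = 3 := by simp
    rw [this]
    refine ((continuous_id.integrableOn_Icc (a := (0 : ℝ)) (b := r)).mono_set Ioo_subset_Icc_self
      ).congr_fun (fun s hs => ?_) measurableSet_Ioo
    have h1 : s ≠ 0 := hs.1.ne'
    simp [smul_eq_mul]; field_simp
  have hp := (measurePreserving_sub_right volume c).integrableOn_comp_preimage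
    (MeasurableEquiv.subRight c).measurableEmbedding (f := fun y : R3 => ‖y‖⁻¹) (s := ball 0 r)
  refine (hp.2 h0).congr_set_ae (Eventually.of_forall ?_) |>.congr_fun (fun y _ => rfl)
    measurableSet_ball
  intro y
  exact propext (by
    change dist y c < r ↔ dist (y - c) 0 < r
    rw [dist_zero_right, dist_eq_norm])

/-- The mass of the slice through `x` of the slowly varying function. -/
def slice (A : C2 → ℝ) (x : R3) : ℝ := ∫ y, A (mk x y) ^ 2

variable (hu : IsSol Z R e u) (hA : Controlled R δ C u A) (hC : 0 < C) (hδ : 0 < δ)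
include hu hA hC hδ

omit hδ in
lemma integrable_A_sq : Integrable fun X => A X ^ 2 := by
  refine (hu.memLp.integrable_sq.const_mul (C ^ 2)).mono'
    (hA.measurable.pow_const 2).aestronglyMeasurable ?_
  filter_upwards [hA.lower] with X hX
  rw [Real.norm_eq_abs, abs_of_nonneg (sq_nonneg _), ← mul_pow]
  exact pow_le_pow_left₀ (hA.nonneg X) hX 2

lemma slice_sq_integrable (x : R3) : Integrable fun y => A (mk x y) ^ 2 := by
  obtain ⟨x', hx', hd⟩ : ∃ x', (Integrable fun y => A (mk x' y) ^ 2) ∧ x' ∈ ball x δ := by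
    have h := slice_integrable (integrable_A_sq hu hA hC)
    by_contra hne
    push Not at hne
    have : ball x δ ⊆ {x' | ¬ Integrable fun y => A (mk x' y) ^ 2} := fun z hz hi => hne z hi hz
    exact (measure_ball_pos volume x hδ).ne' (measure_mono_null this (ae_iff.1 h))
  refine (hx'.const_mul (C ^ 2)).mono'
    ((hA.measurable.comp (continuous_mk_right x).measurable).pow_const 2).aestronglyMeasurable
    (Eventually.of_forall fun y => ?_)
  rw [Real.norm_eq_abs, abs_of_nonneg (sq_nonneg _), ← mul_pow]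
  refine pow_le_pow_left₀ (hA.nonneg _) (hA.step _ _ ((dist_mk_left x' x y).trans ?_)) 2
  exact (mem_ball.1 hd).le

lemma slice_step {x x' : R3} (h : dist x x' ≤ δ) : slice A x' ≤ C ^ 2 * slice A x := by
  rw [slice, slice, ← integral_const_mul]
  refine integral_mono (slice_sq_integrable hu hA hC hδ x')
    ((slice_sq_integrable hu hA hC hδ x).const_mul _) fun y => ?_
  rw [← mul_pow]
  exact pow_le_pow_left₀ (hA.nonneg _) (hA.step _ _ ((dist_mk_left x x' y).trans h)) 2

omit hu hA hC hδ in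
lemma slice_nonneg (A : C2 → ℝ) (x : R3) : 0 ≤ slice A x :=
  integral_nonneg fun _ => sq_nonneg _

lemma slice_pos (hpos : ∀ X, 0 < A X) (x : R3) : 0 < slice A x := by
  refine (integral_pos_iff_support_of_nonneg (fun y => sq_nonneg _)
    (slice_sq_integrable hu hA hC hδ x)).2 ?_
  have : (Function.support fun y => A (mk x y) ^ 2) = univ :=
    eq_univ_of_forall fun y => (pow_pos (hpos _) 2).ne'
  rw [this]
  simp

omit hδ in
lemma integrable_slice : Integrable (slice A) :=
  integrable_slice_integral (integrable_A_sq hu hA hC)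

lemma slice_inv_bound :
    ∃ K, 0 < K ∧ ∀ x c : R3, (Integrable fun y => A (mk x y) ^ 2 * ‖y - c‖⁻¹) ∧
      ∫ y, A (mk x y) ^ 2 * ‖y - c‖⁻¹ ≤ K * slice A x := by
  set r := δ / 2 with hr
  have hr0 : 0 < r := by positivity
  set J := ∫ y in ball (0 : R3) r, ‖y - 0‖⁻¹ with hJ
  set m := (volume (ball (0 : R3) r)).toReal with hm
  have hm0 : 0 < m :=
    ENNReal.toReal_pos (measure_ball_pos volume _ hr0).ne' measure_ball_lt_top.ne
  have hJ0 : 0 ≤ J := integral_nonneg fun _ => by positivity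
  refine ⟨C ^ 2 / m * J + r⁻¹, add_pos_of_nonneg_of_pos (by positivity) (by positivity),
    fun x c => ?_⟩
  have hi := slice_sq_integrable hu hA hC hδ x
  have hball : ∀ y ∈ ball c r, A (mk x y) ^ 2 ≤ C ^ 2 / m * slice A x := by
    intro y hy
    have hmc : (volume (ball c r)).toReal = m := by rw [hm, Measure.addHaar_ball_center]
    have h1 : m * A (mk x y) ^ 2 ≤ C ^ 2 * slice A x := by
      calc m * A (mk x y) ^ 2 = ∫ _ in ball c r, A (mk x y) ^ 2 := by
            rw [setIntegral_const, smul_eq_mul, Measure.real, hmc]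
        _ ≤ ∫ z in ball c r, C ^ 2 * A (mk x z) ^ 2 := by
            refine setIntegral_mono_on (integrableOn_const measure_ball_lt_top.ne)
              (hi.const_mul _).integrableOn measurableSet_ball fun z hz => ?_
            rw [← mul_pow]
            refine pow_le_pow_left₀ (hA.nonneg _)
              (hA.step _ _ ((dist_mk_right x z y).trans ?_)) 2
            have h2 := dist_triangle_right z y c
            rw [mem_ball] at hy hz
            linarith
        _ ≤ C ^ 2 * slice A x := by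
            rw [slice, ← integral_const_mul]
            exact setIntegral_le_integral (hi.const_mul _)
              (Eventually.of_forall fun z => by positivity)
    rw [div_mul_eq_mul_div, le_div_iff₀ hm0]
    linarith
  set g : R3 → ℝ := fun y => C ^ 2 / m * slice A x * (ball c r).indicator (fun z => ‖z - c‖⁻¹) y +
    r⁻¹ * A (mk x y) ^ 2 with hg
  have hgi : Integrable g :=
    (((integrable_indicator_iff measurableSet_ball).2 (integrableOn_inv_dist c r)).const_mul _).add
      (hi.const_mul _)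
  have hle : ∀ y, A (mk x y) ^ 2 * ‖y - c‖⁻¹ ≤ g y := fun y => by
    by_cases hy : y ∈ ball c r
    · rw [hg]; simp only [indicator_of_mem hy]
      refine (mul_le_mul_of_nonneg_right (hball y hy) (by positivity)).trans
        (le_add_of_nonneg_right (by positivity))
    · rw [hg]; simp only [indicator_of_notMem hy, mul_zero, zero_add]
      rw [mem_ball, not_lt, dist_eq_norm] at hy
      rw [mul_comm]
      exact mul_le_mul_of_nonneg_right (inv_anti₀ hr0 hy) (sq_nonneg _)
  have hfi : Integrable fun y => A (mk x y) ^ 2 * ‖y - c‖⁻¹ := by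
    refine hgi.mono' ?_ (Eventually.of_forall fun y => ?_)
    · exact (((hA.measurable.comp (continuous_mk_right x).measurable).pow_const 2).mul
        (by fun_prop)).aestronglyMeasurable
    · rw [Real.norm_eq_abs, abs_of_nonneg (by positivity)]; exact hle y
  refine ⟨hfi, (integral_mono hfi hgi hle).trans_eq ?_⟩
  have hJc : ∫ y in ball c r, ‖y - c‖⁻¹ = J := by
    rw [hJ, ← integral_indicator measurableSet_ball, ← integral_indicator measurableSet_ball,
      ← integral_sub_right_eq_self (fun z => (ball (0 : R3) r).indicator (fun y => ‖y - 0‖⁻¹) z) c]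
    refine integral_congr_ae (Eventually.of_forall fun y => ?_)
    simp [indicator, dist_eq_norm]
  rw [hg, integral_add (((integrable_indicator_iff measurableSet_ball).2
      (integrableOn_inv_dist c r)).const_mul _) (hi.const_mul _),
    integral_const_mul, integral_const_mul, integral_indicator measurableSet_ball, hJc, slice]
  ring

lemma slice_wmaj_bound :
    ∃ K, 0 < K ∧ ∀ x : R3, (Integrable fun y => A (mk x y) ^ 2 * wmaj R (mk x y)) ∧
      ∫ y, A (mk x y) ^ 2 * wmaj R (mk x y) ≤ K * U R x * slice A x := by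
  obtain ⟨K, hK, hb⟩ := slice_inv_bound hu hA hC hδ
  refine ⟨1 + K * ((M : ℝ) + 1), by positivity, fun x => ?_⟩
  have hi := slice_sq_integrable hu hA hC hδ x
  have e1 : (fun y => A (mk x y) ^ 2 * wmaj R (mk x y)) = fun y =>
      U R x * A (mk x y) ^ 2 + ((∑ j, A (mk x y) ^ 2 * ‖y - R j‖⁻¹) +
        A (mk x y) ^ 2 * ‖y - x‖⁻¹) := by
    funext y; rw [wmaj_mk, Finset.sum_congr rfl fun j _ => rfl, ← Finset.mul_sum]; ring
  rw [e1]
  have h2 : Integrable fun y => ∑ j, A (mk x y) ^ 2 * ‖y - R j‖⁻¹ :=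
    integrable_finsetSum _ fun j _ => (hb x (R j)).1
  refine ⟨(hi.const_mul _).add (h2.add (hb x x).1), ?_⟩
  rw [integral_add (hi.const_mul _) (h2.fun_add (hb x x).1), integral_add h2 (hb x x).1,
    integral_const_mul, integral_finsetSum _ fun j _ => (hb x (R j)).1]
  have h3 : ∑ j, ∫ y, A (mk x y) ^ 2 * ‖y - R j‖⁻¹ ≤ (M : ℝ) * (K * slice A x) := by
    refine (Finset.sum_le_sum fun j _ => (hb x (R j)).2).trans_eq ?_
    simp
  have h4 := (hb x x).2
  have hU := one_le_U (R := R) x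
  have hS := slice_nonneg A x
  change U R x * slice A x + _ ≤ _
  nlinarith [mul_nonneg (mul_nonneg hK.le hS) (sub_nonneg.2 hU),
    mul_nonneg (mul_nonneg (mul_nonneg hK.le hS) (sub_nonneg.2 hU)) (Nat.cast_nonneg M : (0 : ℝ) ≤ M)]

omit hδ in
/-- A crude bound on the derivatives of a mollification, valid everywhere. -/
lemma pd_moll_bound (hu0 : ∀ X, 0 ≤ u X) {t : ℝ} (ht : 0 < t) (htδ : t ≤ δ) :
    ∃ L, 0 ≤ L ∧ ∀ i k X, |pd i k (moll t u) X| ≤ L * A X := by
  have hloc : LocallyIntegrable u := hu.memLp.locallyIntegrable (by norm_num)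
  set D : Fin 2 → Fin 3 → ℝ := fun i k => ∫ W, |pd i k (rho t) W|
  have hD : ∀ i k, 0 ≤ D i k := fun i k => integral_nonneg fun _ => abs_nonneg _
  refine ⟨C ^ 2 * ∑ i, ∑ k, D i k,
    mul_nonneg (sq_nonneg _) (Finset.sum_nonneg fun i _ => Finset.sum_nonneg fun k _ => hD i k),
    fun i k X => ?_⟩
  have hcs : HasCompactSupport (pd i k (rho t)) :=
    (hasCompactSupport_rho ht).fderiv_apply ℝ (dir i k)
  have hco : Continuous (pd i k (rho t)) :=
    ((contDiff_rho (n := 1) t).continuous_fderiv one_ne_zero).clm_apply continuous_const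
  have hzero : ∀ W : C2, t ^ 2 < nsq W → pd i k (rho t) W = 0 := fun W hW => by
    have : rho t =ᶠ[𝓝 W] fun _ => 0 := by
      filter_upwards [continuous_nsq.continuousAt.eventually (eventually_gt_nhds hW)] with V hV
      exact rho_zero ht hV.le
    rw [pd, this.fderiv_eq, fderiv_fun_const]; rfl
  rw [pd_moll ht hloc, ← Real.norm_eq_abs]
  refine (norm_integral_le_of_norm_le (g := fun Y => |pd i k (rho t) (X - Y)| * (C ^ 2 * A X))
    ((Integrable.comp_sub_left (hco.integrable_of_hasCompactSupport hcs).abs X).mul_const _)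
    ?_).trans ?_
  · filter_upwards [hA.upper] with Y hY
    rw [norm_mul, Real.norm_eq_abs, Real.norm_eq_abs, abs_of_nonneg (hu0 Y)]
    by_cases h : t ^ 2 < nsq (X - Y)
    · simp [hzero _ h]
    · refine mul_le_mul_of_nonneg_left (hY.trans ?_) (abs_nonneg _)
      rw [pow_two C, mul_assoc]
      refine mul_le_mul_of_nonneg_left (hA.step _ _ ?_) hC.le
      rw [dist_eq_norm]
      refine (le_of_pow_le_pow_left₀ two_ne_zero ht.le ?_).trans htδ
      exact (norm_sq_le_nsq _).trans (not_lt.1 h)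
  · rw [integral_mul_const, integral_sub_left_eq_self (fun W => |pd i k (rho t) W|) volume X]
    have h1 : D i k ≤ ∑ i, ∑ k, D i k :=
      (Finset.single_le_sum (fun k _ => hD i k) (Finset.mem_univ k)).trans
        (Finset.single_le_sum (f := fun i => ∑ k, D i k)
          (fun i _ => Finset.sum_nonneg fun k _ => hD i k) (Finset.mem_univ i))
    calc D i k * (C ^ 2 * A X) ≤ (∑ i, ∑ k, D i k) * (C ^ 2 * A X) :=
          mul_le_mul_of_nonneg_right h1 (mul_nonneg (sq_nonneg _) (hA.nonneg X))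
      _ = _ := by ring

end Vale.Agent.P363.Two
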